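import Vale.Agent.P362.Defs

namespace Vale.Agent.P362

open Finset Matrix

/-- real part of the inner product -/
noncomputable def ip {B : Type} [Fintype B] (φ ψ : B → ℂ) : ℝ := ∑ r, (star (φ r) * ψ r).re

lemma ip_unitary {B : Type} [Fintype B] [DecidableEq B] (U : Matrix.unitaryGroup B ℂ)
    (φ ψ : B → ℂ) : ip (U.1 *ᵥ φ) (U.1 *ᵥ ψ) = ip φ ψ := by
  have h : star (U.1 *ᵥ φ) ⬝ᵥ (U.1 *ᵥ ψ) = star φ ⬝ᵥ ψ := by
    rw [star_mulVec, dotProduct_mulVec, vecMul_vecMul, ← star_eq_conjTranspose,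
      (mem_unitaryGroup_iff').1 U.2, vecMul_one]
  unfold ip
  rw [← Complex.re_sum, ← Complex.re_sum]
  exact congrArg Complex.re h

lemma re_self (p : ℂ) : (star p * p).re = ‖p‖ ^ 2 := by
  rw [Complex.sq_norm, Complex.normSq_apply]; simp

lemma re_le (p q : ℂ) (u v : ℝ) :
    |2 * (u * v) * (star p * q).re| ≤ u ^ 2 * ‖p‖ ^ 2 + v ^ 2 * ‖q‖ ^ 2 := by
  rw [Complex.sq_norm, Complex.sq_norm, Complex.normSq_apply, Complex.normSq_apply, abs_le]
  simp only [Complex.star_def, Complex.mul_re, Complex.conj_re, Complex.conj_im]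
  constructor
  · nlinarith [sq_nonneg (u * p.re + v * q.re), sq_nonneg (u * p.im + v * q.im)]
  · nlinarith [sq_nonneg (u * p.re - v * q.re), sq_nonneg (u * p.im - v * q.im)]

variable {n m : ℕ}

lemma oracle_mulVec (x : Fin n → Bool) (φ : Fin n × Bool × Fin m → ℂ) (r : Fin n × Bool × Fin m) :
    (oracle x *ᵥ φ) r = φ (r.1, xor r.2.1 (x r.1), r.2.2) := by
  simp only [Matrix.mulVec, dotProduct, oracle, of_apply]
  rw [sum_eq_single (r.1, xor r.2.1 (x r.1), r.2.2)]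
  · simp
  · intro s _ hs
    rw [if_neg, zero_mul]
    intro h; apply hs; rw [h]; simp
  · simp

/-- query weight -/
noncomputable def qw (φ : Fin n × Bool × Fin m → ℂ) (i : Fin n) : ℝ :=
  ∑ b, ∑ z, ‖φ (i, b, z)‖ ^ 2

lemma sum_qw (φ : Fin n × Bool × Fin m → ℂ) : ∑ i, qw φ i = ip φ φ := by
  simp only [qw, ip, re_self, Fintype.sum_prod_type]

lemma ip_oracle (x y : Fin n → Bool) (φ ψ : Fin n × Bool × Fin m → ℂ) (u v : ℝ) :
    u * v * ip φ ψ - ∑ i, (if x i ≠ y i then u ^ 2 * qw φ i + v ^ 2 * qw ψ i else 0)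
      ≤ u * v * ip (oracle x *ᵥ φ) (oracle y *ᵥ ψ) := by
  simp only [ip, oracle_mulVec, Fintype.sum_prod_type (α₁ := Fin n), mul_sum]
  rw [← sum_sub_distrib]
  refine sum_le_sum (fun i _ => ?_)
  simp only [Fintype.sum_prod_type, Fintype.sum_bool, qw]
  by_cases h : x i = y i
  · rw [← h, if_neg (fun h' => h' rfl), sub_zero]
    refine le_of_eq ?_
    cases x i
    · simp only [Bool.xor_false]
    · simp only [Bool.xor_true, Bool.not_true, Bool.not_false]; rw [add_comm]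
  · rw [if_pos h, mul_add, mul_add, mul_sum, mul_sum, mul_sum, mul_sum, ← sum_add_distrib,
      ← sum_add_distrib, ← sum_add_distrib, ← sum_add_distrib, ← sum_add_distrib, ← sum_sub_distrib]
    refine sum_le_sum (fun z _ => ?_)
    have a1 := abs_le.1 (re_le (φ (i, true, z)) (ψ (i, true, z)) u v)
    have a2 := abs_le.1 (re_le (φ (i, false, z)) (ψ (i, false, z)) u v)
    have a3 := abs_le.1 (re_le (φ (i, true, z)) (ψ (i, false, z)) u v)
    have a4 := abs_le.1 (re_le (φ (i, false, z)) (ψ (i, true, z)) u v)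
    revert h
    cases x i <;> cases y i <;>
      simp only [Bool.xor_true, Bool.xor_false, Bool.not_true, Bool.not_false] <;>
      intro h <;> first | exact absurd trivial h | exact absurd rfl h | linarith

lemma ip_qstate (U : ℕ → Matrix.unitaryGroup (Fin n × Bool × Fin m) ℂ) (s : Fin n × Bool × Fin m)
    (x : Fin n → Bool) : ∀ t, ip (qstate U s x t) (qstate U s x t) = 1
  | 0 => by
    rw [qstate, ip_unitary, ip, sum_eq_single s]
    · simp
    · intro r _ hr; simp [hr]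
    · simp
  | t + 1 => by
    rw [qstate, ip_unitary, ← ip_qstate U s x t]
    simp only [ip, oracle_mulVec, Fintype.sum_prod_type, Fintype.sum_bool]
    refine sum_congr rfl (fun i _ => ?_)
    cases x i <;> simp [add_comm]

lemma ip_final (φ ψ : Fin n × Bool × Fin m → ℂ) (hφ : ip φ φ = 1) (hψ : ip ψ ψ = 1) (c : Bool)
    (h1 : (2 / 3 : ℝ) ≤ ∑ i, ∑ z, ‖φ (i, c, z)‖ ^ 2)
    (h2 : (2 / 3 : ℝ) ≤ ∑ i, ∑ z, ‖ψ (i, !c, z)‖ ^ 2) : ip φ ψ ≤ 33 / 35 := by
  have split : ∀ F : Fin n × Bool × Fin m → ℝ,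
      ∑ r, F r = ∑ i, ∑ z, F (i, c, z) + ∑ i, ∑ z, F (i, !c, z) := by
    intro F
    simp only [Fintype.sum_prod_type, Fintype.sum_bool, sum_add_distrib]
    cases c <;> simp [add_comm]
  unfold ip at *
  rw [split] at hφ hψ ⊢
  simp only [re_self] at hφ hψ
  have b1 : ∑ i, ∑ z, (star (φ (i, c, z)) * ψ (i, c, z)).re
      ≤ 5 / 14 * ∑ i, ∑ z, ‖φ (i, c, z)‖ ^ 2 + 7 / 10 * ∑ i, ∑ z, ‖ψ (i, c, z)‖ ^ 2 := by
    simp only [mul_sum, ← sum_add_distrib]
    refine sum_le_sum (fun i _ => sum_le_sum (fun z _ => ?_))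
    linarith [(abs_le.1 (re_le (φ (i, c, z)) (ψ (i, c, z)) 5 7)).2]
  have b2 : ∑ i, ∑ z, (star (φ (i, !c, z)) * ψ (i, !c, z)).re
      ≤ 7 / 10 * ∑ i, ∑ z, ‖φ (i, !c, z)‖ ^ 2 + 5 / 14 * ∑ i, ∑ z, ‖ψ (i, !c, z)‖ ^ 2 := by
    simp only [mul_sum, ← sum_add_distrib]
    refine sum_le_sum (fun i _ => sum_le_sum (fun z _ => ?_))
    linarith [(abs_le.1 (re_le (φ (i, !c, z)) (ψ (i, !c, z)) 7 5)).2]
  linarith

/-- the adversary bound -/
theorem adversary {T : ℕ} {f : (Fin n → Bool) → Bool} (h : QuantComputes f T) {K : Type}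
    [Fintype K] (a b : K → Fin n → Bool) (hab : ∀ k, f (a k) ≠ f (b k)) (u v : K → ℝ)
    (huv : ∀ k, 0 ≤ u k * v k) (A : ℝ)
    (hA : ∀ ν : (Fin n → Bool) → Fin n → ℝ, (∀ x i, 0 ≤ ν x i) → (∀ x, ∑ i, ν x i = 1) →
      ∑ k, ∑ i, (if a k i ≠ b k i then u k ^ 2 * ν (a k) i + v k ^ 2 * ν (b k) i else 0) ≤ A) :
    2 / 35 * ∑ k, u k * v k ≤ T * A := by
  obtain ⟨m, U, s, hU⟩ := h
  have key : ∀ t : ℕ, ∑ k, u k * v k - t * A
      ≤ ∑ k, u k * v k * ip (qstate U s (a k) t) (qstate U s (b k) t) := by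
    intro t
    induction t with
    | zero =>
      simp only [Nat.cast_zero, zero_mul, sub_zero]
      refine sum_le_sum (fun k _ => ?_)
      have : qstate U s (b k) 0 = qstate U s (a k) 0 := rfl
      rw [this, ip_qstate, mul_one]
    | succ t ih =>
      have h1 := hA (fun x => qw (qstate U s x t))
        (fun x i => sum_nonneg fun _ _ => sum_nonneg fun _ _ => sq_nonneg _)
        (fun x => by rw [sum_qw, ip_qstate])
      have h2 := sum_le_sum (fun k (_ : k ∈ univ) => ip_oracle (a k) (b k) (qstate U s (a k) t)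
        (qstate U s (b k) t) (u k) (v k))
      rw [sum_sub_distrib] at h2
      simp only [qstate, ip_unitary]
      push_cast
      linarith
  have h3 : ∑ k, u k * v k * ip (qstate U s (a k) T) (qstate U s (b k) T)
      ≤ ∑ k, u k * v k * (33 / 35) := by
    refine sum_le_sum (fun k _ => mul_le_mul_of_nonneg_left ?_ (huv k))
    refine ip_final _ _ (ip_qstate _ _ _ _) (ip_qstate _ _ _ _) (f (a k)) (hU _) ?_
    have : (!f (a k)) = f (b k) := by
      have := hab k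
      revert this; cases f (a k) <;> cases f (b k) <;> simp
    rw [this]; exact hU _
  rw [← sum_mul] at h3
  linarith [key T]

end Vale.Agent.P362
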