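import Mathlib

namespace Vale.Agent.P362

open MeasureTheory ProbabilityTheory Finset

/-- Gaussian moments -/
noncomputable def mom (n : ℕ) : ℝ := ∫ x, x ^ n ∂(gaussianReal 0 1)

lemma integrable_pow_gauss (n : ℕ) : Integrable (fun x : ℝ => x ^ n) (gaussianReal 0 1) :=
  integrable_pow_of_mem_interior_integrableExpSet (X := fun x => x) (by simp) n

lemma mom_succ (n : ℕ) : mom (n + 1) = n * mom (n - 1) := by
  set D : ℕ → ℝ → ℝ := fun n => iteratedDeriv n (mgf (fun x : ℝ => x) (gaussianReal 0 1)) with hD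
  have hd : ∀ n t, HasDerivAt (D n) (D (n + 1) t) t := by
    intro n t
    have := (differentiableAt_iteratedDeriv_mgf (X := fun x : ℝ => x) (μ := gaussianReal 0 1)
      (v := t) (by simp) n).hasDerivAt
    simp only [hD, iteratedDeriv_succ]
    exact this
  have key : ∀ n, D (n + 1) = fun t => t * D n t + n * D (n - 1) t := by
    intro n
    induction n with
    | zero =>
      funext t
      have h0 : D 0 = fun t => Real.exp (t ^ 2 / 2) := by
        simp [hD, mgf_fun_id_gaussianReal]
      have h1 : HasDerivAt (fun t : ℝ => Real.exp (t ^ 2 / 2)) (Real.exp (t ^ 2 / 2) * t) t := by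
        have : HasDerivAt (fun t : ℝ => t ^ 2 / 2) t t := by
          simpa using (hasDerivAt_pow 2 t).div_const 2
        exact this.exp
      have h2 := hd 0 t
      rw [h0] at h2
      rw [h2.unique h1, h0]; simp [mul_comm]
    | succ n ih =>
      funext t
      have h1 := hd (n + 1) t
      have h2 := ((hasDerivAt_id t).mul (hd n t)).add ((hd (n - 1) t).const_mul (n : ℝ))
      rw [ih] at h1
      have h3 := h1.unique h2
      rw [h3]
      rcases n with _ | n
      · simp [add_comm]
      · simp only [id, Nat.add_sub_cancel]; push_cast; ring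
  have hm : ∀ n, mom n = D n 0 := by
    intro n
    simp only [hD]
    rw [iteratedDeriv_mgf_zero (by simp)]
    rfl
  rw [hm, hm, key]; simp

variable {κ : Type} [Fintype κ]

/-- standard Gaussian product measure -/
noncomputable abbrev gm (κ : Type) [Fintype κ] : Measure (κ → ℝ) :=
  Measure.pi (fun _ => gaussianReal 0 1)

lemma eval_monomial_eq (n : κ →₀ ℕ) (a : ℝ) (g : κ → ℝ) :
    MvPolynomial.eval g (MvPolynomial.monomial n a) = a * ∏ i, g i ^ n i := by
  rw [MvPolynomial.eval_monomial, Finsupp.prod_fintype _ _ (by simp)]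

lemma integrable_eval (P : MvPolynomial κ ℝ) :
    Integrable (fun g => MvPolynomial.eval g P) (gm κ) := by
  induction P using MvPolynomial.induction_on' with
  | monomial n a =>
    simp only [eval_monomial_eq]
    exact (Integrable.fintype_prod (f := fun i (x : ℝ) => x ^ n i)
      (fun i => integrable_pow_gauss _)).const_mul a
  | add p q hp hq => simp only [map_add]; exact hp.add hq

/-- Gaussian expectation of polynomials -/
noncomputable def GE (κ : Type) [Fintype κ] : MvPolynomial κ ℝ →ₗ[ℝ] ℝ where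
  toFun P := ∫ g, MvPolynomial.eval g P ∂(gm κ)
  map_add' P Q := by
    simp only [map_add]; exact integral_add (integrable_eval P) (integrable_eval Q)
  map_smul' c P := by
    simp only [MvPolynomial.smul_eval, RingHom.id_apply, smul_eq_mul]
    exact integral_const_mul _ _

lemma GE_apply (P : MvPolynomial κ ℝ) : GE κ P = ∫ g, MvPolynomial.eval g P ∂(gm κ) := rfl

lemma GE_monomial (n : κ →₀ ℕ) (a : ℝ) :
    GE κ (MvPolynomial.monomial n a) = a * ∏ i, mom (n i) := by
  rw [GE_apply]
  simp only [eval_monomial_eq]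
  rw [integral_const_mul, integral_fintype_prod_eq_prod (fun i (x : ℝ) => x ^ n i)]
  rfl

/-- Stein's identity -/
lemma GE_stein (s : κ) (P : MvPolynomial κ ℝ) :
    GE κ (MvPolynomial.X s * P) = GE κ (MvPolynomial.pderiv s P) := by
  classical
  induction P using MvPolynomial.induction_on' with
  | monomial n a =>
    rw [MvPolynomial.pderiv_monomial, MvPolynomial.X, MvPolynomial.monomial_mul, GE_monomial,
      GE_monomial, ← mul_prod_erase univ _ (mem_univ s), ← mul_prod_erase univ _ (mem_univ s)]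
    have e1 : ∏ i ∈ univ.erase s, mom ((Finsupp.single s 1 + n : κ →₀ ℕ) i)
        = ∏ i ∈ univ.erase s, mom ((n - Finsupp.single s 1 : κ →₀ ℕ) i) := by
      refine prod_congr rfl (fun i hi => ?_)
      have := ne_of_mem_erase hi
      simp [Finsupp.single_eq_of_ne this]
    rw [e1]
    simp only [Finsupp.coe_add, Pi.add_apply, Finsupp.single_eq_same, Finsupp.coe_tsub,
      Pi.sub_apply]
    rw [add_comm 1, mom_succ]; ring
  | add p q hp hq => rw [mul_add, map_add, map_add, map_add, hp, hq]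

lemma integral_exp_lin (v : κ → ℝ) :
    Integrable (fun g : κ → ℝ => Real.exp (∑ i, v i * g i)) (gm κ) ∧
    ∫ g, Real.exp (∑ i, v i * g i) ∂(gm κ) = Real.exp ((∑ i, v i ^ 2) / 2) := by
  simp only [Real.exp_sum]
  refine ⟨Integrable.fintype_prod (f := fun i (x : ℝ) => Real.exp (v i * x))
    (fun i => integrable_exp_mul_gaussianReal _), ?_⟩
  rw [integral_fintype_prod_eq_prod (fun i (x : ℝ) => Real.exp (v i * x)), sum_div, Real.exp_sum]
  refine prod_congr rfl (fun i _ => ?_)
  have := congrFun (mgf_fun_id_gaussianReal (μ := 0) (v := 1)) (v i)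
  simpa [mgf] using this

/-- the three signs -/
def s3 : Fin 3 → ℝ := ![0, 1, -1]

/-- exponential majorant of `max 1 |w|` -/
noncomputable def maj (q w : ℝ) : ℝ := ∑ j, Real.exp (q * (s3 j * w - s3 j ^ 2))

lemma max_le_maj (q w : ℝ) (hq : 1 ≤ q) : max 1 |w| ≤ maj q w := by
  simp only [maj, s3, Fin.sum_univ_three, Matrix.cons_val_zero, Matrix.cons_val_one,
    Matrix.cons_val]
  have h1 := Real.exp_pos (q * (1 * w - 1 ^ 2))
  have h2 := Real.exp_pos (q * (-1 * w - (-1) ^ 2))
  have h3 := Real.add_one_le_exp (q * (1 * w - 1 ^ 2))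
  have h4 := Real.add_one_le_exp (q * (-1 * w - (-1) ^ 2))
  have h0 : Real.exp (q * (0 * w - 0 ^ 2)) = 1 := by simp
  rw [h0]
  refine max_le (by linarith) ?_
  rcases le_total |w| 1 with h | h
  · linarith
  · rcases abs_cases w with h5 | h5
    · rw [h5.1] at h ⊢; nlinarith
    · rw [h5.1] at h ⊢; nlinarith

lemma integral_maj {M : Type} [Fintype M] [DecidableEq M] (α : M → κ → ℝ) (τ q : ℝ) (hq : 0 ≤ q)
    (hqτ : q * τ ≤ 1) (hα : ∀ s : M → ℝ, ∑ i, (∑ m, s m * α m i) ^ 2 ≤ τ * ∑ m, s m ^ 2) :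
    Integrable (fun g : κ → ℝ => ∏ m, maj q (∑ i, α m i * g i)) (gm κ) ∧
    ∫ g, ∏ m, maj q (∑ i, α m i * g i) ∂(gm κ) ≤ (1 + 2 * Real.exp (-(q / 2))) ^ Fintype.card M := by
  have e : (fun g : κ → ℝ => ∏ m, maj q (∑ i, α m i * g i)) = fun g => ∑ σ : M → Fin 3,
      Real.exp (-(q * ∑ m, s3 (σ m) ^ 2)) *
        Real.exp (∑ i, (q * ∑ m, s3 (σ m) * α m i) * g i) := by
    funext g
    simp only [maj]
    rw [Finset.prod_univ_sum, Fintype.piFinset_univ]
    refine sum_congr rfl (fun σ _ => ?_)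
    rw [← Real.exp_sum, ← Real.exp_add]
    congr 1
    simp only [mul_sub, sum_sub_distrib, mul_sum, sum_mul]
    rw [sum_comm, neg_add_eq_sub]
    congr 1
    exact sum_congr rfl (fun i _ => sum_congr rfl (fun m _ => by ring))
  rw [e]
  refine ⟨integrable_finset_sum _ (fun σ _ => (integral_exp_lin _).1.const_mul _), ?_⟩
  rw [integral_finset_sum _ (fun σ _ => (integral_exp_lin _).1.const_mul _)]
  have e2 : (1 + 2 * Real.exp (-(q / 2))) ^ Fintype.card M
      = ∑ σ : M → Fin 3, ∏ m, Real.exp (-(q / 2 * s3 (σ m) ^ 2)) := by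
    rw [← Fintype.piFinset_univ, ← Finset.prod_univ_sum (fun _ => univ)
      (fun (_ : M) (j : Fin 3) => Real.exp (-(q / 2 * s3 j ^ 2))), prod_const, card_univ]
    congr 1
    simp [s3, Fin.sum_univ_three]; ring
  rw [e2]
  refine sum_le_sum (fun σ _ => ?_)
  rw [integral_const_mul, (integral_exp_lin _).2, ← Real.exp_add, ← Real.exp_sum]
  refine Real.exp_le_exp.2 ?_
  simp only [mul_pow, ← mul_sum, sum_neg_distrib]
  have h1 := hα (fun m => s3 (σ m))
  have h2 : 0 ≤ ∑ m, s3 (σ m) ^ 2 := sum_nonneg (fun _ _ => sq_nonneg _)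
  set A := ∑ m, s3 (σ m) ^ 2
  set B := ∑ i, (∑ m, s3 (σ m) * α m i) ^ 2
  have h3 : q ^ 2 * B ≤ q ^ 2 * (τ * A) := mul_le_mul_of_nonneg_left h1 (sq_nonneg _)
  have h4 : q * τ * (q * A) ≤ 1 * (q * A) := mul_le_mul_of_nonneg_right hqτ (mul_nonneg hq h2)
  nlinarith

end Vale.Agent.P362
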