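import Vale.Agent.P362.Had
import Vale.Agent.P362.Gauss

namespace Vale.Agent.P362

open Finset MvPolynomial

lemma hd_congr {f g : ℝ → ℝ} {a b t : ℝ} (h : HasDerivAt f a t) (e1 : g = f) (e2 : b = a) :
    HasDerivAt g b t := by subst e1 e2; exact h

lemma hasDerivAt_prod {R ι : Type} [CommRing R] [Algebra ℝ R] [DecidableEq ι] (L : R →ₗ[ℝ] ℝ)
    (u v : ι → R) (t : ℝ) (s : Finset ι) : ∀ c : R,
    HasDerivAt (fun t : ℝ => L (c * ∏ q ∈ s, (u q + t • v q)))
      (∑ q ∈ s, L (c * (v q * ∏ q' ∈ s.erase q, (u q' + t • v q')))) t := by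
  induction s using Finset.induction_on with
  | empty => intro c; simpa using hasDerivAt_const t (L c)
  | @insert i s hi ih =>
    intro c
    have h1 := (ih (c * u i)).add ((hasDerivAt_id t).mul (ih (c * v i)))
    refine hd_congr h1 ?_ ?_
    · funext t
      simp only [prod_insert hi, Pi.add_apply, Pi.mul_apply, id, add_mul, mul_add, map_add,
        smul_mul_assoc, mul_smul_comm, map_smul, smul_eq_mul, mul_assoc]
    · rw [sum_insert hi, erase_insert hi, one_mul, id, mul_sum, add_left_comm, ← sum_add_distrib,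
        mul_assoc]
      congr 1
      refine sum_congr rfl (fun q hq => ?_)
      have hne : i ≠ q := fun h => hi (h ▸ hq)
      rw [erase_insert_of_ne hne, prod_insert (fun h => hi (mem_of_mem_erase h)),
        ← smul_eq_mul t, ← map_smul, ← map_add]
      congr 1
      simp only [Algebra.smul_def]; ring

lemma hasDerivAt_ext {R ι : Type} [CommRing R] [Algebra ℝ R] [Fintype ι] [DecidableEq ι]
    (L : R →ₗ[ℝ] ℝ) (f : (ι → Bool) → ℝ) (a b : ι → R) (t : ℝ) :
    HasDerivAt (fun t : ℝ => L (ext f ∅ (fun q => a q + t • b q)))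
      (∑ q, L (b q * ext f {q} (fun q => a q + t • b q))) t := by
  have e : ∀ (t : ℝ) (x : ι → Bool) q, fac ∅ q (a q + t • b q) (x q)
      = (algebraMap ℝ R (1 / 2) + (sg (x q) / 2) • a q) + t • ((sg (x q) / 2) • b q) := by
    intro t x q
    simp only [fac, notMem_empty, if_false, smul_add, add_assoc, smul_comm t]
  have h1 := HasDerivAt.fun_sum (u := univ) (fun (x : ι → Bool) _ =>
    (hasDerivAt_prod L (fun q => algebraMap ℝ R (1 / 2) + (sg (x q) / 2) • a q)
      (fun q => (sg (x q) / 2) • b q) t univ 1).const_mul (f x))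
  refine hd_congr h1 ?_ ?_
  · funext t
    simp only [ext, map_sum, map_smul, smul_eq_mul, one_mul, e]
  · simp only [mul_sum]
    rw [sum_comm]
    refine sum_congr rfl (fun q _ => ?_)
    have : ({q} : Finset ι) = insert q ∅ := rfl
    simp only [ext, this, prod_fac_insert, mul_sum, map_sum, e, one_mul, mul_smul_comm,
      smul_mul_assoc, map_smul, smul_eq_mul]

variable {d k : ℕ}

/-- the Gaussian vector `X_j` -/
noncomputable def Xp (k : ℕ) (σ : ℝ) (j : ℕ) (i : Idx d) : MvPolynomial (Fin (k + 1) × Idx d) ℝ :=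
  if j < k then σ • X (blk k j, i) else 1

/-- the rotated vector `Y_j = H X_j` -/
noncomputable def Yp (k : ℕ) (σ : ℝ) (j : ℕ) (i : Idx d) : MvPolynomial (Fin (k + 1) × Idx d) ℝ :=
  ∑ l, (σ * Hm d i l) • X (blk k j, l)

/-- the random point -/
noncomputable def zp (σ t : ℝ) (q : Fin (k + 1) × Idx d) : MvPolynomial (Fin (k + 1) × Idx d) ℝ :=
  (if q.1.val = 0 then 0 else (1 / 2 : ℝ) • (Yp k σ (q.1.val - 1) q.2 * Xp k σ q.1.val q.2))
    + t • (if q.1.val = 0 then (1 / 2 : ℝ) • Xp k σ q.1.val q.2 else 0)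

lemma pderiv_zp (σ t : ℝ) {j : ℕ} (hj : j < k) (i : Idx d) (q : Fin (k + 1) × Idx d)
    (hq : q ≠ (blk k j, i)) : pderiv (blk k j, i) (zp σ t q)
      = if q.1 = blk k (j + 1) then (σ * Hm d q.2 i / 2) • Xp k σ (j + 1) q.2 else 0 := by
  obtain ⟨j', l⟩ := q
  have hX : pderiv (blk k j, i) (Xp k σ j'.val l) = 0 := by
    unfold Xp
    split_ifs
    · rw [Derivation.map_smul, blk_fin, pderiv_X_of_ne hq, smul_zero]
    · exact pderiv_one
  have hY : ∀ j'', j'' ≤ k → pderiv (blk k j, i) (Yp k σ j'' l)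
      = if j'' = j then C (σ * Hm d l i) else 0 := by
    intro j'' hj''
    unfold Yp
    simp only [map_sum, Derivation.map_smul]
    split_ifs with h
    · subst h
      rw [sum_eq_single i]
      · rw [pderiv_X_self, smul_eq_C_mul, mul_one]
      · intro l' _ hl
        rw [pderiv_X_of_ne (by simp [hl]), smul_zero]
      · simp
    · refine sum_eq_zero (fun l' _ => ?_)
      rw [pderiv_X_of_ne, smul_zero]
      intro h2
      have := congrArg (fun p => p.1.val) h2
      simp only [blk_val hj'', blk_val hj.le] at this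
      exact h this
  have hb : j' = blk k (j + 1) ↔ j'.val = j + 1 := by
    rw [Fin.ext_iff, blk_val hj]
  unfold zp
  simp only [hb]
  by_cases h0 : j'.val = 0
  · have : ¬ j'.val = j + 1 := by omega
    rw [if_pos h0, if_pos h0, if_neg this, zero_add, Derivation.map_smul, Derivation.map_smul, hX]
    simp
  · rw [if_neg h0, if_neg h0, smul_zero, add_zero, Derivation.map_smul, Derivation.leibniz, hX,
      smul_zero, zero_add, hY _ (by omega)]
    by_cases h1 : j'.val = j + 1
    · rw [if_pos h1, if_pos (by omega), h1, smul_eq_mul, mul_comm, ← smul_eq_C_mul, smul_smul]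
      congr 1; ring
    · rw [if_neg h1, if_neg (by omega)]; simp

/-- the terms of the Stein chain -/
noncomputable def chain (σ t : ℝ) (f : (Fin (k + 1) × Idx d → Bool) → ℝ) (j : ℕ) : ℝ :=
  ∑ p : Path d j, pwt j p * GE _ (Xp k σ j (plast j p) * ext f (pset k j p) (zp σ t))

lemma chain_succ (σ t : ℝ) (f : (Fin (k + 1) × Idx d → Bool) → ℝ) {j : ℕ} (hj : j < k) :
    chain σ t f j = σ ^ 2 * rho d / 2 * chain σ t f (j + 1) := by
  unfold chain
  rw [sum_path_succ, mul_sum]
  refine sum_congr rfl (fun p _ => ?_)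
  have e : ∀ q, (if q ∈ pset k j p then 0 else pderiv (blk k j, plast j p) (zp σ t q)
      * ext f (insert q (pset k j p)) (zp σ t))
      = if q.1 = blk k (j + 1) then (σ * Hm d q.2 (plast j p) / 2) •
        (Xp k σ (j + 1) q.2 * ext f (insert q (pset k j p)) (zp σ t)) else 0 := by
    intro q
    by_cases hq : q ∈ pset k j p
    · rw [if_pos hq, if_neg]
      intro h
      have := pset_level j p q hq
      rw [h, blk_val hj] at this; omega
    · rw [if_neg hq, pderiv_zp σ t hj _ q (fun h => hq (h ▸ plast_mem j p))]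
      split_ifs
      · rw [smul_mul_assoc]
      · rw [zero_mul]
  have e0 : Xp k σ j (plast j p) = σ • X (blk k j, plast j p) := if_pos hj
  rw [e0, smul_mul_assoc, map_smul, GE_stein, deriv_ext]
  simp only [e]
  rw [Fintype.sum_prod_type, sum_eq_single (blk k (j + 1))]
  · simp only [if_true, map_sum, map_smul, smul_eq_mul, mul_sum, plast_snoc, pwt_snoc, pset_snoc]
    refine sum_congr rfl (fun l _ => ?_)
    simp only [Hm, Matrix.of_apply]; ring
  · intro j' _ hj'; simp [hj']
  · simp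

lemma chain_zero (σ t : ℝ) (f : (Fin (k + 1) × Idx d → Bool) → ℝ) :
    chain σ t f 0 = (σ ^ 2 * rho d / 2) ^ k * chain σ t f k := by
  have : ∀ j ≤ k, chain σ t f 0 = (σ ^ 2 * rho d / 2) ^ j * chain σ t f j := by
    intro j
    induction j with
    | zero => simp
    | succ j ih => intro hj; rw [ih (by omega), chain_succ σ t f (j := j) (by omega)]; ring
  exact this k le_rfl

lemma hasDerivAt_phi (σ t : ℝ) (f : (Fin (k + 1) × Idx d → Bool) → ℝ) :
    HasDerivAt (fun t : ℝ => GE _ (ext f ∅ (zp σ t)))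
      (1 / 2 * (σ ^ 2 * rho d / 2) ^ k *
        GE _ (∑ p : Path d k, pwt k p • ext f (pset k k p) (zp σ t))) t := by
  have h := hasDerivAt_ext (GE (Fin (k + 1) × Idx d)) f
    (fun q => if q.1.val = 0 then 0 else
      (1 / 2 : ℝ) • (Yp k σ (q.1.val - 1) q.2 * Xp k σ q.1.val q.2))
    (fun q => if q.1.val = 0 then (1 / 2 : ℝ) • Xp k σ q.1.val q.2 else 0) t
  refine hd_congr h rfl ?_
  have e1 : chain σ t f k = GE _ (∑ p : Path d k, pwt k p • ext f (pset k k p) (zp σ t)) := by
    simp [chain, Xp]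
  rw [← e1, mul_assoc, ← chain_zero, chain, sum_path_zero, Fintype.sum_prod_type,
    sum_eq_single (blk k 0), mul_sum]
  · refine sum_congr rfl (fun l _ => ?_)
    have : (blk k 0).val = 0 := blk_val (Nat.zero_le _)
    simp only [this, if_true, pwt_nil, plast_nil, pset_nil, one_mul, smul_mul_assoc, map_smul,
      smul_eq_mul]
    rfl
  · intro j _ hj
    have : j.val ≠ 0 := fun h => hj (by rw [Fin.ext_iff, blk_val (Nat.zero_le _), h])
    simp [this]
  · simp

lemma exists_mean (σ : ℝ) (f : (Fin (k + 1) × Idx d → Bool) → ℝ) :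
    ∃ t : ℝ, |t| ≤ 1 ∧ GE _ (ext f ∅ (zp σ 1)) - GE _ (ext f ∅ (zp σ (-1)))
      = (σ ^ 2 * rho d / 2) ^ k *
        GE _ (∑ p : Path d k, pwt k p • ext f (pset k k p) (zp σ t)) := by
  obtain ⟨t, ht, h⟩ := exists_hasDerivAt_eq_slope (fun t : ℝ => GE _ (ext f ∅ (zp σ t))) _
    (by norm_num : (-1 : ℝ) < 1)
    (fun t _ => (hasDerivAt_phi σ t f).continuousAt.continuousWithinAt)
    (fun t _ => hasDerivAt_phi σ t f)
  refine ⟨t, abs_le.2 ⟨ht.1.le, ht.2.le⟩, ?_⟩
  rw [eq_div_iff (by norm_num)] at h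
  linarith

end Vale.Agent.P362
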