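import Mathlib

namespace Vale.Agent.P362

/-- functions computed by decision trees of depth at most `t` -/
inductive DT {ι α : Type} : ℕ → ((ι → Bool) → α) → Prop
  | const (t : ℕ) (a : α) : DT t (fun _ => a)
  | node {t : ℕ} {f g : (ι → Bool) → α} (i : ι) :
      DT t f → DT t g → DT (t + 1) (fun x => if x i = true then g x else f x)

variable {ι α : Type}

lemma DT.succ {t : ℕ} {f : (ι → Bool) → α} (h : DT t f) : DT (t + 1) f := by
  induction h with
  | const t a => exact .const _ _
  | node i _ _ ih1 ih2 => exact .node i ih1 ih2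

lemma DT.mono {t t' : ℕ} {f : (ι → Bool) → α} (h : DT t f) (ht : t ≤ t') : DT t' f := by
  induction ht with
  | refl => exact h
  | step _ ih => exact ih.succ

lemma DT.of_eq {t : ℕ} {f g : (ι → Bool) → α} (h : DT t f) (e : ∀ x, g x = f x) : DT t g := by
  have : g = f := funext e
  rw [this]; exact h

lemma DT.bind {β : Type} {t t' : ℕ} {g : (ι → Bool) → α} (h : DT t g)
    {k : α → (ι → Bool) → β} (hk : ∀ a, DT t' (k a)) : DT (t + t') (fun x => k (g x) x) := by
  induction h with
  | const t a => exact (hk a).mono (Nat.le_add_left _ _)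
  | @node t f g i _ _ ih1 ih2 =>
    have := DT.node i ih1 ih2
    rw [show t + 1 + t' = t + t' + 1 by omega]
    refine this.of_eq (fun x => ?_)
    beta_reduce
    split_ifs <;> rfl

lemma DT.map {β : Type} {t : ℕ} {g : (ι → Bool) → α} (h : DT t g) (k : α → β) :
    DT t (fun x => k (g x)) :=
  h.bind (t' := 0) (k := fun a _ => k a) (fun a => .const _ _)

lemma DT.query (i : ι) : DT 1 (fun x : ι → Bool => x i) := by
  refine (DT.node i (.const 0 false) (.const 0 true)).of_eq (fun x => ?_)
  cases x i <;> simp

lemma DT.pair {β : Type} {t t' : ℕ} {f : (ι → Bool) → α} {g : (ι → Bool) → β}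
    (hf : DT t f) (hg : DT t' g) : DT (t + t') (fun x => (f x, g x)) :=
  hf.bind (k := fun a x => (a, g x)) (fun a => hg.map (fun b => (a, b)))

lemma DT.piFin {t : ℕ} : ∀ {m : ℕ} {g : Fin m → (ι → Bool) → α}, (∀ j, DT t (g j)) →
    DT (m * t) (fun x j => g j x)
  | 0, g, _ => (DT.const _ (fun j => j.elim0)).of_eq (fun x => funext fun j => j.elim0)
  | m + 1, g, h => by
    have h1 := ((h 0).pair (DT.piFin (g := fun j => g j.succ) (fun j => h j.succ))).map
      (fun p => (Fin.cons p.1 p.2 : Fin (m + 1) → α))
    rw [show (m + 1) * t = t + m * t by ring]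
    refine h1.of_eq (fun x => funext fun j => ?_)
    refine Fin.cases ?_ (fun j => ?_) j <;> simp

lemma DT.pi {K : Type} [Fintype K] {t : ℕ} {g : K → (ι → Bool) → α} (h : ∀ j, DT t (g j)) :
    DT (Fintype.card K * t) (fun x j => g j x) := by
  have h1 := (DT.piFin (g := fun j => g ((Fintype.equivFin K).symm j)) (fun j => h _)).map
    (fun v k => v (Fintype.equivFin K k))
  exact h1.of_eq (fun x => funext fun k => by simp)

/-- substitution of constants and other bits -/
def subst {ι' : Type} (r : ι → ι' ⊕ Bool) (x : ι' → Bool) : ι → Bool :=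
  fun i => Sum.elim x id (r i)

lemma DT.subst {ι' : Type} (r : ι → ι' ⊕ Bool) {t : ℕ} {f : (ι → Bool) → α} (h : DT t f) :
    DT t (fun x => f (subst r x)) := by
  induction h with
  | const t a => exact .const _ _
  | @node t f g i _ _ ih1 ih2 =>
    rcases hr : r i with j | b
    · refine (DT.node j ih1 ih2).of_eq (fun x => ?_)
      simp [P362.subst, hr]
    · cases b
      · refine ih1.succ.of_eq (fun x => ?_)
        simp [P362.subst, hr]
      · refine ih2.succ.of_eq (fun x => ?_)
        simp [P362.subst, hr]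

lemma DT.comap {ι' : Type} (g : ι → ι') {t : ℕ} {f : (ι → Bool) → α} (h : DT t f) :
    DT t (fun x : ι' → Bool => f (x ∘ g)) :=
  (h.subst (fun i => .inl (g i))).of_eq (fun _ => rfl)

lemma DT.update [DecidableEq ι] {t : ℕ} {f : (ι → Bool) → α} (h : DT t f) (i : ι) (b : Bool) :
    DT t (fun x => f (Function.update x i b)) := by
  refine (h.subst (fun j => if j = i then .inr b else .inl j)).of_eq (fun x => ?_)
  congr 1; funext j
  by_cases hj : j = i
  · subst hj; simp [P362.subst]
  · simp [P362.subst, hj]

lemma DT.all [Fintype ι] (f : (ι → Bool) → α) : DT (Fintype.card ι) f := by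
  have := (DT.pi (g := fun (i : ι) (x : ι → Bool) => x i) (fun i => DT.query i)).map f
  rw [mul_one] at this
  exact this

end Vale.Agent.P362
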