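import Mathlib

namespace Vale.Agent.P362

open Matrix

/-- Deterministic query algorithms (decision trees) on `n` input bits. -/
inductive DTree (n : ℕ) : Type
  | leaf : Bool → DTree n
  | node : Fin n → DTree n → DTree n → DTree n

/-- The output of a decision tree on the input `x`. -/
def DTree.eval {n : ℕ} : DTree n → (Fin n → Bool) → Bool
  | .leaf b, _ => b
  | .node i t0 t1, x => if x i = true then t1.eval x else t0.eval x

/-- The number of queries a decision tree makes on the input `x`. -/
def DTree.cost {n : ℕ} : DTree n → (Fin n → Bool) → ℕ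
  | .leaf _, _ => 0
  | .node i t0 t1, x => (if x i = true then t1.cost x else t0.cost x) + 1

/-- A randomized algorithm (a probability distribution on decision trees) that makes at most `T`
queries on every input and every random choice computes `f` with probability at least `2/3`. -/
def RandComputes {n : ℕ} (f : (Fin n → Bool) → Bool) (T : ℕ) : Prop :=
  ∃ p : PMF (DTree n), (∀ t ∈ p.support, ∀ x, t.cost x ≤ T) ∧
    ∀ x, (2 / 3 : ENNReal) ≤ p.toOuterMeasure {t | t.eval x = f x}

/-- Bounded-error randomized query complexity `R(f)`. -/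
noncomputable def randQuery {n : ℕ} (f : (Fin n → Bool) → Bool) : ℕ :=
  sInf {T | RandComputes f T}

/-- The query unitary `O_x |i,b,z⟩ = |i, b ⊕ x_i, z⟩` with a work register of dimension `m`. -/
def oracle {n m : ℕ} (x : Fin n → Bool) :
    Matrix (Fin n × Bool × Fin m) (Fin n × Bool × Fin m) ℂ :=
  Matrix.of fun r s => if r = (s.1, xor s.2.1 (x s.1), s.2.2) then 1 else 0

/-- The state `U_t O_x U_{t-1} ⋯ O_x U_0 |s⟩` after `t` queries. -/
noncomputable def qstate {n m : ℕ} (U : ℕ → Matrix.unitaryGroup (Fin n × Bool × Fin m) ℂ)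
    (s : Fin n × Bool × Fin m) (x : Fin n → Bool) : ℕ → (Fin n × Bool × Fin m) → ℂ
  | 0 => (U 0).1 *ᵥ Pi.single s 1
  | t + 1 => (U (t + 1)).1 *ᵥ (oracle x *ᵥ qstate U s x t)

/-- A quantum algorithm with `T` queries, whose output is the measured value of the
register `b`, computes `f` with probability at least `2/3`. -/
def QuantComputes {n : ℕ} (f : (Fin n → Bool) → Bool) (T : ℕ) : Prop :=
  ∃ (m : ℕ) (U : ℕ → Matrix.unitaryGroup (Fin n × Bool × Fin m) ℂ) (s : Fin n × Bool × Fin m),
    ∀ x, (2 / 3 : ℝ) ≤ ∑ i : Fin n, ∑ z : Fin m, ‖qstate U s x T (i, f x, z)‖ ^ 2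

/-- Bounded-error quantum query complexity `Q(f)`. -/
noncomputable def quantQuery {n : ℕ} (f : (Fin n → Bool) → Bool) : ℕ :=
  sInf {T | QuantComputes f T}

/-- The exponents `α ≥ 0` with `R(f) ≤ C (1 + Q(f))^α` for all total Boolean functions. -/
def exponents : Set ℝ :=
  {α | 0 ≤ α ∧ ∃ C : ℝ, ∀ n : ℕ, 1 ≤ n → ∀ f : (Fin n → Bool) → Bool,
    (randQuery f : ℝ) ≤ C * (1 + (quantQuery f : ℝ)) ^ α}

/-- The optimal exponent `α_tot`. -/
noncomputable def alphaTot : ℝ := sInf exponents

end Vale.Agent.P362
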