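import Mathlib

namespace Vale.Agent.P362

open Matrix Finset

/-- real orthogonal matrices -/
def Orth {B : Type} [Fintype B] [DecidableEq B] (U : Matrix B B ℝ) : Prop := Uᵀ * U = 1

section
variable {B : Type} [Fintype B] [DecidableEq B]

lemma Orth.mul_transpose {U : Matrix B B ℝ} (h : Orth U) : U * Uᵀ = 1 :=
  mul_eq_one_comm.1 h

lemma orth_one : Orth (1 : Matrix B B ℝ) := by simp [Orth]

lemma Orth.mul {U V : Matrix B B ℝ} (hU : Orth U) (hV : Orth V) : Orth (U * V) := by
  unfold Orth at *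
  rw [transpose_mul, Matrix.mul_assoc, ← Matrix.mul_assoc Uᵀ, hU, Matrix.one_mul, hV]

lemma Orth.transpose {U : Matrix B B ℝ} (hU : Orth U) : Orth Uᵀ := by
  unfold Orth
  rw [transpose_transpose]; exact hU.mul_transpose

lemma Orth.col_sq {U : Matrix B B ℝ} (hU : Orth U) (s : B) : ∑ b, U b s ^ 2 = 1 := by
  have := congrFun (congrFun hU s) s
  simp only [Matrix.mul_apply, transpose_apply, one_apply_eq] at this
  rw [← this]; exact sum_congr rfl (fun b _ => by ring)

lemma Orth.abs_le {U : Matrix B B ℝ} (hU : Orth U) (a s : B) : |U a s| ≤ 1 := by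
  have h1 := hU.col_sq s
  have h2 : U a s ^ 2 ≤ ∑ b, U b s ^ 2 :=
    single_le_sum (f := fun b => U b s ^ 2) (fun b _ => sq_nonneg _) (mem_univ a)
  rw [h1] at h2
  exact abs_le_one_iff_mul_self_le_one.2 (by nlinarith)

lemma orth_diagonal (w : B → ℝ) (hw : ∀ b, w b * w b = 1) : Orth (diagonal w) := by
  unfold Orth
  rw [diagonal_transpose, diagonal_mul_diagonal]
  simp [hw]

lemma orth_reindex {B' : Type} [Fintype B'] [DecidableEq B'] (e : B' ≃ B) {U : Matrix B B ℝ}
    (hU : Orth U) : Orth (U.submatrix e e) := by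
  unfold Orth at *
  rw [transpose_submatrix, submatrix_mul_equiv, hU, submatrix_one_equiv]

/-- permutation matrices -/
def permM (σ : B ≃ B) : Matrix B B ℝ := Matrix.of fun a b => if a = σ b then 1 else 0

lemma orth_permM (σ : B ≃ B) : Orth (permM σ) := by
  unfold Orth permM
  ext a b
  simp only [Matrix.mul_apply, transpose_apply, of_apply, one_apply]
  simp only [ite_mul, one_mul, zero_mul, sum_ite_eq', mem_univ, if_true, EmbeddingLike.apply_eq_iff_eq]

/-- Householder: every unit vector is a column of an orthogonal matrix -/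
lemma exists_orth_col (s : B) (u : B → ℝ) (hu : ∑ b, u b ^ 2 = 1) :
    ∃ U : Matrix B B ℝ, Orth U ∧ ∀ b, U b s = u b := by
  set w : B → ℝ := fun b => (if b = s then 1 else 0) - u b with hw
  set n : ℝ := ∑ b, w b * w b with hn
  have hn2 : n = 2 * w s := by
    have : ∀ b, w b * w b = (if b = s then 1 - 2 * u b else 0) + u b ^ 2 := by
      intro b; simp only [hw]; split_ifs <;> ring
    rw [hn, sum_congr rfl (fun b _ => this b), sum_add_distrib, hu]
    simp [hw]; ring
  set c : ℝ := 2 / n with hc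
  have hcc : c * c * n = 2 * c := by
    by_cases h0 : n = 0
    · simp [hc, h0]
    · rw [hc]; field_simp
  refine ⟨1 - c • vecMulVec w w, ?_, ?_⟩
  · unfold Orth
    have ht : (1 - c • vecMulVec w w)ᵀ = 1 - c • vecMulVec w w := by
      rw [transpose_sub, transpose_one, transpose_smul, transpose_vecMulVec]
    have hm : vecMulVec w w * vecMulVec w w = n • vecMulVec w w := by
      ext a b
      simp only [Matrix.mul_apply, vecMulVec_apply, Matrix.smul_apply, smul_eq_mul, hn, sum_mul]
      exact sum_congr rfl (fun k _ => by ring)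
    rw [ht, Matrix.sub_mul, Matrix.mul_sub, Matrix.mul_sub, Matrix.one_mul, Matrix.one_mul,
      Matrix.mul_one, Matrix.smul_mul, Matrix.mul_smul, hm, smul_smul, smul_smul, hcc]
    module
  · intro b
    simp only [Matrix.sub_apply, Matrix.smul_apply, vecMulVec_apply, smul_eq_mul, one_apply]
    by_cases h0 : n = 0
    · have hz : w b = 0 := by
        have h1 : w b * w b ≤ n :=
          single_le_sum (f := fun b => w b * w b) (fun b _ => mul_self_nonneg _) (mem_univ b)
        have := mul_self_nonneg (w b)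
        exact mul_self_eq_zero.1 (by linarith)
      rw [hz]
      have : (if b = s then (1:ℝ) else 0) - u b = 0 := hz
      linarith
    · have h1 : c * w s = 1 := by
        rw [hc]; field_simp; linarith
      have : c * (w b * w s) = w b := by
        calc c * (w b * w s) = w b * (c * w s) := by ring
          _ = w b := by rw [h1, mul_one]
      rw [this]; simp [hw]
end

/-- the sign of a bit -/
def sg (b : Bool) : ℝ := if b = true then -1 else 1

@[simp] lemma sg_true : sg true = -1 := rfl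
@[simp] lemma sg_false : sg false = 1 := rfl
lemma sg_mul_self (b : Bool) : sg b * sg b = 1 := by cases b <;> simp
lemma abs_sg (b : Bool) : |sg b| = 1 := by cases b <;> simp

/-- the sign attached to an optional query position -/
def psg {ι : Type} (x : ι → Bool) : Option ι → ℝ
  | none => 1
  | some i => sg (x i)

lemma psg_mul_self {ι : Type} (x : ι → Bool) (o : Option ι) : psg x o * psg x o = 1 := by
  cases o <;> simp [psg, sg_mul_self]

/-- phase oracle -/
def phase {ι B : Type} [DecidableEq B] (q : B → Option ι) (x : ι → Bool) : Matrix B B ℝ :=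
  diagonal fun b => psg x (q b)

/-- families of orthogonal matrices computed with `T` phase queries -/
def QM {ι B : Type} [Fintype B] [DecidableEq B] :
    ℕ → ((ι → Bool) → Matrix B B ℝ) → Prop
  | 0, M => ∃ U, Orth U ∧ ∀ x, M x = U
  | T + 1, M => ∃ (M' : (ι → Bool) → Matrix B B ℝ) (q : B → Option ι) (U : Matrix B B ℝ),
      QM T M' ∧ Orth U ∧ ∀ x, M x = U * phase q x * M' x

section
variable {ι B : Type} [Fintype B] [DecidableEq B]

lemma orth_phase (q : B → Option ι) (x : ι → Bool) : Orth (phase q x) :=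
  orth_diagonal _ (fun _ => psg_mul_self _ _)

lemma QM.orth : ∀ {T : ℕ} {M : (ι → Bool) → Matrix B B ℝ}, QM T M → ∀ x, Orth (M x)
  | 0, _, ⟨_, hU, h⟩, x => h x ▸ hU
  | _ + 1, _, ⟨_, q, _, hM, hU, h⟩, x => h x ▸ (hU.mul (orth_phase q x)).mul (hM.orth x)

lemma QM.const {U : Matrix B B ℝ} (hU : Orth U) : QM (ι := ι) 0 (fun _ => U) :=
  ⟨U, hU, fun _ => rfl⟩

lemma QM.mul_left {V : Matrix B B ℝ} (hV : Orth V) :
    ∀ {T : ℕ} {M : (ι → Bool) → Matrix B B ℝ}, QM T M → QM T (fun x => V * M x)
  | 0, _, ⟨U, hU, h⟩ => ⟨V * U, hV.mul hU, fun x => by beta_reduce; rw [h x]⟩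
  | _ + 1, _, ⟨M', q, U, hM, hU, h⟩ =>
    ⟨M', q, V * U, hM, hV.mul hU, fun x => by beta_reduce; rw [h x]; simp only [Matrix.mul_assoc]⟩

lemma QM.mul {S : ℕ} {N : (ι → Bool) → Matrix B B ℝ} (hN : QM S N) :
    ∀ {T : ℕ} {M : (ι → Bool) → Matrix B B ℝ}, QM T M → QM (S + T) (fun x => M x * N x)
  | 0, M, ⟨U, hU, h⟩ => by
    have : (fun x => M x * N x) = fun x => U * N x := by funext x; rw [h x]
    rw [this]; exact hN.mul_left hU
  | T + 1, _, ⟨M', q, U, hM, hU, h⟩ =>
    ⟨fun x => M' x * N x, q, U, hN.mul hM, hU, fun x => by beta_reduce; rw [h x]; simp only [Matrix.mul_assoc]⟩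

lemma QM.mul_right {V : Matrix B B ℝ} (hV : Orth V) {T : ℕ} {M : (ι → Bool) → Matrix B B ℝ}
    (h : QM T M) : QM T (fun x => M x * V) := by
  simpa using (QM.const hV).mul h

lemma QM.phase (q : B → Option ι) : QM 1 (phase q) :=
  ⟨fun _ => 1, q, 1, QM.const orth_one, orth_one, fun x => by simp⟩

lemma QM.transpose : ∀ {T : ℕ} {M : (ι → Bool) → Matrix B B ℝ}, QM T M → QM T (fun x => (M x)ᵀ)
  | 0, _, ⟨U, hU, h⟩ => ⟨Uᵀ, hU.transpose, fun x => by beta_reduce; rw [h x]⟩
  | T + 1, M, ⟨M', q, U, hM, hU, h⟩ => by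
    have h1 := ((QM.phase q).mul_right hU.transpose).mul hM.transpose
    rw [add_comm] at h1
    have : (fun x => (M x)ᵀ) = fun x => (M' x)ᵀ * (P362.phase q x * Uᵀ) := by
      funext x
      rw [h x, transpose_mul, transpose_mul, P362.phase, diagonal_transpose]
    rw [this]; exact h1

lemma QM.succ {T : ℕ} {M : (ι → Bool) → Matrix B B ℝ} (h : QM T M) : QM (T + 1) M :=
  ⟨M, fun _ => none, 1, h, orth_one, fun x => by simp [P362.phase, psg]⟩

lemma QM.mono {T T' : ℕ} {M : (ι → Bool) → Matrix B B ℝ} (h : QM T M) (hT : T ≤ T') :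
    QM T' M := by
  induction hT with
  | refl => exact h
  | step _ ih => exact ih.succ

lemma QM.reindex {B' : Type} [Fintype B'] [DecidableEq B'] (e : B' ≃ B) :
    ∀ {T : ℕ} {M : (ι → Bool) → Matrix B B ℝ}, QM T M → QM T (fun x => (M x).submatrix e e)
  | 0, _, ⟨U, hU, h⟩ => ⟨U.submatrix e e, orth_reindex e hU, fun x => by beta_reduce; rw [h x]⟩
  | _ + 1, _, ⟨M', q, U, hM, hU, h⟩ =>
    ⟨fun x => (M' x).submatrix e e, q ∘ e, U.submatrix e e, hM.reindex e, orth_reindex e hU,
      fun x => by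
        beta_reduce
        rw [h x, ← submatrix_mul_equiv _ _ _ e, ← submatrix_mul_equiv _ _ _ e]
        simp [P362.phase, submatrix_diagonal_equiv, Function.comp_def]⟩

lemma QM.comap {ι' : Type} (g : ι → ι') :
    ∀ {T : ℕ} {M : (ι → Bool) → Matrix B B ℝ}, QM T M → QM T (fun x : ι' → Bool => M (x ∘ g))
  | 0, _, ⟨U, hU, h⟩ => ⟨U, hU, fun x => by beta_reduce; rw [h]⟩
  | _ + 1, _, ⟨M', q, U, hM, hU, h⟩ =>
    ⟨fun x => M' (x ∘ g), fun b => (q b).map g, U, hM.comap g, hU, fun x => by
      beta_reduce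
      rw [h]
      have : P362.phase q (x ∘ g) = P362.phase (fun b => (q b).map g) x := by
        unfold P362.phase
        congr 1; funext b
        beta_reduce
        cases q b <;> simp [psg]
      rw [this]⟩

lemma orth_block {K : Type} [Fintype K] [DecidableEq K] {C : K → Type} [∀ k, Fintype (C k)]
    [∀ k, DecidableEq (C k)] {U : ∀ k, Matrix (C k) (C k) ℝ} (hU : ∀ k, Orth (U k)) :
    Orth (blockDiagonal' U) := by
  unfold Orth at *
  rw [blockDiagonal'_transpose, ← blockDiagonal'_mul]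
  simp only [hU]
  exact blockDiagonal'_one

lemma QM.block {K : Type} [Fintype K] [DecidableEq K] {C : K → Type} [∀ k, Fintype (C k)]
    [∀ k, DecidableEq (C k)] :
    ∀ {T : ℕ} {M : ∀ k, (ι → Bool) → Matrix (C k) (C k) ℝ}, (∀ k, QM T (M k)) →
      QM T (fun x => blockDiagonal' (fun k => M k x))
  | 0, M, h => by
    choose U hU h using h
    exact ⟨blockDiagonal' U, orth_block hU, fun x => by simp only [h]⟩
  | T + 1, M, h => by
    choose M' q U hM hU h using h
    refine ⟨fun x => blockDiagonal' (fun k => M' k x), fun c => q c.1 c.2, blockDiagonal' U,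
      QM.block hM, orth_block hU, fun x => ?_⟩
    have : P362.phase (fun c : Σ k, C k => q c.1 c.2) x
        = blockDiagonal' (fun k => P362.phase (q k) x) := by
      unfold P362.phase
      rw [blockDiagonal'_diagonal]
    beta_reduce
    rw [this, ← blockDiagonal'_mul, ← blockDiagonal'_mul]
    simp only [h]

lemma orth_sum {C : Type} [Fintype C] [DecidableEq C] {U : Matrix B B ℝ} {V : Matrix C C ℝ}
    (hU : Orth U) (hV : Orth V) : Orth (fromBlocks U 0 0 V) := by
  unfold Orth at *
  rw [fromBlocks_transpose, fromBlocks_multiply]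
  simp [hU, hV]

lemma QM.sum {C : Type} [Fintype C] [DecidableEq C] :
    ∀ {T : ℕ} {M : (ι → Bool) → Matrix B B ℝ} {N : (ι → Bool) → Matrix C C ℝ},
      QM T M → QM T N → QM T (fun x => fromBlocks (M x) 0 0 (N x))
  | 0, _, _, ⟨U, hU, h⟩, ⟨V, hV, h'⟩ =>
    ⟨fromBlocks U 0 0 V, orth_sum hU hV, fun x => by beta_reduce; rw [h, h']⟩
  | T + 1, M, N, ⟨M', q, U, hM, hU, h⟩, ⟨N', q', V, hN, hV, h'⟩ => by
    refine ⟨fun x => fromBlocks (M' x) 0 0 (N' x), Sum.elim q q', fromBlocks U 0 0 V,
      hM.sum hN, orth_sum hU hV, fun x => ?_⟩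
    have : P362.phase (Sum.elim q q') x
        = fromBlocks (P362.phase q x) 0 0 (P362.phase q' x) := by
      unfold P362.phase
      rw [fromBlocks_diagonal]
      congr 1; funext c; cases c <;> rfl
    beta_reduce
    rw [this, fromBlocks_multiply, fromBlocks_multiply, h, h']
    simp
end

end Vale.Agent.P362
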