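import Vale.Agent.P362.Prod
import Vale.Agent.P362.QM
import Vale.Agent.P362.DT

namespace Vale.Agent.P362

open Finset

variable {ι : Type} [Fintype ι] [DecidableEq ι]

/-- one factor of the multilinear extension -/
noncomputable def fac {R : Type} [CommRing R] [Algebra ℝ R] (S : Finset ι) (q : ι) (w : R)
    (b : Bool) : R :=
  if q ∈ S then algebraMap ℝ R (sg b / 2) else algebraMap ℝ R (1 / 2) + (sg b / 2) • w

/-- the partial derivative in the directions `S` of the multilinear extension of `f` -/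
noncomputable def ext {R : Type} [CommRing R] [Algebra ℝ R] (f : (ι → Bool) → ℝ) (S : Finset ι)
    (z : ι → R) : R :=
  ∑ x : ι → Bool, f x • ∏ q, fac S q (z q) (x q)

omit [Fintype ι] in
lemma fac_real (S : Finset ι) (q : ι) (w : ℝ) (b : Bool) :
    fac S q w b = if q ∈ S then sg b / 2 else (1 + sg b * w) / 2 := by
  unfold fac; split_ifs
  · simp
  · simp; ring

lemma ext_real (f : (ι → Bool) → ℝ) (S : Finset ι) (z : ι → ℝ) :
    ext f S z = PE (fun q => fac S q (z q)) f := by
  unfold ext PE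
  exact sum_congr rfl (fun x _ => by rw [smul_eq_mul, mul_comm])

lemma map_ext {R R' : Type} [CommRing R] [Algebra ℝ R] [CommRing R'] [Algebra ℝ R']
    (φ : R →ₐ[ℝ] R') (f : (ι → Bool) → ℝ) (S : Finset ι) (z : ι → R) :
    φ (ext f S z) = ext f S (fun q => φ (z q)) := by
  unfold ext
  simp only [map_sum, map_smul, map_prod]
  refine sum_congr rfl (fun x _ => ?_)
  congr 1
  refine prod_congr rfl (fun q _ => ?_)
  unfold fac; split_ifs <;> simp

omit [Fintype ι] in
lemma deriv_prod {R : Type} [CommRing R] [Algebra ℝ R] (D : Derivation ℝ R R) (s : Finset ι)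
    (u : ι → R) : D (∏ q ∈ s, u q) = ∑ q ∈ s, D (u q) * ∏ q' ∈ s.erase q, u q' := by
  induction s using Finset.induction_on with
  | empty => simp
  | @insert i s hi ih =>
    rw [prod_insert hi, D.leibniz, ih, sum_insert hi, erase_insert hi, smul_eq_mul, smul_eq_mul,
      mul_sum, add_comm, mul_comm (∏ q ∈ s, u q)]
    congr 1
    refine sum_congr rfl (fun q hq => ?_)
    have hne : i ≠ q := fun h => hi (h ▸ hq)
    rw [erase_insert_of_ne hne, prod_insert (fun h => hi (mem_of_mem_erase h))]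
    ring

lemma prod_fac_insert {R : Type} [CommRing R] [Algebra ℝ R] (S : Finset ι) (q : ι) (z : ι → R)
    (x : ι → Bool) : ∏ q', fac (insert q S) q' (z q') (x q')
      = (sg (x q) / 2) • ∏ q' ∈ univ.erase q, fac S q' (z q') (x q') := by
  rw [← mul_prod_erase univ _ (mem_univ q), Algebra.smul_def]
  congr 1
  · simp [fac]
  · refine prod_congr rfl (fun q' hq' => ?_)
    have := ne_of_mem_erase hq'
    simp [fac, this]

lemma deriv_ext {R : Type} [CommRing R] [Algebra ℝ R] (D : Derivation ℝ R R)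
    (f : (ι → Bool) → ℝ) (S : Finset ι) (z : ι → R) :
    D (ext f S z) = ∑ q, if q ∈ S then 0 else D (z q) * ext f (insert q S) z := by
  unfold ext
  simp only [map_sum, Derivation.map_smul, deriv_prod, smul_sum, prod_fac_insert]
  rw [sum_comm]
  refine sum_congr rfl (fun q _ => ?_)
  split_ifs with hq
  · refine sum_eq_zero (fun x _ => ?_)
    simp [fac, hq]
  · rw [mul_sum]
    refine sum_congr rfl (fun x _ => ?_)
    simp only [fac, hq, if_false, map_add, Derivation.map_algebraMap, zero_add,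
      Derivation.map_smul, smul_mul_assoc, mul_smul_comm]

lemma sum_abs_fac (w : ℝ) : ∑ b : Bool, |(1 + sg b * w) / 2| = max 1 |w| := by
  simp only [Fintype.sum_bool, sg_true, sg_false]
  rcases le_total 0 w with h | h
  · rw [abs_of_nonneg h, abs_of_nonneg (by linarith : 0 ≤ (1 + 1 * w) / 2)]
    rcases le_total w 1 with h1 | h1
    · rw [max_eq_left h1, abs_of_nonneg (by linarith)]; ring
    · rw [max_eq_right h1, abs_of_nonpos (by linarith)]; ring
  · rw [abs_of_nonpos h, abs_of_nonneg (by linarith : 0 ≤ (1 + -1 * w) / 2)]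
    rcases le_total (-w) 1 with h1 | h1
    · rw [max_eq_left h1, abs_of_nonneg (by linarith)]; ring
    · rw [max_eq_right h1, abs_of_nonpos (by linarith)]; ring

lemma abs_PE_le {K : Type} [Fintype K] [DecidableEq K] (z : K → ℝ) (g : (K → Bool) → ℝ) (B : ℝ)
    (hg : ∀ x, |g x| ≤ B) :
    |PE (fun q b => (1 + sg b * z q) / 2) g| ≤ B * ∏ q, max 1 |z q| := by
  unfold PE
  refine (abs_sum_le_sum_abs _ _).trans ?_
  simp only [← sum_abs_fac]
  rw [← sum_prod_weight (fun q b => |(1 + sg b * z q) / 2|), mul_sum]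
  refine sum_le_sum (fun x _ => ?_)
  rw [abs_mul, abs_prod, mul_comm]
  exact mul_le_mul_of_nonneg_right (hg x) (prod_nonneg fun _ _ => abs_nonneg _)

lemma abs_ext_le (f : (ι → Bool) → ℝ) (hf : ∀ x, |f x| ≤ 1) (z : ι → ℝ) :
    |ext f ∅ z| ≤ ∏ q, max 1 |z q| := by
  have := abs_PE_le z f 1 hf
  rw [one_mul] at this
  rw [ext_real]
  convert this using 4 with q b
  funext b; simp [fac_real]

lemma ext_vertex (f : (ι → Bool) → ℝ) (S : Finset ι) (z : ι → ℝ) :
    ext f S z = PE (fun q b => (1 + sg b * (2 * z q)) / 2)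
      (fun σ => ext f S (fun q => sg (σ q) / 2)) := by
  unfold ext
  rw [PE_sum]
  refine sum_congr rfl (fun x _ => ?_)
  simp only [smul_eq_mul]
  rw [PE_const_mul, PE_prod _ (fun q b => fac S q (sg b / 2) (x q))]
  congr 1
  refine prod_congr rfl (fun q _ => ?_)
  simp only [fac_real, Fintype.sum_bool, sg_true, sg_false]
  split_ifs <;> ring

lemma ext_node (f : (ι → Bool) → ℝ) (S : Finset ι) (z : ι → ℝ) (i : ι) :
    ext f S z = ∑ b, fac S i (z i) b * ext (fun x => f (Function.update x i b)) (S.erase i) z := by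
  have h1 : ∑ y, fac (S.erase i) i (z i) y = 1 := by
    simp [fac_real]; ring
  have h2 := PE_update (w := fun q => fac (S.erase i) q (z q)) i h1 (fac S i (z i)) f
  have e : Function.update (fun q => fac (S.erase i) q (z q)) i (fac S i (z i))
      = fun q => fac S q (z q) := by
    funext q
    by_cases hq : q = i
    · subst hq; simp
    · rw [Function.update_of_ne hq]; funext b; simp [fac, hq]
  rw [e] at h2
  rw [ext_real, h2, PE_sum]
  simp only [PE_const_mul, ext_real]

lemma ext_const (a : ℝ) (S : Finset ι) (z : ι → ℝ) :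
    ext (fun _ => a) S z = if S = ∅ then a else 0 := by
  rw [ext_real]
  have := PE_prod (fun q => fac S q (z q)) (fun _ _ => (1 : ℝ))
  simp only [prod_const_one, mul_one] at this
  have h2 := PE_const_mul (fun q => fac S q (z q)) a (fun _ => 1)
  simp only [mul_one] at h2
  rw [h2, this]
  split_ifs with hS
  · subst hS
    rw [prod_eq_one, mul_one]
    intro q _; simp [fac_real]; ring
  · obtain ⟨q, hq⟩ := nonempty_iff_ne_empty.2 hS
    rw [prod_eq_zero (mem_univ q), mul_zero]
    simp [fac_real, hq]; ring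

lemma sum_finset_split (i : ι) (F : Finset ι → ℝ) :
    ∑ S, F S = ∑ S ∈ (univ.erase i).powerset, (F S + F (insert i S)) := by
  rw [sum_add_distrib, ← sum_powerset_insert (notMem_erase i univ), insert_erase (mem_univ i),
    powerset_univ]

lemma taylor_bound (y h m c : ℝ) (hy : |y| ≤ m) (hh : |h| ≤ c * m) (hc0 : 0 ≤ c) (hc : c ≤ 1)
    (n : ℕ) : |(y + h) ^ (n + 1) - y ^ (n + 1) - (n + 1) * y ^ n * h|
      ≤ (2 ^ (n + 1) - n - 2) * c ^ 2 * m ^ (n + 1) := by
  have hm : 0 ≤ m := (abs_nonneg _).trans hy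
  induction n with
  | zero => simp
  | succ n ih =>
    have e : (y + h) ^ (n + 1 + 1) - y ^ (n + 1 + 1) - ((n + 1 : ℕ) + 1) * y ^ (n + 1) * h
        = (y + h) * ((y + h) ^ (n + 1) - y ^ (n + 1) - (n + 1) * y ^ n * h)
          + (n + 1) * y ^ n * h ^ 2 := by push_cast; ring
    rw [e]
    refine (abs_add_le _ _).trans ?_
    have h1 : |y + h| ≤ 2 * m := by
      have := abs_add_le y h
      nlinarith
    have h2 : |(n + 1) * y ^ n * h ^ 2| ≤ (n + 1) * m ^ n * (c * m) ^ 2 := by
      rw [abs_mul, abs_mul, abs_pow, abs_pow, abs_of_nonneg (by positivity : (0 : ℝ) ≤ n + 1)]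
      gcongr
    rw [abs_mul]
    have h3 := mul_le_mul h1 ih (abs_nonneg _) (by positivity)
    refine (add_le_add h3 h2).trans (le_of_eq ?_)
    push_cast; ring

lemma step_bound (r : ℕ) (μ lam y y' : ℝ) (hμ : |μ| ≤ 1 / 2) (hl : 2 ≤ lam) :
    ∑ b : Bool, (1 + sg b * μ) / 2 * (y + sg b / (1 + sg b * μ) * (y' / lam)) ^ (2 * r + 2)
      ≤ y ^ (2 * r + 2) + 2 ^ (2 * r + 4) / lam ^ 2 * (y ^ (2 * r + 2) + y' ^ (2 * r + 2)) := by
  have hμ' := abs_le.1 hμ
  set m := max |y| |y'| with hm
  have hm0 : 0 ≤ m := le_max_of_le_left (abs_nonneg _)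
  have hmp : m ^ (2 * r + 2) ≤ y ^ (2 * r + 2) + y' ^ (2 * r + 2) := by
    have e1 : |y| ^ (2 * r + 2) = y ^ (2 * r + 2) := Even.pow_abs ⟨r + 1, by ring⟩ y
    have e2 : |y'| ^ (2 * r + 2) = y' ^ (2 * r + 2) := Even.pow_abs ⟨r + 1, by ring⟩ y'
    have := pow_nonneg (abs_nonneg y) (2 * r + 2)
    have := pow_nonneg (abs_nonneg y') (2 * r + 2)
    rcases le_total |y| |y'| with h | h
    · rw [hm, max_eq_right h]; linarith
    · rw [hm, max_eq_left h]; linarith
  have hpos : ∀ b, 1 / 2 ≤ 1 + sg b * μ := by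
    intro b; cases b <;> simp only [sg_true, sg_false] <;> linarith
  have key : ∀ b, (y + sg b / (1 + sg b * μ) * (y' / lam)) ^ (2 * r + 2)
      ≤ y ^ (2 * r + 2) + (2 * r + 2) * y ^ (2 * r + 1) * (sg b / (1 + sg b * μ) * (y' / lam))
        + 2 ^ (2 * r + 4) / lam ^ 2 * (y ^ (2 * r + 2) + y' ^ (2 * r + 2)) := by
    intro b
    have hh : |sg b / (1 + sg b * μ) * (y' / lam)| ≤ 2 / lam * m := by
      rw [abs_mul, abs_div, abs_div, abs_sg, abs_of_pos (by linarith [hpos b] : 0 < 1 + sg b * μ),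
        abs_of_pos (by linarith : 0 < lam)]
      have h1 : 1 / (1 + sg b * μ) ≤ 2 := by
        rw [div_le_iff₀ (by linarith [hpos b])]; linarith [hpos b]
      have h2 : |y'| / lam ≤ m / lam := by gcongr; exact le_max_right _ _
      calc _ ≤ 2 * (m / lam) := mul_le_mul h1 h2 (by positivity) (by norm_num)
        _ = _ := by ring
    have h1 := taylor_bound y _ m (2 / lam) (le_max_left _ _) hh (by positivity)
      (by rw [div_le_one (by linarith)]; exact hl) (2 * r + 1)
    have h2 := (abs_le.1 h1).2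
    have h3 : (2 ^ (2 * r + 1 + 1) - ((2 * r + 1 : ℕ) : ℝ) - 2) * (2 / lam) ^ 2 * m ^ (2 * r + 1 + 1)
        ≤ 2 ^ (2 * r + 4) / lam ^ 2 * (y ^ (2 * r + 2) + y' ^ (2 * r + 2)) := by
      have h4 : (2 ^ (2 * r + 1 + 1) - ((2 * r + 1 : ℕ) : ℝ) - 2) * (2 / lam) ^ 2
          ≤ 2 ^ (2 * r + 4) / lam ^ 2 := by
        have : (2 : ℝ) ^ (2 * r + 4) / lam ^ 2 = 2 ^ (2 * r + 1 + 1) * (2 / lam) ^ 2 := by ring
        rw [this]
        refine mul_le_mul_of_nonneg_right ?_ (by positivity)
        have : (0 : ℝ) ≤ ((2 * r + 1 : ℕ) : ℝ) := by positivity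
        linarith
      exact mul_le_mul h4 hmp (by positivity) (by positivity)
    push_cast at h2 h3
    have e : (2 * (r : ℝ) + 1 + 1) = 2 * r + 2 := by ring
    rw [e] at h2
    linarith
  have h1 : ∑ b : Bool, (1 + sg b * μ) / 2 *
      (y + sg b / (1 + sg b * μ) * (y' / lam)) ^ (2 * r + 2)
      ≤ ∑ b : Bool, (1 + sg b * μ) / 2 * (y ^ (2 * r + 2)
        + (2 * r + 2) * y ^ (2 * r + 1) * (sg b / (1 + sg b * μ) * (y' / lam))
        + 2 ^ (2 * r + 4) / lam ^ 2 * (y ^ (2 * r + 2) + y' ^ (2 * r + 2))) :=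
    sum_le_sum (fun b _ => mul_le_mul_of_nonneg_left (key b) (by linarith [hpos b]))
  refine h1.trans (le_of_eq ?_)
  have e : ∀ (b : Bool) (u v w : ℝ), (1 + sg b * μ) / 2 * (u + v * (sg b / (1 + sg b * μ) * (y' / lam)) + w)
      = (1 + sg b * μ) / 2 * (u + w) + sg b / 2 * (v * (y' / lam)) := by
    intro b u v w
    have q1 : (1 + sg b * μ) ≠ 0 := by linarith [hpos b]
    have q2 : (1 + sg b * μ) * (sg b / (1 + sg b * μ)) = sg b := by field_simp
    linear_combination (v * (y' / lam) / 2) * q2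
  simp only [e]
  simp only [Fintype.sum_bool, sg_true, sg_false]
  ring

/-- the potential -/
noncomputable def pot (r : ℕ) (lam : ℝ) (X : Finset ι → ℝ) : ℝ :=
  ∑ S, (lam ^ S.card * X S) ^ (2 * r + 2)

lemma pot_nonneg (r : ℕ) (lam : ℝ) (X : Finset ι → ℝ) : 0 ≤ pot r lam X :=
  sum_nonneg (fun _ _ => Even.pow_nonneg ⟨r + 1, by ring⟩ _)

lemma level_aux (r : ℕ) (lam M : ℝ) (hl : 2 ≤ lam) (hM : 0 < M) (μ : ι → ℝ)
    (hμ : ∀ q, |μ q| ≤ 1 / 2) : ∀ (t : ℕ) (f : (ι → Bool) → ℝ), DT t f → (∀ x, |f x| ≤ 1) →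
    ∀ X : Finset ι → ℝ, |∑ S, X S * ext f S μ|
      ≤ M * (1 + (1 + 2 ^ (2 * r + 4) / lam ^ 2) ^ t * pot r lam X / M ^ (2 * r + 2)) := by
  set η : ℝ := 2 ^ (2 * r + 4) / lam ^ 2 with hη
  have hη0 : 0 ≤ η := by positivity
  have base : ∀ (t : ℕ) (a : ℝ), |a| ≤ 1 → ∀ X : Finset ι → ℝ, |∑ S, X S * ext (fun _ => a) S μ|
      ≤ M * (1 + (1 + η) ^ t * pot r lam X / M ^ (2 * r + 2)) := by
    intro t a ha X
    simp only [ext_const, mul_ite, mul_zero, sum_ite_eq', mem_univ, if_true]
    have h1 : (X ∅) ^ (2 * r + 2) ≤ pot r lam X := by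
      have := single_le_sum (f := fun S : Finset ι => (lam ^ S.card * X S) ^ (2 * r + 2))
        (fun _ _ => Even.pow_nonneg ⟨r + 1, by ring⟩ _) (mem_univ ∅)
      simpa [pot] using this
    have h2 : pot r lam X ≤ (1 + η) ^ t * pot r lam X :=
      le_mul_of_one_le_left (pot_nonneg _ _ _) (one_le_pow₀ (by linarith))
    have h3 : |X ∅ * a| ≤ |X ∅| := by
      rw [abs_mul]; exact mul_le_of_le_one_right (abs_nonneg _) ha
    refine h3.trans ?_
    have h4 : (|X ∅| / M) ^ (2 * r + 2) ≤ (1 + η) ^ t * pot r lam X / M ^ (2 * r + 2) := by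
      rw [div_pow, Even.pow_abs ⟨r + 1, by ring⟩]
      gcongr; linarith
    have h5 : |X ∅| / M ≤ 1 + (|X ∅| / M) ^ (2 * r + 2) := by
      rcases le_total (|X ∅| / M) 1 with h | h
      · have : 0 ≤ (|X ∅| / M) ^ (2 * r + 2) := by positivity
        linarith
      · have := le_self_pow₀ h (n := 2 * r + 2) (by omega)
        linarith
    rw [div_le_iff₀ hM] at h5
    nlinarith
  intro t
  induction t with
  | zero =>
    intro f hf hb X
    cases hf with
    | const _ a => exact base 0 a (hb (fun _ => false)) X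
  | succ t ih =>
    intro f hf hb X
    obtain ⟨a, rfl⟩ | ⟨i, hi⟩ : (∃ a, f = fun _ => a) ∨
        ∃ i, ∀ b, DT t (fun x => f (Function.update x i b)) := by
      cases hf with
      | const _ a => exact Or.inl ⟨a, rfl⟩
      | node i h0 h1 =>
        refine Or.inr ⟨i, fun b => ?_⟩
        cases b
        · exact (h0.update i false).of_eq (fun x => by simp)
        · exact (h1.update i true).of_eq (fun x => by simp)
    · exact base _ a (hb (fun _ => false)) X
    have hpos : ∀ b, 1 / 2 ≤ 1 + sg b * μ i := by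
      have := abs_le.1 (hμ i)
      intro b; cases b <;> simp only [sg_true, sg_false] <;> linarith
    set Y : Bool → Finset ι → ℝ := fun b S =>
      if i ∈ S then 0 else X S + sg b / (1 + sg b * μ i) * X (insert i S) with hY
    have e1 : ∑ S, X S * ext f S μ = ∑ b, (1 + sg b * μ i) / 2 *
        ∑ S, Y b S * ext (fun x => f (Function.update x i b)) S μ := by
      simp only [sum_finset_split i (fun S => X S * ext f S μ),
        sum_finset_split i (fun S => Y _ S * ext _ S μ), mul_sum]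
      rw [sum_comm]
      refine sum_congr rfl (fun S hS => ?_)
      have hiS : i ∉ S := fun h => by simpa using mem_powerset.1 hS h
      rw [ext_node f S μ i, ext_node f (insert i S) μ i, erase_insert hiS, erase_eq_of_notMem hiS,
        mul_sum, mul_sum, ← sum_add_distrib]
      refine sum_congr rfl (fun b _ => ?_)
      have q1 : (1 + sg b * μ i) ≠ 0 := by linarith [hpos b]
      simp only [hY, fac_real, hiS, if_false, mem_insert_self, if_true]
      field_simp
      ring
    have e2 : ∑ b, (1 + sg b * μ i) / 2 * pot r lam (Y b) ≤ (1 + η) * pot r lam X := by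
      unfold pot
      simp only [sum_finset_split i (fun S => (lam ^ S.card * X S) ^ (2 * r + 2)),
        sum_finset_split i (fun S => (lam ^ S.card * Y _ S) ^ (2 * r + 2)), mul_sum]
      rw [sum_comm]
      refine sum_le_sum (fun S hS => ?_)
      have hiS : i ∉ S := fun h => by simpa using mem_powerset.1 hS h
      have h1 := step_bound r (μ i) lam (lam ^ S.card * X S)
        (lam ^ (insert i S).card * X (insert i S)) (hμ i) hl
      have h2 : 0 ≤ (lam ^ (insert i S).card * X (insert i S)) ^ (2 * r + 2) :=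
        Even.pow_nonneg ⟨r + 1, by ring⟩ _
      refine le_trans (le_of_eq ?_) (h1.trans (by rw [← hη]; linarith))
      refine sum_congr rfl (fun b _ => ?_)
      have q3 : lam ≠ 0 := by linarith
      simp only [hY, hiS, if_false, mem_insert_self, if_true, mul_zero, card_insert_of_notMem hiS]
      rw [zero_pow (by omega), add_zero]
      congr 2
      field_simp
      ring
    rw [e1]
    refine (abs_sum_le_sum_abs _ _).trans ?_
    have h3 : ∀ b, |(1 + sg b * μ i) / 2 *
        ∑ S, Y b S * ext (fun x => f (Function.update x i b)) S μ|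
        ≤ (1 + sg b * μ i) / 2 * (M * (1 + (1 + η) ^ t * pot r lam (Y b) / M ^ (2 * r + 2))) := by
      intro b
      rw [abs_mul, abs_of_nonneg (by linarith [hpos b] : 0 ≤ (1 + sg b * μ i) / 2)]
      exact mul_le_mul_of_nonneg_left (ih _ (hi b) (fun x => hb _) _) (by linarith [hpos b])
    refine (sum_le_sum (fun b _ => h3 b)).trans ?_
    have e3 : ∑ b, (1 + sg b * μ i) / 2 *
        (M * (1 + (1 + η) ^ t * pot r lam (Y b) / M ^ (2 * r + 2)))
        = M * (1 + (1 + η) ^ t * (∑ b, (1 + sg b * μ i) / 2 * pot r lam (Y b))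
          / M ^ (2 * r + 2)) := by
      simp only [Fintype.sum_bool, sg_true, sg_false]; ring
    rw [e3, pow_succ (1 + η) t, mul_assoc]
    gcongr

/-- the level-`k` bound for decision trees -/
theorem level_bound {P : Type} [Fintype P] (S : P → Finset ι) (hS : Function.Injective S) (k : ℕ)
    (hk : ∀ v, (S v).card = k) (a : P → ℝ) (ha : ∀ v, |a v| ≤ 1) (r t : ℕ) (lam m : ℝ)
    (hl : 2 ≤ lam) (hlt : 2 ^ (2 * r + 4) * t ≤ lam ^ 2) (hm0 : 0 < m)
    (hm : Fintype.card P ≤ m ^ (2 * r + 2))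
    (f : (ι → Bool) → ℝ) (hf : DT t f) (hb : ∀ x, |f x| ≤ 1) (z : ι → ℝ) :
    |∑ v, a v * ext f (S v) z| ≤ 4 * lam ^ k * m * ∏ q, max 1 |2 * z q| := by
  classical
  have e : ∑ v, a v * ext f (S v) z = PE (fun q b => (1 + sg b * (2 * z q)) / 2)
      (fun σ => ∑ v, a v * ext f (S v) (fun q => sg (σ q) / 2)) := by
    rw [PE_sum]
    exact sum_congr rfl (fun v _ => by rw [PE_const_mul, ← ext_vertex])
  rw [e]
  refine abs_PE_le (fun q => 2 * z q) _ _ (fun σ => ?_)
  set X : Finset ι → ℝ := fun T => ∑ v, if S v = T then a v else 0 with hX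
  have hXS : ∀ v, X (S v) = a v := by
    intro v; simp [hX, hS.eq_iff]
  have e1 : ∀ F : Finset ι → ℝ, ∑ v, a v * F (S v) = ∑ T, X T * F T := by
    intro F
    simp only [hX, sum_mul]
    rw [sum_comm]
    refine sum_congr rfl (fun v _ => ?_)
    simp
  have hl0 : 0 < lam := by linarith
  have h1 := level_aux r lam (lam ^ k * m) hl (by positivity) (fun q => sg (σ q) / 2)
    (fun q => by rw [abs_div, abs_sg]; norm_num) t f hf hb X
  rw [e1 (fun T => ext f T (fun q => sg (σ q) / 2))]
  refine h1.trans ?_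
  have h2 : pot r lam X ≤ (lam ^ k * m) ^ (2 * r + 2) := by
    have e2 : pot r lam X = ∑ v, (lam ^ k * a v) ^ (2 * r + 2) := by
      unfold pot
      rw [← sum_subset (subset_univ (univ.image S)), sum_image (fun a _ b _ h => hS h)]
      · simp only [hXS, hk]
      · intro T _ hT
        have : X T = 0 := sum_eq_zero (fun v _ => if_neg (fun h => hT (mem_image.2 ⟨v, mem_univ _, h⟩)))
        rw [this, mul_zero, zero_pow (by omega)]
    rw [e2, mul_pow _ m, mul_comm ((lam ^ k) ^ (2 * r + 2))]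
    refine le_trans ?_ (mul_le_mul_of_nonneg_right hm (by positivity))
    rw [← card_univ, ← nsmul_eq_mul]
    refine sum_le_card_nsmul _ _ _ (fun v _ => ?_)
    rw [mul_pow]
    refine mul_le_of_le_one_right (by positivity) ?_
    rw [← Even.pow_abs ⟨r + 1, by ring⟩]
    exact pow_le_one₀ (abs_nonneg _) (ha v)
  have h3 : (1 + 2 ^ (2 * r + 4) / lam ^ 2) ^ t ≤ 3 := by
    have h4 : (1 + 2 ^ (2 * r + 4) / lam ^ 2) ≤ Real.exp (2 ^ (2 * r + 4) / lam ^ 2) := by
      linarith [Real.add_one_le_exp (2 ^ (2 * r + 4) / lam ^ 2)]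
    refine (pow_le_pow_left₀ (by positivity) h4 t).trans ?_
    rw [← Real.exp_nat_mul]
    refine (Real.exp_le_exp.2 (?_ : _ ≤ (1 : ℝ))).trans (by linarith [Real.exp_one_lt_d9])
    rw [← mul_div_assoc, div_le_one (by positivity), mul_comm]; exact hlt
  have h5 : (1 + 2 ^ (2 * r + 4) / lam ^ 2) ^ t * pot r lam X / (lam ^ k * m) ^ (2 * r + 2) ≤ 3 := by
    rw [div_le_iff₀ (by positivity)]
    exact mul_le_mul h3 h2 (pot_nonneg _ _ _) (by norm_num)
  have h6 : 0 < lam ^ k * m := by positivity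
  nlinarith

end Vale.Agent.P362
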