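import Vale.Agent.P362.Rules

namespace Vale.Agent.P362

open Finset

lemma one_sub_pow_le (g : ℝ) (hg : g ≤ 1) (K : ℕ) : (1 - g) ^ K ≤ Real.exp (-(g * K)) := by
  have h1 : 1 - g ≤ Real.exp (-g) := by linarith [Real.add_one_le_exp (-g)]
  calc (1 - g) ^ K ≤ Real.exp (-g) ^ K := pow_le_pow_left₀ (by linarith) h1 K
    _ = _ := by rw [← Real.exp_nat_mul]; congr 1; ring

section
variable {ι Col A : Type}

/-- `v` eliminates `w` -/
def elim (pt : Col × A → Col × A → Bool) (v w : Col × A) : Prop :=
  v.1 ≠ w.1 ∧ (pt v w = true ∨ pt w v = false)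

/-- `w` survives the list `L` -/
def alive (pt : Col × A → Col × A → Bool) {t : ℕ} (L : Fin t → Col × A) (w : Col × A) : Prop :=
  ∀ s, ¬ elim pt (L s) w

lemma alive_cons (pt : Col × A → Col × A → Bool) {t : ℕ} (L : Fin t → Col × A) (v w : Col × A) :
    alive pt (Fin.cons v L : Fin (t + 1) → Col × A) w ↔ alive pt L w ∧ ¬ elim pt v w := by
  unfold alive
  rw [Fin.forall_fin_succ]
  simp [and_comm]

lemma sampler {T0 T1 : ℕ} {E0 : (ι → Bool) → (Col × A → ℝ) → ℝ} (h0 : QD T0 E0)
    {pt : (ι → Bool) → Col × A → Col × A → Bool} (hpt : ∀ v w, DT T1 (fun x => pt x v w))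
    (S : ℕ) {t : ℕ} (L : Fin t → Col × A) :
    ∃ ν, QD (3 ^ S * (T0 + t * (T1 + T1))) ν ∧ ∀ x, ∃ a b : ℝ, 0 ≤ a ∧ 0 ≤ b ∧
      (∀ φ, ν x φ = E0 x (fun w => (a * ind (alive (pt x) L w)
        + b * (1 - ind (alive (pt x) L w))) * φ w)) ∧
      (1 ≤ 4 * 9 ^ S * E0 x (fun w => ind (alive (pt x) L w)) →
        1 / (16 * (S + 1)) ≤ a * E0 x (fun w => ind (alive (pt x) L w))) := by
  classical
  have hd : ∀ w, DT (t * (T1 + T1)) (fun x => (w, decide (alive (pt x) L w))) := by
    intro w
    have := (DT.piFin (g := fun s x => (pt x (L s) w, pt x w (L s)))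
      (fun s => (hpt _ _).pair (hpt _ _))).map
      (fun r => (w, decide (∀ s, ¬ ((L s).1 ≠ w.1 ∧ ((r s).1 = true ∨ (r s).2 = false)))))
    exact this.of_eq (fun x => by simp only [alive, elim]; congr)
  have h1 := h0.bind (fun w => (hd w).qd)
  obtain ⟨E', hE', hx⟩ := h1.search (fun p => p.2 = true) S
  refine ⟨_, hE'.map Prod.fst, fun x => ?_⟩
  obtain ⟨a, b, ha, hb, hφ, hp⟩ := hx x
  refine ⟨a, b, ha, hb, fun φ => ?_, ?_⟩
  · beta_reduce
    rw [hφ]
    congr 1; funext w
    by_cases hw : alive (pt x) L w <;> simp [ind, hw]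
  · simpa using hp

lemma sym_bound {E : (Col × A → ℝ) → ℝ} (hE : IsEx E) (pt : Col × A → Col × A → Bool)
    (al : Col × A → Prop) {N : ℝ} (hcol : ∀ k, E (fun w => ind (w.1 = k)) ≤ 1 / N) :
    E (fun w => ind (al w)) * (E (fun w => ind (al w)) - 1 / N)
      ≤ 2 * E (fun v => ind (al v) * E (fun w => ind (al w) * ind (elim pt v w))) := by
  set W := E (fun w => ind (al w)) with hW
  have e1 : E (fun v => ind (al v) * E (fun w => ind (al w) * ind (elim pt v w)))
      = E (fun v => ind (al v) * E (fun w => ind (al w) * ind (elim pt w v))) := by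
    simp only [← hE.const_mul]
    rw [hE.swap hE]
    congr 1; funext v; congr 1; funext w; ring
  rw [two_mul]
  nth_rewrite 2 [e1]
  rw [← hE.add, ← hE.mul_const]
  refine hE.mono (fun v => ?_)
  rw [← mul_add]
  refine mul_le_mul_of_nonneg_left ?_ (ind_nonneg _)
  rw [← hE.add]
  have h2 : W - 1 / N ≤ E (fun w => ind (al w) - ind (w.1 = v.1)) := by
    rw [hE.sub]; linarith [hcol v.1]
  refine h2.trans (hE.mono (fun w => ?_))
  by_cases hw : al w
  · by_cases hc : w.1 = v.1
    · rw [ind_of hw, ind_of hc]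
      have := ind_nonneg (elim pt v w); have := ind_nonneg (elim pt w v); linarith
    · rw [ind_of hw, ind_of_not hc]
      have := ind_nonneg (elim pt v w); have := ind_nonneg (elim pt w v)
      cases h : pt v w
      · rw [ind_of (show elim pt w v from ⟨hc, Or.inr h⟩)]; linarith
      · rw [ind_of (show elim pt v w from ⟨Ne.symm hc, Or.inl h⟩)]; linarith
  · rw [ind_of_not hw]; have := ind_nonneg (w.1 = v.1); linarith

lemma find {T0 T1 : ℕ} {E0 : (ι → Bool) → (Col × A → ℝ) → ℝ} (h0 : QD T0 E0)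
    {pt : (ι → Bool) → Col × A → Col × A → Bool} (hpt : ∀ v w, DT T1 (fun x => pt x v w))
    (S d : ℕ) (hS : 2 ^ d ≤ 9 ^ S)
    (hcol : ∀ x k, E0 x (fun w => ind (w.1 = k)) ≤ 1 / 2 ^ d) :
    ∃ F, QD ((32 * (S + 1) * d + 1) * (3 ^ S * (T0 + 32 * (S + 1) * d * (T1 + T1)))) F ∧
      ∀ x (v : Col × A), 1 / (2 * 2 ^ d) ≤ E0 x (fun w => ind (w = v)) →
        (∀ w, ¬ elim (pt x) w v) → 1 / (64 * (S + 1)) ≤ F x (fun w => ind (w = v)) := by
  set R := 32 * (S + 1) * d with hR
  set cost := 3 ^ S * (T0 + R * (T1 + T1)) with hcost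
  set γ : ℝ := 1 / (16 * (S + 1)) with hγ
  set N : ℝ := 2 ^ d with hN
  have hN0 : 0 < N := by positivity
  have hγ0 : 0 < γ := by positivity
  have hγ1 : γ ≤ 1 := by
    rw [hγ, div_le_one (by positivity)]; have : (0 : ℝ) ≤ S := by positivity
    linarith
  choose ν hν hx using fun (t : ℕ) (L : Fin t → Col × A) => sampler h0 hpt S L
  have hνc : ∀ t ≤ R, ∀ L, QD cost (ν t L) := fun t ht L =>
    (hν t L).mono (by rw [hcost]; gcongr)
  -- basic facts for a valid item
  have hW : ∀ x (v : Col × A), 1 / (2 * N) ≤ E0 x (fun w => ind (w = v)) →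
      (∀ w, ¬ elim (pt x) w v) → ∀ (t : ℕ) (L : Fin t → Col × A),
      1 / (2 * N) ≤ E0 x (fun w => ind (alive (pt x) L w)) := by
    intro x v hv hel t L
    refine hv.trans ((h0.isEx x).mono (fun w => ind_mono ?_))
    rintro rfl s; exact hel _
  have hW2 : ∀ W : ℝ, 1 / (2 * N) ≤ W → 1 ≤ 4 * 9 ^ S * W := by
    intro W h
    have h9 : N ≤ 9 ^ S := by rw [hN]; exact_mod_cast hS
    have h1 : 1 ≤ W * (2 * N) := by rwa [div_le_iff₀ (by positivity)] at h
    have h2 : 0 ≤ W := le_trans (by positivity) h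
    nlinarith
  have rounds : ∀ t ≤ R, ∃ P : (ι → Bool) → ((Fin t → Col × A) → ℝ) → ℝ, QD (t * cost) P ∧
      ∀ x (v : Col × A), 1 / (2 * N) ≤ E0 x (fun w => ind (w = v)) →
        (∀ w, ¬ elim (pt x) w v) →
        P x (fun L => E0 x (fun w => ind (alive (pt x) L w))) ≤ 1 / N + (1 - γ / 2) ^ t := by
    intro t
    induction t with
    | zero =>
      intro _
      refine ⟨_, by simpa using QD.pure (ι := ι) (fun j : Fin 0 => (j.elim0 : Col × A)),
        fun x v _ _ => ?_⟩
      beta_reduce
      have := (h0.isEx x).le_const (fun w => ind_le_one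
        (alive (pt x) (fun j : Fin 0 => (j.elim0 : Col × A)) w))
      have : 0 < 1 / N := by positivity
      simp only [pow_zero]; linarith
    | succ t ih =>
      intro ht
      obtain ⟨P, hP, hPx⟩ := ih (by omega)
      have h1 := hP.bind (F := fun L x (φ : (Fin (t + 1) → Col × A) → ℝ) =>
        ν t L x (fun v => φ (Fin.cons v L)))
        (fun L => (hνc t (by omega) L).map (fun v => (Fin.cons v L : Fin (t + 1) → Col × A)))
      refine ⟨_, h1.mono (le_of_eq (by ring)), fun x v hv hel => ?_⟩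
      beta_reduce
      have hi := h0.isEx x
      have step : ∀ L : Fin t → Col × A,
          ν t L x (fun u => E0 x (fun w =>
            ind (alive (pt x) (Fin.cons u L : Fin (t + 1) → Col × A) w)))
          ≤ (1 - γ / 2) * E0 x (fun w => ind (alive (pt x) L w)) + γ / 2 * (1 / N) := by
        intro L
        obtain ⟨a, b, ha, hb, hφ, hp⟩ := hx t L x
        have hWL := hW x v hv hel t L
        have haW := hp (hW2 _ hWL)
        set W := E0 x (fun w => ind (alive (pt x) L w)) with hWdef
        set D : Col × A → ℝ := fun u =>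
          E0 x (fun w => ind (alive (pt x) L w) * ind (elim (pt x) u w)) with hD
        have hD0 : ∀ u, 0 ≤ D u := fun u =>
          hi.nonneg (fun w => mul_nonneg (ind_nonneg _) (ind_nonneg _))
        have e1 : ∀ u, E0 x (fun w =>
            ind (alive (pt x) (Fin.cons u L : Fin (t + 1) → Col × A) w)) = W - D u := by
          intro u
          rw [hWdef, hD, ← hi.sub]
          congr 1; funext w
          rw [ind_congr (alive_cons _ _ _ _), ind_and, ind_not]; ring
        simp only [e1]
        have hνi := (hν t L).isEx x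
        rw [hνi.sub, hνi.const, hφ]
        have h2 : a * E0 x (fun u => ind (alive (pt x) L u) * D u)
            ≤ E0 x (fun w => (a * ind (alive (pt x) L w)
              + b * (1 - ind (alive (pt x) L w))) * D w) := by
          rw [← hi.const_mul]
          refine hi.mono (fun w => ?_)
          have h3 : 0 ≤ b * (1 - ind (alive (pt x) L w)) * D w :=
            mul_nonneg (mul_nonneg hb (by linarith [ind_le_one (alive (pt x) L w)])) (hD0 w)
          nlinarith
        have h4 := sym_bound hi (pt x) (alive (pt x) L) (hcol x)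
        have h5 : 0 ≤ E0 x (fun u => ind (alive (pt x) L u) * D u) :=
          hi.nonneg (fun w => mul_nonneg (ind_nonneg _) (hD0 w))
        change W * (W - 1 / N) ≤ 2 * E0 x (fun u => ind (alive (pt x) L u) * D u) at h4
        set Z := E0 x (fun u => ind (alive (pt x) L u) * D u)
        have h6 : γ / 2 * (W - 1 / N) ≤ a * Z := by
          rcases le_total W (1 / N) with h7 | h7
          · have : 0 ≤ a * Z := mul_nonneg ha h5
            nlinarith
          · have h8 : a * (W * (W - 1 / N)) ≤ a * (2 * Z) := mul_le_mul_of_nonneg_left h4 ha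
            have h9 : γ * (W - 1 / N) ≤ a * W * (W - 1 / N) :=
              mul_le_mul_of_nonneg_right haW (by linarith)
            nlinarith
        linarith
      have hPi := hP.isEx x
      refine (hPi.mono step).trans ?_
      rw [hPi.add, hPi.const, hPi.const_mul, pow_succ]
      have h3 := mul_le_mul_of_nonneg_left (hPx x v hv hel) (by linarith : 0 ≤ 1 - γ / 2)
      nlinarith
  obtain ⟨P, hP, hPx⟩ := rounds R le_rfl
  have h1 := hP.bind (F := fun L => ν R L) (fun L => hνc R le_rfl L)
  refine ⟨_, h1.mono (le_of_eq (by ring)), fun x v hv hel => ?_⟩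
  beta_reduce
  have hi := h0.isEx x
  have hPi := hP.isEx x
  have step : ∀ L : Fin R → Col × A,
      γ / 2 - γ * N / 8 * E0 x (fun w => ind (alive (pt x) L w))
        ≤ ν R L x (fun w => ind (w = v)) := by
    intro L
    obtain ⟨a, b, ha, hb, hφ, hp⟩ := hx R L x
    have hWL := hW x v hv hel R L
    have haW := hp (hW2 _ hWL)
    set W := E0 x (fun w => ind (alive (pt x) L w)) with hWdef
    have hW0 : 0 < W := lt_of_lt_of_le (by positivity) hWL
    have e1 : ν R L x (fun w => ind (w = v)) = a * E0 x (fun w => ind (w = v)) := by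
      rw [hφ, ← hi.const_mul]
      congr 1; funext w
      by_cases hw : w = v
      · subst hw
        rw [ind_of (show alive (pt x) L w from fun s => hel _)]; ring
      · rw [ind_of_not hw]; ring
    rw [e1]
    have h2 : a * (1 / (2 * N)) ≤ a * E0 x (fun w => ind (w = v)) :=
      mul_le_mul_of_nonneg_left hv ha
    refine le_trans ?_ h2
    have h3 : γ * (N - W * N ^ 2 / 4) ≤ a := by
      have h4 : γ * (W * (N - W * N ^ 2 / 4)) ≤ γ * 1 :=
        mul_le_mul_of_nonneg_left (by nlinarith [sq_nonneg (W * N / 2 - 1)]) hγ0.le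
      have h5 : W * (γ * (N - W * N ^ 2 / 4)) ≤ W * a := by nlinarith
      exact le_of_mul_le_mul_left h5 hW0
    rw [mul_one_div, le_div_iff₀ (by positivity)]
    nlinarith
  refine le_trans ?_ (hPi.mono step)
  rw [hPi.sub, hPi.const, hPi.const_mul]
  have h3 : (1 - γ / 2) ^ R ≤ 1 / N := by
    refine (one_sub_pow_le (γ / 2) (by linarith) R).trans ?_
    have e : γ / 2 * R = d := by
      rw [hγ, hR]; push_cast; field_simp; ring
    rw [e, Real.exp_neg, one_div, hN]
    refine inv_anti₀ (by positivity) ?_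
    rw [← Real.exp_one_pow]
    exact pow_le_pow_left₀ (by norm_num) (by linarith [Real.add_one_le_exp 1]) d
  have h4 := hPx x v hv hel
  have h5 : γ * N / 8 * P x (fun L => E0 x (fun w => ind (alive (pt x) L w)))
      ≤ γ * N / 8 * (2 / N) := by
    refine mul_le_mul_of_nonneg_left ?_ (by positivity)
    have : 2 / N = 1 / N + 1 / N := by ring
    linarith
  have h6 : γ * N / 8 * (2 / N) = γ / 4 := by field_simp; ring
  have h7 : (1 : ℝ) / (64 * (S + 1)) = γ / 4 := by rw [hγ]; field_simp; ring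
  linarith

lemma verify {I : Type} [Fintype I] [Nonempty I] {T2 : ℕ} {chk : (ι → Bool) → I → Bool}
    (hchk : ∀ i, DT T2 (fun x => chk x i)) (S K : ℕ) (hI : Fintype.card I ≤ 9 ^ S) :
    ∃ V : (ι → Bool) → (Bool → ℝ) → ℝ, QD (K * (3 ^ S * T2)) V ∧ ∀ x,
      ((∀ i, chk x i = true) → V x (fun b => ind (b = false)) = 1) ∧
      ((¬ ∀ i, chk x i = true) →
        V x (fun b => ind (b = false)) ≤ (1 - 1 / (16 * (S + 1))) ^ K) := by
  have h1 := (QD.unif (ι := ι) I).bind (fun i => ((hchk i).map (fun b => !b)).qd)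
  rw [zero_add] at h1
  obtain ⟨E', hE', hx⟩ := h1.search (fun b => b = true) S
  obtain ⟨V, hV, hVx⟩ := hE'.orRep K
  refine ⟨V, hV, fun x => ?_⟩
  obtain ⟨a, b, ha, hb, hφ, hp⟩ := hx x
  have hi := hE'.isEx x
  have hc : (0 : ℝ) < Fintype.card I := by exact_mod_cast Fintype.card_pos
  have e1 : E' x (fun b => ind (b = false))
      = 1 - a * ((∑ i, ind ((!chk x i) = true)) / Fintype.card I) := by
    have : (fun b : Bool => ind (b = false)) = fun b => 1 - ind (b = true) := by
      funext b; cases b <;> simp [ind]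
    rw [this, hi.sub, hi.const, hφ, ← mul_div_assoc, mul_sum]
    congr 2
    refine sum_congr rfl (fun i _ => ?_)
    beta_reduce
    cases chk x i <;> simp [ind]
  rw [hVx, e1]
  constructor
  · intro hall
    simp [hall, ind]
  · intro hn
    push Not at hn
    obtain ⟨i, hi0⟩ := hn
    have h2 : 1 ≤ ∑ i, ind ((!chk x i) = true) := by
      have := single_le_sum (f := fun i => ind ((!chk x i) = true)) (fun i _ => ind_nonneg _)
        (mem_univ i)
      rwa [ind_of (by simpa using hi0)] at this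
    have h3 : (Fintype.card I : ℝ) ≤ 9 ^ S := by exact_mod_cast hI
    have h4 := hp (by
      rw [← mul_div_assoc, le_div_iff₀ hc]
      have : (0 : ℝ) < 9 ^ S := by positivity
      nlinarith)
    refine pow_le_pow_left₀ ?_ (by linarith) K
    rw [← e1]; exact hi.nonneg (fun _ => ind_nonneg _)

/-- the total cost of the search algorithm -/
def findCost (S d T0 T1 T2 : ℕ) : ℕ :=
  128 * (S + 1) * ((32 * (S + 1) * d + 1) * (3 ^ S * (T0 + 32 * (S + 1) * d * (T1 + T1)))
    + 16 * (S + 1) * (S + 7) * (3 ^ S * T2))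

theorem find_main {I : Type} [Fintype I] [Nonempty I] {T0 T1 T2 : ℕ}
    {E0 : (ι → Bool) → (Col × A → ℝ) → ℝ} (h0 : QD T0 E0)
    {pt : (ι → Bool) → Col × A → Col × A → Bool} (hpt : ∀ v w, DT T1 (fun x => pt x v w))
    {chk : (ι → Bool) → Col × A → I → Bool} (hchk : ∀ v i, DT T2 (fun x => chk x v i))
    (S d : ℕ) (hS : 2 ^ d ≤ 9 ^ S) (hI : Fintype.card I ≤ 9 ^ S)
    (hcol : ∀ x k, E0 x (fun w => ind (w.1 = k)) ≤ 1 / 2 ^ d)
    (hval : ∀ x v, (∀ i, chk x v i = true) →
      1 / (2 * 2 ^ d) ≤ E0 x (fun w => ind (w = v)) ∧ ∀ w, ¬ elim (pt x) w v)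
    (f : (ι → Bool) → Bool) (hf : ∀ x, f x = true ↔ ∃ v, ∀ i, chk x v i = true) :
    ∃ E, QD (findCost S d T0 T1 T2) E ∧ ∀ x, 2 / 3 ≤ E x (fun b => ind (b = f x)) := by
  obtain ⟨F, hF, hFx⟩ := find h0 hpt S d hS hcol
  choose V hV hVx using fun v => verify (hchk v) S (16 * (S + 1) * (S + 7)) hI
  have h1 := hF.bind (fun v => (hV v).map (fun b => !b))
  obtain ⟨E, hE, hEx⟩ := h1.orRep (128 * (S + 1))
  refine ⟨E, hE, fun x => ?_⟩
  have hFi := hF.isEx x
  have hS0 : (0 : ℝ) ≤ S := by positivity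
  have e1 : ∀ v, V v x (fun b => ind ((!b) = false)) = 1 - V v x (fun b => ind (b = false)) := by
    intro v
    have hi := (hV v).isEx x
    have : (fun b : Bool => ind ((!b) = false)) = fun b => 1 - ind (b = false) := by
      funext b; cases b <;> simp [ind]
    rw [this, hi.sub, hi.const]
  have hx := hEx x
  simp only [e1] at hx
  rw [hFi.sub, hFi.const] at hx
  have hnn : ∀ v, 0 ≤ V v x (fun b => ind (b = false)) :=
    fun v => ((hV v).isEx x).nonneg (fun _ => ind_nonneg _)
  have hle : ∀ v, V v x (fun b => ind (b = false)) ≤ 1 :=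
    fun v => ((hV v).isEx x).le_const (fun _ => ind_le_one _)
  cases hfx : f x
  · rw [hx]
    have hn : ∀ v, ¬ ∀ i, chk x v i = true := by
      intro v hv
      have := (hf x).2 ⟨v, hv⟩
      simp [hfx] at this
    have h2 := hFi.le_const (fun v => (hVx v x).2 (hn v))
    have h3 : (1 - 1 / (16 * ((S : ℝ) + 1))) ^ (16 * (S + 1) * (S + 7))
        ≤ 1 / (384 * (S + 1)) := by
      refine (one_sub_pow_le _ (by rw [div_le_one (by positivity)]; linarith) _).trans ?_
      have e : 1 / (16 * ((S : ℝ) + 1)) * ((16 * (S + 1) * (S + 7) : ℕ) : ℝ) = S + 7 := by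
        push_cast; field_simp
      rw [e, Real.exp_neg, one_div]
      refine inv_anti₀ (by positivity) ?_
      rw [Real.exp_add]
      have h4 := Real.add_one_le_exp (S : ℝ)
      have h5 : (384 : ℝ) ≤ Real.exp 7 := by
        have : Real.exp 7 = Real.exp 1 ^ 7 := by rw [← Real.exp_nat_mul]; norm_num
        rw [this]
        calc (384 : ℝ) ≤ 2.7 ^ 7 := by norm_num
          _ ≤ _ := pow_le_pow_left₀ (by norm_num) (by linarith [Real.exp_one_gt_d9]) 7
      nlinarith
    set p := F x (fun v => V v x (fun b => ind (b = false)))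
    have hp1 : p ≤ 1 := hFi.le_const hle
    have h6 := one_add_mul_le_pow (a := -p) (by linarith) (128 * (S + 1))
    have h7 : ((128 * (S + 1) : ℕ) : ℝ) * p ≤ 1 / 3 := by
      have h8 : p ≤ 1 / (384 * (S + 1)) := h2.trans h3
      rw [le_div_iff₀ (by positivity)] at h8
      push_cast; linarith
    rw [← sub_eq_add_neg] at h6
    linarith
  · obtain ⟨v, hv⟩ := (hf x).1 hfx
    have hi := hE.isEx x
    have : (fun b : Bool => ind (b = true)) = fun b => 1 - ind (b = false) := by
      funext b; cases b <;> simp [ind]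
    rw [this, hi.sub, hi.const, hx]
    have h2 := hFx x v (hval x v hv).1 (hval x v hv).2
    have h3 : F x (fun w => ind (w = v)) ≤ F x (fun v => V v x (fun b => ind (b = false))) := by
      refine hFi.mono (fun w => ?_)
      by_cases hw : w = v
      · subst hw; rw [(hVx w x).1 hv]; exact ind_le_one _
      · rw [ind_of_not hw]; exact hnn w
    set p := F x (fun v => V v x (fun b => ind (b = false)))
    have hp1 : p ≤ 1 := hFi.le_const hle
    have h4 := one_sub_pow_le p hp1 (128 * (S + 1))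
    have h5 : 2 ≤ p * ((128 * (S + 1) : ℕ) : ℝ) := by
      have h8 : 1 / (64 * (S + 1)) ≤ p := h2.trans h3
      rw [div_le_iff₀ (by positivity)] at h8
      push_cast; linarith
    have h6 : Real.exp (-(p * ((128 * (S + 1) : ℕ) : ℝ))) ≤ 1 / 3 := by
      refine (Real.exp_le_exp.2 (neg_le_neg h5)).trans ?_
      rw [Real.exp_neg, one_div]
      exact inv_anti₀ (by norm_num) (by linarith [Real.add_one_le_exp 2])
    linarith
end

end Vale.Agent.P362
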