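import Vale.Agent.P362.Had
import Vale.Agent.P362.Find

namespace Vale.Agent.P362

open Finset

/-- butterfly step -/
def bf {d : ℕ} (t : ℕ) (y : Idx d → ℤ) (i : Idx d) : ℤ :=
  if h : t < d then y (Function.update i ⟨t, h⟩ false)
    + h2 (i ⟨t, h⟩) true * y (Function.update i ⟨t, h⟩ true) else y i

/-- iterated butterfly steps -/
def bfi {d : ℕ} (y : Idx d → ℤ) : ℕ → Idx d → ℤ
  | 0 => y
  | t + 1 => bf t (bfi y t)

lemma bfi_eq {d : ℕ} (y : Idx d → ℤ) : ∀ t, t ≤ d → ∀ i, bfi y t i = ∑ l : Idx d,
    (∏ s : Fin d, if s.val < t then h2 (i s) (l s) else if i s = l s then 1 else 0) * y l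
  | 0, _, i => by
    simp only [bfi, Nat.not_lt_zero, if_false]
    rw [sum_eq_single i]
    · simp
    · intro l _ hl
      obtain ⟨s, hs⟩ := Function.ne_iff.1 hl
      rw [prod_eq_zero (mem_univ s) (if_neg (Ne.symm hs)), zero_mul]
    · simp
  | t + 1, ht, i => by
    have htd : t < d := ht
    simp only [bfi, bf, htd, dif_pos]
    rw [bfi_eq y t htd.le, bfi_eq y t htd.le, mul_sum, ← sum_add_distrib]
    refine sum_congr rfl (fun l _ => ?_)
    rw [← mul_assoc, ← add_mul]
    congr 1
    have e : ∀ b, (∏ s : Fin d, if s.val < t then h2 (Function.update i ⟨t, htd⟩ b s) (l s)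
        else if Function.update i ⟨t, htd⟩ b s = l s then 1 else 0)
        = (if b = l ⟨t, htd⟩ then 1 else 0) * ∏ s ∈ univ.erase ⟨t, htd⟩,
          if s.val < t + 1 then h2 (i s) (l s) else if i s = l s then 1 else 0 := by
      intro b
      rw [← mul_prod_erase univ _ (mem_univ ⟨t, htd⟩)]
      congr 1
      · simp
      · refine prod_congr rfl (fun s hs => ?_)
        have hne := ne_of_mem_erase hs
        have h2' : s.val ≠ t := fun h => hne (Fin.ext h)
        rw [Function.update_of_ne hne]
        by_cases h3 : s.val < t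
        · rw [if_pos h3, if_pos (by omega)]
        · rw [if_neg h3, if_neg (by omega : ¬ s.val < t + 1)]
    rw [e, e, ← mul_prod_erase univ _ (mem_univ ⟨t, htd⟩), ← mul_assoc, ← add_mul]
    congr 1
    simp only [Nat.lt_succ_self, if_true]
    cases l ⟨t, htd⟩ <;> simp [h2]

lemma bfi_full {d : ℕ} (y : Idx d → ℤ) (i : Idx d) : bfi y d i = ∑ l, had i l * y l := by
  rw [bfi_eq y d le_rfl]
  simp [had]

lemma abs_bfi {d : ℕ} (y : Idx d → ℤ) (B : ℤ) (hy : ∀ i, |y i| ≤ B) :
    ∀ t i, |bfi y t i| ≤ 2 ^ t * B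
  | 0, i => by simpa [bfi] using hy i
  | t + 1, i => by
    have ih := abs_bfi y B hy t
    have h0 : 0 ≤ 2 ^ t * B := (abs_nonneg _).trans (ih i)
    simp only [bfi, bf]
    split_ifs with h
    · refine (abs_add_le _ _).trans ?_
      rw [abs_mul]
      have : |h2 (i ⟨t, h⟩) true| = 1 := by unfold h2; split_ifs <;> simp
      rw [this, one_mul, pow_succ]
      linarith [ih (Function.update i ⟨t, h⟩ false), ih (Function.update i ⟨t, h⟩ true)]
    · rw [pow_succ]; linarith [ih i]

variable {d k R w : ℕ}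

/-- true values of the tableau -/
def tv (x : Fin (k + 1) × Idx d → Bool) (j t : ℕ) : Idx d → ℤ :=
  bfi (fun l => sgz (x (blk k j, l)) * inp x j l) t

lemma tv_full (x : Fin (k + 1) × Idx d → Bool) (j : ℕ) : tv x j d = inp x (j + 1) :=
  funext fun i => bfi_full _ i

lemma abs_sgz (b : Bool) : |sgz b| = 1 := by cases b <;> simp [sgz]

lemma abs_inp (x : Fin (k + 1) × Idx d → Bool) : ∀ j i, |inp x j i| ≤ 2 ^ (d * j)
  | 0, i => by simp [inp]
  | j + 1, i => by
    rw [← tv_full, mul_add, mul_one, add_comm, pow_add]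
    exact abs_bfi _ _ (fun l => by rw [abs_mul, abs_sgz, one_mul]; exact abs_inp x j l) d i

lemma abs_tv (x : Fin (k + 1) × Idx d → Bool) (j : Fin (k + 1)) (t : Fin (d + 1)) (i : Idx d) :
    |tv x j t i| ≤ 2 ^ (d * (k + 1)) := by
  refine (abs_bfi _ (2 ^ (d * j)) (fun l => by
    rw [abs_mul, abs_sgz, one_mul]; exact abs_inp x j l) t i).trans ?_
  rw [← pow_add]
  refine pow_le_pow_right₀ (by norm_num) ?_
  have h1 : j.val ≤ k := by omega
  have h2 : t.val ≤ d := by omega
  nlinarith [Nat.mul_le_mul_left d h1]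

/-- tableau positions -/
abbrev Tab (d k R : ℕ) : Type := (Fin d × Fin R) × Fin (k + 1) × Fin (d + 1) × Idx d

/-- bits of one cell -/
abbrev Cell (d k R w : ℕ) : Type := (Idx d × Fin d) ⊕ (Tab d k R × Fin w)

/-- bits of one column -/
abbrev ColI (d k R w : ℕ) : Type :=
  Idx d ⊕ ((Fin d × Fin R) × (Fin (k + 1) × Idx d)) ⊕ (Idx d × Cell d k R w)

/-- all input bits -/
abbrev II (d k R w : ℕ) : Type := Idx d × ColI d k R w

/-- local checks -/
abbrev Chk (d k R : ℕ) : Type := Idx d ⊕ Idx d ⊕ Tab d k R ⊕ Fin d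

/-- Forrelation blocks -/
def xb (y : II d k R w → Bool) (j : Idx d) (β : Fin d × Fin R) : Fin (k + 1) × Idx d → Bool :=
  fun q => y (j, .inr (.inl (β, q)))

/-- pointers -/
def ptr (y : II d k R w → Bool) (v : Idx d × Idx d) (c : Idx d) : Idx d :=
  fun s => y (v.1, .inr (.inr (v.2, .inl (c, s))))

/-- tableau entries -/
def tab (dec : (Fin w → Bool) → ℤ) (y : II d k R w → Bool) (v : Idx d × Idx d)
    (β : Fin d × Fin R) (j t : ℕ) (i : Idx d) : ℤ :=
  if h : j < k + 1 ∧ t < d + 1 then
    dec (fun s => y (v.1, .inr (.inr (v.2, .inr ((β, ⟨j, h.1⟩, ⟨t, h.2⟩, i), s))))) else 0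

/-- the promise -/
def prom (θ δ : ℝ) (b : Bool) (a : ℝ) : Prop := if b = true then θ + δ ≤ a else a ≤ θ - δ

/-- `v` points to a zero of the column of `v'` -/
def pt (y : II d k R w → Bool) (v v' : Idx d × Idx d) : Bool :=
  !(y (v'.1, .inl (ptr y v v'.1)))

open Classical in
/-- the local checks -/
noncomputable def chk (θ δ : ℝ) (dec : (Fin w → Bool) → ℤ) (y : II d k R w → Bool)
    (v : Idx d × Idx d) : Chk d k R → Bool
  | .inl i => y (v.1, .inl i)
  | .inr (.inl c) => decide (c = v.1) || !(y (c, .inl (ptr y v c)))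
  | .inr (.inr (.inl (β, j, t, i))) => decide (tab dec y v β j t i =
      if t.val = 0 then sgz (xb y v.1 β (j, i)) *
        (if j.val = 0 then 1 else tab dec y v β (j.val - 1) d i)
      else bf (t.val - 1) (tab dec y v β j (t.val - 1)) i)
  | .inr (.inr (.inr l)) => decide (prom θ δ (v.2 l)
      ((∑ r, rho d ^ (k + 2) * tab dec y v (l, r) k d (o0 d)) / R))

open Classical in
/-- the separating function -/
noncomputable def FF (θ δ : ℝ) (dec : (Fin w → Bool) → ℤ) (y : II d k R w → Bool) : Bool :=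
  decide (∃ v, ∀ i, chk θ δ dec y v i = true)

lemma DT_ptr (v : Idx d × Idx d) (c : Idx d) : DT d (fun y : II d k R w → Bool => ptr y v c) := by
  have := DT.piFin (t := 1) (g := fun (s : Fin d) (y : II d k R w → Bool) =>
    y (v.1, .inr (.inr (v.2, .inl (c, s))))) (fun s => DT.query _)
  rw [mul_one] at this
  exact this

lemma DT_zero (v : Idx d × Idx d) (c : Idx d) :
    DT (d + 1) (fun y : II d k R w → Bool => !(y (c, .inl (ptr y v c)))) :=
  (DT_ptr v c).bind (k := fun p y => !(y (c, .inl p)))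
    (fun p => (DT.query (c, Sum.inl p)).map (fun b => !b))

lemma DT_tab (dec : (Fin w → Bool) → ℤ) (v : Idx d × Idx d) (β : Fin d × Fin R) (j t : ℕ)
    (i : Idx d) : DT w (fun y : II d k R w → Bool => tab dec y v β j t i) := by
  unfold tab
  by_cases h : j < k + 1 ∧ t < d + 1
  · simp only [h, and_self, dif_pos]
    have := (DT.piFin (t := 1) (g := fun (s : Fin w) (y : II d k R w → Bool) =>
      y (v.1, .inr (.inr (v.2, .inr ((β, ⟨j, h.1⟩, ⟨t, h.2⟩, i), s)))))
      (fun s => DT.query _)).map dec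
    rw [mul_one] at this
    exact this
  · simp only [h, dif_neg, not_false_eq_true]
    exact .const _ _

lemma DT_chk (θ δ : ℝ) (dec : (Fin w → Bool) → ℤ) (v : Idx d × Idx d) (c : Chk d k R) :
    DT (d + 1 + 3 * w + R * w) (fun y : II d k R w → Bool => chk θ δ dec y v c) := by
  classical
  rcases c with i | c | ⟨β, j, t, i⟩ | l
  · exact (DT.query _).mono (by omega)
  · exact ((DT_zero v c).map (fun b => decide (c = v.1) || b)).mono (by omega)
  · have h1 : DT (w + w + 1) (fun y : II d k R w → Bool =>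
        if t.val = 0 then sgz (xb y v.1 β (j, i)) *
          (if j.val = 0 then 1 else tab dec y v β (j.val - 1) d i)
        else bf (t.val - 1) (tab dec y v β j (t.val - 1)) i) := by
      by_cases ht : t.val = 0
      · simp only [ht, if_true]
        exact (((DT.query (v.1, .inr (.inl (β, (j, i))))).pair
          (DT_tab dec v β (j.val - 1) d i)).map
          (fun p => sgz p.1 * (if j.val = 0 then 1 else p.2))).mono (by omega)
      · simp only [ht, if_false, bf]
        by_cases h : t.val - 1 < d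
        · simp only [h, dif_pos]
          exact (((DT_tab dec v β j (t.val - 1) _).pair (DT_tab dec v β j (t.val - 1) _)).map
            (fun p => p.1 + h2 (i ⟨t.val - 1, h⟩) true * p.2)).mono (by omega)
        · simp only [h, dif_neg, not_false_eq_true]
          exact (DT_tab dec v β j (t.val - 1) i).mono (by omega)
    exact (((DT_tab dec v β j t i).pair h1).map (fun p => decide (p.1 = p.2))).mono (by omega)
  · exact ((DT.piFin (g := fun r y => tab dec y v (l, r) k d (o0 d))
      (fun r => DT_tab dec v (l, r) k d (o0 d))).map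
      (fun a => decide (prom θ δ (v.2 l) ((∑ r, rho d ^ (k + 2) * a r) / R)))).mono (by omega)

lemma tab_eq {θ δ : ℝ} {dec : (Fin w → Bool) → ℤ} {y : II d k R w → Bool} {v : Idx d × Idx d}
    (h : ∀ c, chk θ δ dec y v c = true) (β : Fin d × Fin R) :
    ∀ j ≤ k, ∀ t ≤ d, tab dec y v β j t = tv (xb y v.1 β) j t := by
  have step : ∀ j ≤ k, (∀ i, (if j = 0 then 1 else tab dec y v β (j - 1) d i)
      = inp (xb y v.1 β) j i) → ∀ t ≤ d, tab dec y v β j t = tv (xb y v.1 β) j t := by
    intro j hj hin t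
    induction t with
    | zero =>
      intro _
      funext i
      have := h (.inr (.inr (.inl (β, ⟨j, by omega⟩, ⟨0, by omega⟩, i))))
      simp only [chk, decide_eq_true_eq, if_true] at this
      rw [this, hin]
      have e : blk k j = ⟨j, by omega⟩ := Fin.ext (blk_val hj)
      simp [tv, bfi, e]
    | succ t ih =>
      intro ht
      funext i
      have := h (.inr (.inr (.inl (β, ⟨j, by omega⟩, ⟨t + 1, by omega⟩, i))))
      simp only [chk, decide_eq_true_eq, Nat.succ_ne_zero, if_false, Nat.add_sub_cancel] at this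
      rw [this, ih (by omega)]
      rfl
  intro j
  induction j with
  | zero => intro hj; exact step 0 hj (fun i => by simp [inp])
  | succ j ih =>
    intro hj
    refine step (j + 1) hj (fun i => ?_)
    simp only [Nat.succ_ne_zero, if_false, Nat.add_sub_cancel]
    rw [ih (by omega) d le_rfl, tv_full]

lemma forr_tv (x : Fin (k + 1) × Idx d → Bool) :
    forr x = rho d ^ (k + 2) * tv x k d (o0 d) := by
  rw [tv_full, forr, Wm_col]

/-- quantum upper bound -/
theorem FF_quantum (θ δ : ℝ) (hδ : 0 < δ) (dec : (Fin w → Bool) → ℤ) (hR : 0 < R) (m : ℕ)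
    (hm : 0 < m) (hmδ : 2 * d ≤ m * δ ^ 2) (S : ℕ) (hS : 2 ^ d ≤ 9 ^ S)
    (hI : Fintype.card (Chk d k R) ≤ 9 ^ S) :
    ∃ E, QD (findCost S d (d * (m * (k + 1))) (d + 1) (d + 1 + 3 * w + R * w)) E ∧
      ∀ y : II d k R w → Bool, 2 / 3 ≤ E y (fun b => ind (b = FF θ δ dec y)) := by
  classical
  haveI : Nonempty (Fin R) := ⟨⟨0, hR⟩⟩
  have test : ∀ (j : Idx d) (l : Fin d), QD (k + 1) (fun (y : II d k R w → Bool) (φ : Bool → ℝ) =>
      (∑ r, ((1 + forr (xb y j (l, r))) / 2 * φ true + (1 - forr (xb y j (l, r))) / 2 * φ false))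
        / Fintype.card (Fin R)) := by
    intro j l
    have := (QD.unif (ι := II d k R w) (Fin R)).bind (fun r =>
      (QD.had (QM_Wm (k := k) (d := d) (k + 1)) (o0 d)).comap
        (fun q => ((j, .inr (.inl ((l, r), q))) : II d k R w)))
    rw [zero_add] at this
    exact this
  choose M hM hMx using fun j l => (test j l).majority m hm θ
  choose A hA hAx using fun j => QD.piRead (hM j)
  have h0 := (QD.unif (ι := II d k R w) (Idx d)).bind (fun j => (hA j).map (fun a => (j, a)))
  rw [zero_add] at h0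
  have hN : (Fintype.card (Idx d) : ℝ) = 2 ^ d := by simp
  refine find_main h0 (pt := pt) (fun v v' => DT_zero v v'.1) (DT_chk θ δ dec) S d hS hI
    (fun y c => ?_) (fun y v hv => ⟨?_, ?_⟩) _ (fun y => by simp [FF])
  · simp only [hN]
    rw [sum_eq_single c]
    · rw [((hA c).isEx y).const]; simp [ind]
    · intro j _ hj
      rw [((hA j).isEx y).const]; simp [ind, hj]
    · simp
  · simp only [hN]
    have h1 : A v.1 y (fun a => ind ((v.1, a) = v))
        ≤ ∑ j, A j y (fun a => ind ((j, a) = v)) :=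
      single_le_sum (f := fun j => A j y (fun a => ind ((j, a) = v)))
        (fun j _ => ((hA j).isEx y).nonneg (fun _ => ind_nonneg _)) (mem_univ _)
    have h2 : (fun a => ind ((v.1, a) = v)) = fun a => ind (a = v.2) := by
      funext a; apply ind_congr; simp [Prod.ext_iff]
    rw [h2, hAx] at h1
    have h3 : ∀ l, 1 - 1 / (m * δ ^ 2) ≤ M v.1 l y (fun b => ind (b = v.2 l)) := by
      intro l
      refine hMx v.1 l y δ (v.2 l) hδ ?_
      have h4 := hv (.inr (.inr (.inr l)))
      simp only [chk, decide_eq_true_eq, tab_eq hv _ k le_rfl d le_rfl, ← forr_tv] at h4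
      have e : ∀ r, (1 + forr (xb y v.1 (l, r))) / 2 * -sg true
          + (1 - forr (xb y v.1 (l, r))) / 2 * -sg false = forr (xb y v.1 (l, r)) := by
        intro r; simp only [sg_true, sg_false]; ring
      simp only [e, Fintype.card_fin]
      exact h4
    have hpos : (0 : ℝ) < m * δ ^ 2 := by positivity
    have h5 : 1 / 2 ≤ ∏ l, M v.1 l y (fun b => ind (b = v.2 l)) := by
      rcases Nat.eq_zero_or_pos d with h | h
      · subst h; simp; norm_num
      · have hd : (1 : ℝ) ≤ d := by exact_mod_cast h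
        have h6 : 1 / (m * δ ^ 2) ≤ 1 := by rw [div_le_one hpos]; linarith
        have h7 := prod_le_prod (s := univ) (fun (l : Fin d) _ => (by linarith :
          (0 : ℝ) ≤ 1 - 1 / (m * δ ^ 2))) (fun l _ => h3 l)
        rw [prod_const, card_univ, Fintype.card_fin] at h7
        have h8 := one_add_mul_le_pow (a := -(1 / (m * δ ^ 2))) (by linarith) d
        have h9 : d * (1 / (m * δ ^ 2)) ≤ 1 / 2 := by
          rw [mul_one_div, div_le_iff₀ hpos]; linarith
        rw [← sub_eq_add_neg] at h8
        linarith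
    rw [← div_div]
    gcongr
    linarith
  · rintro u ⟨hne, h | h⟩
    · have := hv (.inl (ptr y u v.1))
      simp only [chk] at this
      simp [pt, this] at h
    · have := hv (.inr (.inl u.1))
      simp only [chk, Bool.or_eq_true, decide_eq_true_eq, hne, false_or] at this
      simp [pt, this] at h

end Vale.Agent.P362
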