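import Vale.Agent.P362.Chain

namespace Vale.Agent.P362

open Finset MvPolynomial MeasureTheory

variable {d k : ℕ}

lemma eval_ext {κ ι : Type} [Fintype ι] [DecidableEq ι] (g : κ → ℝ) (f : (ι → Bool) → ℝ)
    (S : Finset ι) (z : ι → MvPolynomial κ ℝ) :
    eval g (ext f S z) = ext f S (fun q => eval g (z q)) := by
  have := map_ext (MvPolynomial.aeval g) f S z
  simpa [coe_aeval_eq_eval] using this

/-- the linear forms -/
noncomputable def frm (σ : ℝ) : (Fin (k + 1) × Idx d) ⊕ (Fin (k + 1) × Idx d) →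
    Fin (k + 1) × Idx d → ℝ
  | .inl q, q' => if q' = q then σ else 0
  | .inr q, q' => if q'.1 = q.1 then σ * Hm d q.2 q'.2 else 0

lemma frm_quad (σ : ℝ) (s : (Fin (k + 1) × Idx d) ⊕ (Fin (k + 1) × Idx d) → ℝ) :
    ∑ i, (∑ m, s m * frm σ m i) ^ 2 ≤ 2 * σ ^ 2 * ∑ m, s m ^ 2 := by
  have e : ∀ i : Fin (k + 1) × Idx d, ∑ m, s m * frm σ m i
      = σ * (s (.inl i) + ∑ l, s (.inr (i.1, l)) * Hm d l i.2) := by
    intro i
    rw [Fintype.sum_sum_type, mul_add]
    congr 1
    · simp [frm, mul_comm]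
    · rw [Fintype.sum_prod_type, sum_eq_single i.1, mul_sum]
      · exact sum_congr rfl (fun l _ => by simp only [frm, if_true]; ring)
      · intro j _ hj; simp [frm, Ne.symm hj]
      · simp
  have h1 : ∀ i : Fin (k + 1) × Idx d, (∑ m, s m * frm σ m i) ^ 2
      ≤ 2 * σ ^ 2 * (s (.inl i) ^ 2 + (∑ l, s (.inr (i.1, l)) * Hm d l i.2) ^ 2) := by
    intro i
    rw [e, mul_pow]
    nlinarith [mul_nonneg (sq_nonneg σ)
      (sq_nonneg (s (.inl i) - ∑ l, s (.inr (i.1, l)) * Hm d l i.2))]
  refine (sum_le_sum (fun i _ => h1 i)).trans (le_of_eq ?_)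
  rw [← mul_sum, sum_add_distrib, Fintype.sum_sum_type]
  congr 2
  rw [Fintype.sum_prod_type, Fintype.sum_prod_type]
  exact sum_congr rfl (fun j _ => orth_Hm.sum_sq (fun l => s (.inr (j, l))))

/-- the majorant -/
noncomputable def GG (σ q0 : ℝ) (g : Fin (k + 1) × Idx d → ℝ) : ℝ :=
  ∏ m, maj q0 (∑ i, frm σ m i * g i)

lemma max_mul_le (a b : ℝ) : max 1 |a * b| ≤ max 1 |a| * max 1 |b| := by
  refine max_le (one_le_mul_of_one_le_of_one_le (le_max_left _ _) (le_max_left _ _)) ?_
  rw [abs_mul]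
  exact mul_le_mul (le_max_right _ _) (le_max_right _ _) (abs_nonneg _)
    (le_trans zero_le_one (le_max_left _ _))

lemma weight_le (σ q0 t : ℝ) (hq : 1 ≤ q0) (ht : |t| ≤ 1) (g : Fin (k + 1) × Idx d → ℝ) :
    ∏ q, max 1 |2 * eval g (zp σ t q)| ≤ GG σ q0 g := by
  have hm1 : ∀ w, 1 ≤ maj q0 w := fun w => (le_max_left _ _).trans (max_le_maj q0 w hq)
  set A : Fin (k + 1) × Idx d → ℝ := fun q =>
    if q.1.val = 0 then t else eval g (Yp k σ (q.1.val - 1) q.2) with hA
  set B : Fin (k + 1) × Idx d → ℝ := fun q => eval g (Xp k σ q.1.val q.2) with hB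
  have e : ∀ q, 2 * eval g (zp σ t q) = A q * B q := by
    intro q
    simp only [zp, hA, hB]
    split_ifs
    · simp only [map_add, map_zero, smul_eval]; ring
    · simp only [map_add, map_mul, smul_zero, map_zero, smul_eval]; ring
  have h1 : ∏ q, max 1 |B q| ≤ ∏ q, maj q0 (∑ i, frm σ (.inl q) i * g i) := by
    refine prod_le_prod (fun _ _ => le_trans zero_le_one (le_max_left _ _)) (fun q _ => ?_)
    simp only [hB, Xp]
    split_ifs
    · refine le_trans (le_of_eq ?_) (max_le_maj q0 _ hq)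
      simp [frm, blk_fin]
    · simpa using hm1 _
  have h2 : ∏ q, max 1 |A q| ≤ ∏ q, maj q0 (∑ i, frm σ (.inr q) i * g i) := by
    have e2 : ∀ (j : Fin (k + 1)) (i : Idx d),
        ∑ q, frm σ (.inr (j, i)) q * g q = eval g (Yp k σ j.val i) := by
      intro j i
      rw [Fintype.sum_prod_type, sum_eq_single j]
      · simp [frm, Yp, blk_fin]
      · intro j' _ hj; simp [frm, hj]
      · simp
    rw [Fintype.prod_prod_type, Fintype.prod_prod_type, Fin.prod_univ_succ,
      Fin.prod_univ_castSucc, mul_comm]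
    simp only [e2]
    refine mul_le_mul ?_ ?_ (prod_nonneg fun _ _ => le_trans zero_le_one (le_max_left _ _))
      (prod_nonneg fun _ _ => prod_nonneg fun _ _ => le_trans zero_le_one (hm1 _))
    · refine prod_le_prod (fun _ _ => prod_nonneg fun _ _ =>
        le_trans zero_le_one (le_max_left _ _)) (fun j _ => ?_)
      refine prod_le_prod (fun _ _ => le_trans zero_le_one (le_max_left _ _)) (fun i _ => ?_)
      simpa [hA] using max_le_maj q0 _ hq
    · refine prod_le_prod (fun _ _ => le_trans zero_le_one (le_max_left _ _)) (fun i _ => ?_)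
      simp only [hA, Fin.val_zero, if_true, max_eq_left ht]
      exact hm1 _
  unfold GG
  rw [Fintype.prod_sum_type, mul_comm]
  simp only [e]
  refine le_trans (prod_le_prod (fun _ _ => le_trans zero_le_one (le_max_left _ _))
    (fun q _ => max_mul_le (A q) (B q))) ?_
  rw [prod_mul_distrib]
  exact mul_le_mul h2 h1 (prod_nonneg fun _ _ => le_trans zero_le_one (le_max_left _ _))
    (prod_nonneg fun _ _ => le_trans zero_le_one (hm1 _))

/-- truncation -/
noncomputable def clip (w : ℝ) : ℝ := max (-1) (min 1 w)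

lemma abs_clip (w : ℝ) : |clip w| ≤ 1 :=
  abs_le.2 ⟨le_max_left _ _, max_le (by norm_num) (min_le_left _ _)⟩

lemma clip_eq {w : ℝ} (h : |w| ≤ 1) : clip w = w := by
  have := abs_le.1 h
  unfold clip; rw [min_eq_right this.2, max_eq_right this.1]

lemma round_le {ι : Type} [Fintype ι] [DecidableEq ι] (f : (ι → Bool) → ℝ) (hf : ∀ x, |f x| ≤ 1)
    (z : ι → ℝ) :
    |ext f ∅ (fun q => clip (z q)) - ext f ∅ z| ≤ 3 * (∏ q, max 1 |2 * z q| - 1) := by
  have h1 : 1 ≤ ∏ q, max 1 |2 * z q| := one_le_prod (fun _ _ => le_max_left _ _)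
  by_cases h : ∀ q, |z q| ≤ 1
  · simp only [fun q => clip_eq (h q), sub_self, abs_zero]; linarith
  · push Not at h
    obtain ⟨q, hq⟩ := h
    have h2 : 2 ≤ ∏ q, max 1 |2 * z q| := by
      rw [← mul_prod_erase univ _ (mem_univ q)]
      have h3 : 1 ≤ ∏ q' ∈ univ.erase q, max 1 |2 * z q'| :=
        one_le_prod (fun _ _ => le_max_left _ _)
      have h4 : 2 ≤ max 1 |2 * z q| := by
        refine le_max_of_le_right ?_
        rw [abs_mul]; norm_num; linarith
      nlinarith
    have h3 := abs_ext_le f hf (fun q => clip (z q))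
    simp only [max_eq_left (abs_clip _), prod_const_one] at h3
    have h4 := (abs_ext_le f hf z).trans (prod_le_prod (g := fun q => max 1 |2 * z q|)
      (fun _ _ => le_trans zero_le_one (le_max_left _ _)) (fun q _ => by
        refine max_le_max_left _ ?_
        rw [abs_mul]; norm_num; linarith [abs_nonneg (z q)]))
    have h5 := abs_sub (ext f ∅ (fun q => clip (z q))) (ext f ∅ z)
    linarith

/-- the hard distribution -/
noncomputable def DD (σ t : ℝ) (x : Fin (k + 1) × Idx d → Bool) : ℝ :=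
  ∫ g, ∏ q, fac ∅ q (clip (eval g (zp σ t q))) (x q) ∂(gm (Fin (k + 1) × Idx d))

lemma fac_clip_mem {ι : Type} [DecidableEq ι] (q : ι) (w : ℝ) (b : Bool) :
    0 ≤ fac ∅ q (clip w) b ∧ fac ∅ q (clip w) b ≤ 1 := by
  have := abs_le.1 (abs_clip w)
  rw [fac_real]
  cases b <;> simp only [notMem_empty, if_false, sg_true, sg_false] <;> constructor <;> linarith

lemma DD_nonneg (σ t : ℝ) (x : Fin (k + 1) × Idx d → Bool) : 0 ≤ DD σ t x :=
  integral_nonneg (fun _ => prod_nonneg fun _ _ => (fac_clip_mem _ _ _).1)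

lemma integrable_DD (σ t : ℝ) (x : Fin (k + 1) × Idx d → Bool) :
    Integrable (fun g => ∏ q, fac ∅ q (clip (eval g (zp σ t q))) (x q))
      (gm (Fin (k + 1) × Idx d)) := by
  refine Integrable.of_bound (Continuous.aestronglyMeasurable ?_) 1 (Filter.Eventually.of_forall
    (fun g => ?_))
  · refine continuous_finset_prod _ (fun q _ => ?_)
    simp only [fac_real, notMem_empty, if_false, clip]
    have := MvPolynomial.continuous_eval (zp σ t q)
    fun_prop
  · rw [Real.norm_eq_abs, abs_of_nonneg (prod_nonneg fun _ _ => (fac_clip_mem _ _ _).1)]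
    exact prod_le_one (fun _ _ => (fac_clip_mem _ _ _).1) (fun _ _ => (fac_clip_mem _ _ _).2)

lemma sum_DD (σ t : ℝ) (f : (Fin (k + 1) × Idx d → Bool) → ℝ) :
    Integrable (fun g => ext f ∅ (fun q => clip (eval g (zp σ t q)))) (gm (Fin (k + 1) × Idx d)) ∧
    ∑ x, DD σ t x * f x
      = ∫ g, ext f ∅ (fun q => clip (eval g (zp σ t q))) ∂(gm (Fin (k + 1) × Idx d)) := by
  simp only [ext, smul_eq_mul]
  refine ⟨integrable_finset_sum _ (fun x _ => (integrable_DD σ t x).const_mul _), ?_⟩
  rw [integral_finset_sum _ (fun x _ => (integrable_DD σ t x).const_mul _)]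
  refine sum_congr rfl (fun x _ => ?_)
  rw [integral_const_mul, mul_comm]; rfl

lemma sum_DD_one (σ t : ℝ) : ∑ x : Fin (k + 1) × Idx d → Bool, DD σ t x = 1 := by
  have := (sum_DD (k := k) (d := d) σ t (fun _ => 1)).2
  simpa [ext_const] using this

/-- the error term -/
noncomputable def eps (k d : ℕ) : ℝ :=
  (1 + 2 * Real.exp (-(2 * d))) ^ (2 * ((k + 1) * 2 ^ d)) - 1

lemma eps_nonneg : 0 ≤ eps k d := by
  unfold eps
  have : (1 : ℝ) ≤ (1 + 2 * Real.exp (-(2 * d))) ^ (2 * ((k + 1) * 2 ^ d)) :=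
    one_le_pow₀ (by linarith [Real.exp_pos (-(2 * (d : ℝ)))])
  linarith

theorem forr_hard (d k : ℕ) (hd : 1 ≤ d) :
    ∃ D : Bool → (Fin (k + 1) × Idx d → Bool) → ℝ, (∀ b x, 0 ≤ D b x) ∧ (∀ b, ∑ x, D b x = 1) ∧
      (∀ (r t : ℕ) (lam m : ℝ), 2 ≤ lam → 2 ^ (2 * r + 4) * t ≤ lam ^ 2 → 0 < m →
        ((2 : ℝ) ^ d) ^ (k + 1) ≤ m ^ (2 * r + 2) → ∀ f, DT t f → (∀ x, |f x| ≤ 1) →
        |∑ x, D true x * f x - ∑ x, D false x * f x|
          ≤ rho d ^ k * (4 * lam ^ (k + 1) * m) * (1 + eps k d) + 6 * eps k d) ∧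
      (1 / (16 * d)) ^ k - 6 * eps k d
        ≤ ∑ x, D true x * forr x - ∑ x, D false x * forr x := by
  have hd' : (1 : ℝ) ≤ d := by exact_mod_cast hd
  set σ : ℝ := Real.sqrt (1 / (8 * d)) with hσ
  have hσ2 : σ ^ 2 = 1 / (8 * d) := Real.sq_sqrt (by positivity)
  obtain ⟨hGi, hG⟩ := integral_maj (frm (k := k) (d := d) σ) (2 * σ ^ 2) (4 * d) (by positivity)
    (by rw [hσ2]; field_simp; norm_num) (frm_quad σ)
  have hG' : ∫ g, GG σ (4 * d) g ∂(gm (Fin (k + 1) × Idx d)) ≤ 1 + eps k d := by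
    refine hG.trans (le_of_eq ?_)
    have : -(4 * (d : ℝ) / 2) = -(2 * d) := by ring
    simp [eps, this, two_mul]
  change Integrable (fun g => GG σ (4 * d) g) _ at hGi
  have hw := fun t ht g => weight_le (k := k) (d := d) σ (4 * d) t (by linarith) ht g
  have hround : ∀ (t : ℝ), |t| ≤ 1 → ∀ f : (Fin (k + 1) × Idx d → Bool) → ℝ, (∀ x, |f x| ≤ 1) →
      |∑ x, DD σ t x * f x - GE _ (ext f ∅ (zp σ t))| ≤ 3 * eps k d := by
    intro t ht f hf
    rw [(sum_DD σ t f).2, GE_apply, ← integral_sub (sum_DD σ t f).1 (integrable_eval _),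
      ← Real.norm_eq_abs]
    refine (norm_integral_le_of_norm_le (g := fun g => 3 * (GG σ (4 * d) g - 1))
      ((hGi.sub (integrable_const _)).const_mul _) (Filter.Eventually.of_forall
        (fun g => ?_))).trans ?_
    · rw [Real.norm_eq_abs, eval_ext]
      refine (round_le f hf _).trans ?_
      linarith [hw t ht g]
    · rw [integral_const_mul, integral_sub hGi (integrable_const _)]
      simp only [integral_const, probReal_univ, smul_eq_mul, one_mul]
      linarith
  refine ⟨fun b => DD σ (if b = true then 1 else -1), fun b x => DD_nonneg _ _ _,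
    fun b => sum_DD_one _ _, fun r t lam m hl hlt hm0 hm f hf hb => ?_, ?_⟩
  · obtain ⟨s, hs, h⟩ := exists_mean σ f
    have h1 := hround 1 (by simp) f hb
    have h2 := hround (-1) (by simp) f hb
    have h3 : |GE _ (∑ p : Path d k, pwt k p • ext f (pset k k p) (zp σ s))|
        ≤ (4 * lam ^ (k + 1) * m) * (1 + eps k d) := by
      rw [GE_apply, ← Real.norm_eq_abs]
      have hB : 0 ≤ 4 * lam ^ (k + 1) * m := by positivity
      refine (norm_integral_le_of_norm_le (g := fun g => (4 * lam ^ (k + 1) * m) * GG σ (4 * d) g)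
        (hGi.const_mul _) (Filter.Eventually.of_forall (fun g => ?_))).trans ?_
      · simp only [Real.norm_eq_abs, map_sum, smul_eval, eval_ext]
        refine (level_bound (pset k k) (fun p p' h => pset_subset k le_rfl _ _ h.le) (k + 1)
          (card_pset k le_rfl) (pwt k) (fun p => (abs_pwt k p).le) r t lam m hl hlt hm0
          (by rw [card_path]; exact_mod_cast hm) f hf hb _).trans ?_
        exact mul_le_mul_of_nonneg_left (hw s hs g) hB
      · rw [integral_const_mul]
        exact mul_le_mul_of_nonneg_left hG' hB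
    have h4 : |(σ ^ 2 * rho d / 2) ^ k| ≤ rho d ^ k := by
      have := rho_pos (d := d)
      rw [abs_of_nonneg (by positivity)]
      refine pow_le_pow_left₀ (by positivity) ?_ k
      have : σ ^ 2 ≤ 1 := by rw [hσ2, div_le_one (by positivity)]; linarith
      nlinarith
    have h5 := mul_le_mul h4 h3 (abs_nonneg _) (pow_nonneg rho_pos.le _)
    rw [← abs_mul, ← h] at h5
    simp only [if_true, Bool.false_eq_true, if_false]
    have a1 := abs_le.1 h1
    have a2 := abs_le.1 h2
    have a3 := abs_le.1 h5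
    rw [abs_le, mul_assoc (rho d ^ k)]
    constructor <;> linarith
  · obtain ⟨s, hs, h⟩ := exists_mean σ (forr (k := k) (d := d))
    have h1 := hround 1 (by simp) forr abs_forr
    have h2 := hround (-1) (by simp) forr abs_forr
    have h3 : GE _ (∑ p : Path d k, pwt k p • ext forr (pset k k p) (zp σ s))
        = rho d ^ (k + 2) * (2 ^ d) ^ (k + 1) := by
      rw [GE_apply]
      simp only [map_sum, smul_eval, eval_ext, ext_forr]
      have : ∀ p : Path d k, pwt k p * (rho d ^ (k + 2) * pwt k p) = rho d ^ (k + 2) := by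
        intro p
        have h6 : pwt k p * pwt k p = 1 := by
          rw [← abs_mul_abs_self, abs_pwt, one_mul]
        linear_combination rho d ^ (k + 2) * h6
      simp only [this, sum_const, card_univ, card_path, integral_const, probReal_univ, one_smul,
        nsmul_eq_mul]
      push_cast; ring
    have h4 : (σ ^ 2 * rho d / 2) ^ k * (rho d ^ (k + 2) * (2 ^ d) ^ (k + 1))
        = (1 / (16 * d)) ^ k := by
      have e1 : (σ ^ 2 * rho d / 2) = 1 / (16 * d) * rho d := by rw [hσ2]; field_simp; ring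
      rw [e1, mul_pow]
      have e2 : rho d ^ k * (rho d ^ (k + 2) * (2 ^ d) ^ (k + 1))
          = (rho d ^ 2 * 2 ^ d) ^ (k + 1) := by ring
      rw [mul_assoc, e2, rho_sq, one_pow, mul_one]
    rw [h3, h4] at h
    simp only [if_true, Bool.false_eq_true, if_false]
    have a1 := abs_le.1 h1
    have a2 := abs_le.1 h2
    linarith

end Vale.Agent.P362
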