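import Vale.Agent.P362.Ext

namespace Vale.Agent.P362

open Finset Matrix

/-- the index set of size `2^d` -/
abbrev Idx (d : ℕ) : Type := Fin d → Bool

/-- the 2 by 2 Hadamard sign -/
def h2 (a b : Bool) : ℤ := if a = true ∧ b = true then -1 else 1

/-- Hadamard signs -/
def had {d : ℕ} (i l : Idx d) : ℤ := ∏ t, h2 (i t) (l t)

/-- integer sign of a bit -/
def sgz (b : Bool) : ℤ := if b = true then -1 else 1

@[simp] lemma cast_sgz (b : Bool) : ((sgz b : ℤ) : ℝ) = sg b := by cases b <;> simp [sgz]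

variable {d : ℕ}

lemma had_mul_self (i l : Idx d) : had i l * had i l = 1 := by
  unfold had
  rw [← prod_mul_distrib]
  refine prod_eq_one (fun t _ => ?_)
  unfold h2; split_ifs <;> norm_num

lemma abs_had (i l : Idx d) : |(had i l : ℝ)| = 1 := by
  have : (had i l : ℝ) * had i l = 1 := by exact_mod_cast had_mul_self i l
  rcases mul_self_eq_one_iff.1 this with h | h <;> simp [h]

lemma had_comm (i l : Idx d) : had i l = had l i := by
  unfold had h2; simp only [and_comm]

/-- the zero index -/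
def o0 (d : ℕ) : Idx d := fun _ => false

lemma had_zero (l : Idx d) : had (o0 d) l = 1 := by simp [had, h2, o0]

lemma had_orth (i i' : Idx d) : ∑ l, had l i * had l i' = if i = i' then 2 ^ d else 0 := by
  have e : ∑ l : Idx d, had l i * had l i' = ∏ t, ∑ b, h2 b (i t) * h2 b (i' t) := by
    rw [Finset.prod_univ_sum, Fintype.piFinset_univ]
    exact sum_congr rfl (fun l _ => by unfold had; rw [prod_mul_distrib])
  rw [e]
  split_ifs with h
  · subst h
    rw [prod_congr rfl (g := fun _ => 2), prod_const, card_univ, Fintype.card_fin]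
    intro t _; cases i t <;> simp [h2]
  · obtain ⟨t, ht⟩ := Function.ne_iff.1 h
    refine prod_eq_zero (mem_univ t) ?_
    revert ht; cases i t <;> cases i' t <;> simp [h2]

/-- normalisation -/
noncomputable def rho (d : ℕ) : ℝ := 1 / Real.sqrt (2 ^ d)

lemma rho_pos : 0 < rho d := by unfold rho; positivity

lemma rho_sq : rho d ^ 2 * 2 ^ d = 1 := by
  unfold rho; rw [div_pow, Real.sq_sqrt (by positivity)]; field_simp

/-- the normalised Hadamard matrix -/
noncomputable def Hm (d : ℕ) : Matrix (Idx d) (Idx d) ℝ := Matrix.of fun i l => rho d * had i l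

lemma orth_Hm : Orth (Hm d) := by
  unfold Orth
  ext i i'
  simp only [Matrix.mul_apply, transpose_apply, Hm, of_apply, one_apply]
  have h1 : ∑ l, (had l i : ℝ) * had l i' = if i = i' then 2 ^ d else 0 := by
    exact_mod_cast had_orth i i'
  have : ∑ l, rho d * had l i * (rho d * had l i') = rho d ^ 2 * ∑ l, (had l i : ℝ) * had l i' := by
    rw [mul_sum]; exact sum_congr rfl (fun l _ => by ring)
  rw [this, h1]
  split_ifs
  · exact rho_sq
  · simp

lemma Orth.sum_sq {B : Type} [Fintype B] [DecidableEq B] {U : Matrix B B ℝ} (hU : Orth U)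
    (s : B → ℝ) : ∑ l, (∑ i, s i * U i l) ^ 2 = ∑ i, s i ^ 2 := by
  have h1 : (s ᵥ* U) ⬝ᵥ (s ᵥ* U) = s ⬝ᵥ s := by
    rw [← mulVec_transpose, dotProduct_mulVec, vecMul_transpose, mulVec_mulVec, hU.mul_transpose,
      one_mulVec]
  simpa [dotProduct, vecMul, sq] using h1

/-- the block with number `j` -/
def blk (k j : ℕ) : Fin (k + 1) := ⟨min j k, by omega⟩

lemma blk_val {k j : ℕ} (h : j ≤ k) : (blk k j).val = j := by simp [blk, h]
lemma blk_fin {k : ℕ} (j : Fin (k + 1)) : blk k j = j := by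
  ext; rw [blk_val (by omega)]

variable {k : ℕ}

/-- unnormalised intermediate vectors -/
def inp (x : Fin (k + 1) × Idx d → Bool) : ℕ → Idx d → ℤ
  | 0 => fun _ => 1
  | j + 1 => fun i => ∑ l, had i l * (sgz (x (blk k j, l)) * inp x j l)

/-- the Forrelation circuit -/
noncomputable def Wm (x : Fin (k + 1) × Idx d → Bool) : ℕ → Matrix (Idx d) (Idx d) ℝ
  | 0 => Hm d
  | j + 1 => Hm d * phase (fun l => some (blk k j, l)) x * Wm x j

lemma QM_Wm : ∀ j, QM j (fun x : Fin (k + 1) × Idx d → Bool => Wm x j)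
  | 0 => QM.const orth_Hm
  | j + 1 => ⟨_, _, _, QM_Wm j, orth_Hm, fun _ => rfl⟩

lemma Wm_col (x : Fin (k + 1) × Idx d → Bool) :
    ∀ j i, Wm x j i (o0 d) = rho d ^ (j + 1) * inp x j i
  | 0, i => by simp [Wm, Hm, inp, had_comm i, had_zero]
  | j + 1, i => by
    rw [Wm, Matrix.mul_apply]
    simp only [phase, mul_diagonal, Wm_col x j, inp, Hm, of_apply, psg]
    push_cast
    rw [mul_sum]
    refine sum_congr rfl (fun l _ => ?_)
    rw [cast_sgz]; ring

/-- `(k+1)`-fold Forrelation -/
noncomputable def forr (x : Fin (k + 1) × Idx d → Bool) : ℝ := Wm x (k + 1) (o0 d) (o0 d)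

lemma abs_forr (x : Fin (k + 1) × Idx d → Bool) : |forr x| ≤ 1 :=
  ((QM_Wm (k + 1)).orth x).abs_le _ _

/-- paths -/
def Path (d : ℕ) : ℕ → Type
  | 0 => Idx d
  | j + 1 => Path d j × Idx d

instance instFintypePath (d : ℕ) : ∀ j, Fintype (Path d j)
  | 0 => inferInstanceAs (Fintype (Idx d))
  | j + 1 => @instFintypeProd _ _ (instFintypePath d j) inferInstance

/-- paths of length zero -/
def pnil (l : Idx d) : Path d 0 := l

/-- extension of a path -/
def psnoc {j : ℕ} (p : Path d j) (l : Idx d) : Path d (j + 1) := (p, l)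

lemma path_zero (p : Path d 0) : ∃ l, p = pnil l := ⟨p, rfl⟩
lemma path_succ {j : ℕ} (p : Path d (j + 1)) : ∃ p' l, p = psnoc p' l := ⟨p.1, p.2, rfl⟩

lemma sum_path_zero (F : Path d 0 → ℝ) : ∑ p, F p = ∑ l : Idx d, F (pnil l) := rfl

lemma sum_path_succ (j : ℕ) (F : Path d (j + 1) → ℝ) :
    ∑ p, F p = ∑ p : Path d j, ∑ l : Idx d, F (psnoc p l) :=
  Fintype.sum_prod_type (α₁ := Path d j) (α₂ := Idx d) F

lemma card_path : ∀ j, Fintype.card (Path d j) = (2 ^ d) ^ (j + 1)
  | 0 => by
    show Fintype.card (Idx d) = _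
    simp
  | j + 1 => by
    show Fintype.card (Path d j × Idx d) = _
    rw [Fintype.card_prod, card_path j]; simp [pow_succ]

/-- the last vertex -/
def plast : ∀ j, Path d j → Idx d
  | 0, p => p
  | _ + 1, p => p.2

/-- the sign of a path -/
def pwt : ∀ j, Path d j → ℝ
  | 0, _ => 1
  | j + 1, p => pwt j p.1 * had p.2 (plast j p.1)

/-- the vertex set of a path -/
def pset (k : ℕ) : ∀ j, Path d j → Finset (Fin (k + 1) × Idx d)
  | 0, p => {(blk k 0, plast 0 p)}
  | j + 1, p => insert (blk k (j + 1), p.2) (pset k j p.1)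

@[simp] lemma plast_nil (l : Idx d) : plast 0 (pnil l) = l := rfl
@[simp] lemma plast_snoc {j : ℕ} (p : Path d j) (l : Idx d) : plast (j + 1) (psnoc p l) = l := rfl
@[simp] lemma pwt_nil (l : Idx d) : pwt 0 (pnil l) = 1 := rfl
@[simp] lemma pwt_snoc {j : ℕ} (p : Path d j) (l : Idx d) :
    pwt (j + 1) (psnoc p l) = pwt j p * had l (plast j p) := rfl
@[simp] lemma pset_nil (l : Idx d) : pset k 0 (pnil l) = {(blk k 0, l)} := rfl
@[simp] lemma pset_snoc {j : ℕ} (p : Path d j) (l : Idx d) :
    pset k (j + 1) (psnoc p l) = insert (blk k (j + 1), l) (pset k j p) := rfl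

lemma abs_pwt : ∀ j (p : Path d j), |pwt j p| = 1
  | 0, _ => by simp [pwt]
  | j + 1, p => by rw [pwt, abs_mul, abs_pwt j, abs_had, one_mul]

lemma pset_level : ∀ j (p : Path d j) q, q ∈ pset k j p → q.1.val ≤ j
  | 0, p, q, h => by
    obtain ⟨l, hl⟩ := path_zero p
    simp only [hl, pset_nil, mem_singleton] at h
    subst h; simp [blk]
  | j + 1, p, q, h => by
    obtain ⟨p, l, rfl⟩ := path_succ p
    simp only [pset_snoc, mem_insert] at h
    rcases h with h | h
    · subst h; simp [blk]
    · exact (pset_level j p q h).trans (by omega)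

lemma notMem_pset {j : ℕ} (hj : j + 1 ≤ k) (p : Path d j) (l : Idx d) :
    (blk k (j + 1), l) ∉ pset k j p := by
  intro h
  have := pset_level j p _ h
  rw [blk_val hj] at this; omega

lemma plast_mem : ∀ j (p : Path d j), (blk k j, plast j p) ∈ pset k j p
  | 0, p => by obtain ⟨l, hl⟩ := path_zero p; simp [hl]
  | j + 1, p => by obtain ⟨p, l, rfl⟩ := path_succ p; simp

lemma card_pset : ∀ j, j ≤ k → ∀ p : Path d j, (pset k j p).card = j + 1
  | 0, _, p => by obtain ⟨l, hl⟩ := path_zero p; simp [hl]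
  | j + 1, h, p => by
    obtain ⟨p, l, rfl⟩ := path_succ p
    rw [pset_snoc, card_insert_of_notMem (notMem_pset h _ _), card_pset j (by omega)]

lemma pset_subset : ∀ j, j ≤ k → ∀ p p' : Path d j, pset k j p ⊆ pset k j p' → p = p'
  | 0, _, p, p', h => by
    obtain ⟨l, hl⟩ := path_zero p
    obtain ⟨l', hl'⟩ := path_zero p'
    simp only [hl, hl', pset_nil, singleton_subset_iff, mem_singleton, Prod.mk.injEq,
      true_and] at h
    rw [hl, hl', h]
  | j + 1, hj, p, p', h => by
    obtain ⟨p, l, rfl⟩ := path_succ p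
    obtain ⟨p', l', rfl⟩ := path_succ p'
    simp only [pset_snoc] at h
    have h1 := h (mem_insert_self _ _)
    rw [mem_insert] at h1
    have h2 : l = l' := by
      rcases h1 with h1 | h1
      · exact (Prod.ext_iff.1 h1).2
      · exact absurd h1 (notMem_pset hj _ _)
    have h3 : p = p' := by
      refine pset_subset j (by omega) _ _ (fun q hq => ?_)
      have h4 := h (mem_insert_of_mem hq)
      rw [mem_insert] at h4
      rcases h4 with h4 | h4
      · subst h4; exact absurd hq (notMem_pset hj _ _)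
      · exact h4
    rw [h2, h3]

lemma path_sum (x : Fin (k + 1) × Idx d → Bool) : ∀ j, j ≤ k → ∀ F : Idx d → ℝ,
    ∑ l, F l * (sg (x (blk k j, l)) * inp x j l)
      = ∑ p : Path d j, F (plast j p) * (pwt j p * ∏ q ∈ pset k j p, sg (x q))
  | 0, _, F => by rw [sum_path_zero]; simp [inp]
  | j + 1, hj, F => by
    rw [sum_path_succ, sum_comm]
    refine sum_congr rfl (fun l _ => ?_)
    have ih := path_sum x j (by omega) (fun l' => had l l')
    simp only [inp, plast_snoc, pwt_snoc, pset_snoc]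
    push_cast
    simp only [cast_sgz]
    rw [ih, mul_sum, mul_sum]
    refine sum_congr rfl (fun p _ => ?_)
    rw [prod_insert (notMem_pset hj _ _)]
    ring

lemma forr_eq (x : Fin (k + 1) × Idx d → Bool) :
    forr x = ∑ p : Path d k, rho d ^ (k + 2) * pwt k p * ∏ q ∈ pset k k p, sg (x q) := by
  have h := path_sum x k le_rfl (fun _ => 1)
  simp only [one_mul] at h
  rw [forr, Wm_col, inp]
  push_cast
  simp only [had_zero, cast_sgz, Int.cast_one, one_mul, h, mul_sum, mul_assoc]

lemma ext_char {ι : Type} [Fintype ι] [DecidableEq ι] (A S : Finset ι) (z : ι → ℝ)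
    (h : S ⊆ A → S = A) : ext (fun x => ∏ q ∈ A, sg (x q)) S z = if S = A then 1 else 0 := by
  have e : (fun x : ι → Bool => ∏ q ∈ A, sg (x q))
      = fun x => ∏ q, (fun q b => if q ∈ A then sg b else 1) q (x q) := by
    funext x; simp [prod_ite_mem]
  rw [ext_real, e, PE_prod _ (fun q b => if q ∈ A then sg b else 1)]
  split_ifs with hS
  · subst hS
    refine prod_eq_one (fun q _ => ?_)
    by_cases hq : q ∈ S <;> simp [fac_real, hq] <;> ring
  · obtain ⟨q, hq, hq'⟩ := not_subset.1 (fun h' => hS (h h'))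
    refine prod_eq_zero (mem_univ q) ?_
    simp [fac_real, hq, hq']; ring

lemma ext_forr (p : Path d k) (z : Fin (k + 1) × Idx d → ℝ) :
    ext forr (pset k k p) z = rho d ^ (k + 2) * pwt k p := by
  classical
  have e : (forr : (Fin (k + 1) × Idx d → Bool) → ℝ) = fun x => _ := funext forr_eq
  rw [ext_real, e, PE_sum, sum_eq_single p]
  · rw [PE_const_mul, ← ext_real, ext_char _ _ _ (fun _ => rfl)]; simp
  · intro p' _ hp
    rw [PE_const_mul, ← ext_real, ext_char _ _ _ (fun h => by rw [pset_subset k le_rfl _ _ h]),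
      if_neg, mul_zero]
    intro h
    exact hp (pset_subset k le_rfl _ _ h.ge)
  · simp

end Vale.Agent.P362
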