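import Vale.Agent.P362.Defs
import Vale.Agent.P362.DT

namespace Vale.Agent.P362

open Finset

variable {n : ℕ}

/-- number of queries inside `J` -/
def cnt (J : Fin n → Bool) : DTree n → (Fin n → Bool) → ℕ
  | .leaf _, _ => 0
  | .node i t0 t1, x => (if x i = true then cnt J t1 x else cnt J t0 x) + if J i = true then 1 else 0

/-- does one of the first `s` queries inside `J` hit `Z` -/
def hit (J Z : Fin n → Bool) : DTree n → ℕ → (Fin n → Bool) → ℝ
  | .leaf _, _, _ => 0
  | .node i t0 t1, s, x =>
    if J i = true then
      (if s = 0 then 0 else if Z i = true then 1 else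
        if x i = true then hit J Z t1 (s - 1) x else hit J Z t0 (s - 1) x)
    else if x i = true then hit J Z t1 s x else hit J Z t0 s x

lemma hit_mem (J Z : Fin n → Bool) (τ : DTree n) : ∀ s x, 0 ≤ hit J Z τ s x ∧ hit J Z τ s x ≤ 1 := by
  induction τ with
  | leaf b => intro s x; simp [hit]
  | node i t0 t1 ih0 ih1 =>
    intro s x
    simp only [hit]
    split_ifs <;> first | exact ih0 _ _ | exact ih1 _ _ | norm_num

lemma hit_or_cnt (J Z : Fin n → Bool) (y y' : Fin n → Bool) (hy : ∀ i, Z i = false → y i = y' i)
    (hZ : ∀ i, Z i = true → J i = true) (τ : DTree n) :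
    ∀ s, τ.eval y ≠ τ.eval y' → hit J Z τ s y = 1 ∨ s < cnt J τ y := by
  induction τ with
  | leaf b => intro s h; simp [DTree.eval] at h
  | node i t0 t1 ih0 ih1 =>
    intro s h
    simp only [hit, cnt, DTree.eval] at h ⊢
    by_cases hJ : J i = true
    · simp only [hJ, if_true]
      by_cases hs : s = 0
      · right; omega
      · simp only [hs, if_false]
        by_cases hz : Z i = true
        · left; simp [hz]
        · have := hy i (by simpa using hz)
          rw [← this] at h
          simp only [hz]
          by_cases hx : y i = true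
          · simp only [hx, if_true] at h ⊢
            rcases ih1 (s - 1) h with h1 | h1
            · left; simpa using h1
            · right; omega
          · simp only [hx] at h ⊢
            rcases ih0 (s - 1) h with h1 | h1
            · left; simpa using h1
            · right; simp only [Bool.false_eq_true, if_false]; omega
    · have hz : Z i = false := by
        by_contra hc; exact hJ (hZ i (by simpa using hc))
      rw [← hy i hz] at h
      simp only [hJ]
      by_cases hx : y i = true
      · simp only [hx, if_true] at h ⊢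
        simpa using ih1 s h
      · simp only [hx] at h ⊢
        simpa using ih0 s h

lemma sum_cnt {C : Type} [Fintype C] [DecidableEq C] (col : Fin n → C) (y : Fin n → Bool)
    (τ : DTree n) : ∑ j, cnt (fun i => decide (col i = j)) τ y = τ.cost y := by
  induction τ with
  | leaf b => simp [cnt, DTree.cost]
  | node i t0 t1 ih0 ih1 =>
    simp only [cnt, DTree.cost, sum_add_distrib]
    split_ifs <;> simp [ih0, ih1]

lemma hit_congr (J Z : Fin n → Bool) (y y' : Fin n → Bool) (hy : ∀ i, Z i = false → y i = y' i)
    (hZ : ∀ i, Z i = true → J i = true) (τ : DTree n) :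
    ∀ s, hit J Z τ s y = hit J Z τ s y' := by
  induction τ with
  | leaf b => intro s; rfl
  | node i t0 t1 ih0 ih1 =>
    intro s
    simp only [hit, ih0, ih1]
    by_cases hz : Z i = true
    · simp [hz, hZ i hz]
    · rw [hy i (by simpa using hz)]

lemma sum_hit {A : Type} [Fintype A] [DecidableEq A] (J : Fin n → Bool) (lab : Fin n → Option A)
    (y : Fin n → Bool) (τ : DTree n) :
    ∀ s, ∑ a, hit J (fun i => decide (lab i = some a)) τ s y ≤ s := by
  induction τ with
  | leaf b => intro s; simp [hit]
  | node i t0 t1 ih0 ih1 =>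
    intro s
    simp only [hit]
    by_cases hJ : J i = true
    · simp only [hJ, if_true]
      by_cases hs : s = 0
      · simp [hs]
      · simp only [hs, if_false]
        obtain ⟨s, rfl⟩ : ∃ s', s = s' + 1 := ⟨s - 1, by omega⟩
        simp only [Nat.add_sub_cancel]
        have key : ∀ τ' : DTree n, ∑ a, hit J (fun i => decide (lab i = some a)) τ' s y ≤ s →
            ∑ a, (if decide (lab i = some a) = true then 1 else
              hit J (fun i => decide (lab i = some a)) τ' s y) ≤ ((s + 1 : ℕ) : ℝ) := by
          intro τ' h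
          have h1 : ∀ a, (if decide (lab i = some a) = true then 1 else
              hit J (fun i => decide (lab i = some a)) τ' s y)
              ≤ hit J (fun i => decide (lab i = some a)) τ' s y
                + if lab i = some a then 1 else 0 := by
            intro a
            have := hit_mem J (fun i => decide (lab i = some a)) τ' s y
            by_cases ha : lab i = some a <;> simp [ha, this.1]
          refine (sum_le_sum (fun a _ => h1 a)).trans ?_
          rw [sum_add_distrib]
          have h2 : ∑ a, (if lab i = some a then (1 : ℝ) else 0) ≤ 1 := by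
            cases lab i <;> simp
          push_cast; linarith
        by_cases hx : y i = true
        · simp only [hx, if_true]; exact key t1 (ih1 s)
        · simp only [hx]; exact key t0 (ih0 s)
    · simp only [hJ]
      by_cases hx : y i = true
      · simpa [hx] using ih1 s
      · simpa [hx] using ih0 s

lemma hit_or (J Z1 Z2 : Fin n → Bool) (y : Fin n → Bool) (τ : DTree n) :
    ∀ s, hit J (fun i => Z1 i || Z2 i) τ s y ≤ hit J Z1 τ s y + hit J Z2 τ s y := by
  induction τ with
  | leaf b => intro s; simp [hit]
  | node i t0 t1 ih0 ih1 =>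
    intro s
    simp only [hit]
    have a1 := (hit_mem J Z1 t0 (s - 1) y).1
    have a2 := (hit_mem J Z1 t1 (s - 1) y).1
    have a3 := (hit_mem J Z2 t0 (s - 1) y).1
    have a4 := (hit_mem J Z2 t1 (s - 1) y).1
    have b0 := ih0 (s - 1)
    have b1 := ih1 (s - 1)
    have c0 := ih0 s
    have c1 := ih1 s
    by_cases hJ : J i = true <;> by_cases h1 : Z1 i = true <;> by_cases h2 : Z2 i = true <;>
      by_cases hy : y i = true <;> by_cases hs : s = 0 <;>
      simp only [hJ, h1, h2, hy, hs, Bool.or_eq_true, or_self, or_true, true_or, if_true, if_false,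
        Bool.false_eq_true] <;>
      first | linarith | (subst hs; linarith)

lemma DT_hit {ι : Type} (J Z : Fin n → Bool) (r : Fin n → ι ⊕ Bool)
    (hr : ∀ i q, r i = .inl q → J i = true) (τ : DTree n) :
    ∀ s, DT s (fun x => hit J Z τ s (subst r x)) := by
  induction τ with
  | leaf b => intro s; exact .const _ _
  | node i t0 t1 ih0 ih1 =>
    intro s
    simp only [hit]
    by_cases hJ : J i = true
    · simp only [hJ, if_true]
      by_cases hs : s = 0
      · simp only [hs, if_true]; exact .const _ _
      · simp only [hs, if_false]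
        obtain ⟨s, rfl⟩ : ∃ s', s = s' + 1 := ⟨s - 1, by omega⟩
        simp only [Nat.add_sub_cancel]
        by_cases hz : Z i = true
        · simp only [hz, if_true]; exact .const _ _
        · simp only [hz]
          rcases hi : r i with q | b
          · refine (DT.node q (ih0 s) (ih1 s)).of_eq (fun x => ?_)
            simp [subst, hi]
          · cases b
            · refine (ih0 s).succ.of_eq (fun x => ?_)
              simp [subst, hi]
            · refine (ih1 s).succ.of_eq (fun x => ?_)
              simp [subst, hi]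
    · simp only [hJ]
      rcases hi : r i with q | b
      · exact absurd (hr i q hi) hJ
      · cases b
        · refine (ih0 s).of_eq (fun x => ?_)
          simp [subst, hi]
        · refine (ih1 s).of_eq (fun x => ?_)
          simp [subst, hi]

/-- semantic decision trees give trees -/
lemma DT.tree {t : ℕ} {f : (Fin n → Bool) → Bool} (h : DT t f) :
    ∃ τ : DTree n, (∀ x, τ.cost x ≤ t) ∧ ∀ x, τ.eval x = f x := by
  induction h with
  | const t a => exact ⟨.leaf a, fun _ => Nat.zero_le _, fun _ => rfl⟩
  | node i _ _ ih0 ih1 =>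
    obtain ⟨τ0, h0, e0⟩ := ih0
    obtain ⟨τ1, h1, e1⟩ := ih1
    refine ⟨.node i τ0 τ1, fun x => ?_, fun x => ?_⟩
    · simp only [DTree.cost]
      split_ifs
      · exact Nat.succ_le_succ (h1 x)
      · exact Nat.succ_le_succ (h0 x)
    · simp only [DTree.eval, e0, e1]

lemma DT.randComputes {t : ℕ} {f : (Fin n → Bool) → Bool} (h : DT t f) : RandComputes f t := by
  obtain ⟨τ, h1, h2⟩ := h.tree
  refine ⟨PMF.pure τ, fun t' ht x => ?_, fun x => ?_⟩
  · rw [PMF.support_pure, Set.mem_singleton_iff] at ht
    rw [ht]; exact h1 x
  · rw [PMF.toOuterMeasure_pure_apply, if_pos (by simpa using h2 x)]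
    exact ENNReal.div_le_of_le_mul (by norm_num)

/-- Yao's easy direction -/
lemma RandComputes.yao {T : ℕ} {f : (Fin n → Bool) → Bool} (h : RandComputes f T)
    {X : Type} [Fintype X] (w : X → ℝ) (hw0 : ∀ a, 0 ≤ w a) (y : X → Fin n → Bool) (c : ℝ)
    (hc : ∀ τ : DTree n, (∀ x, τ.cost x ≤ T) →
      ∑ a, w a * (if τ.eval (y a) = f (y a) then 1 else 0) ≤ c) :
    2 / 3 * ∑ a, w a ≤ c := by
  obtain ⟨p, hp, hf⟩ := h
  have hs : Summable (fun τ => (p τ).toReal) := ENNReal.summable_toReal p.tsum_coe_ne_top
  have hs1 : ∑' τ, (p τ).toReal = 1 := by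
    rw [← ENNReal.tsum_toReal_eq (fun τ => p.apply_ne_top τ), p.tsum_coe]; rfl
  have hsi : ∀ x, Summable (fun τ => (p τ).toReal * (if τ.eval x = f x then (1 : ℝ) else 0)) := by
    intro x
    refine Summable.of_nonneg_of_le (fun τ => by positivity) (fun τ => ?_) hs
    split_ifs <;> simp
  have h1 : ∀ x, 2 / 3 ≤ ∑' τ, (p τ).toReal * (if τ.eval x = f x then (1 : ℝ) else 0) := by
    intro x
    have h2 := hf x
    rw [PMF.toOuterMeasure_apply] at h2
    have h3 : ∑' τ, Set.indicator {t : DTree n | t.eval x = f x} p τ ≠ ⊤ :=
      ne_top_of_le_ne_top p.tsum_coe_ne_top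
        (ENNReal.tsum_le_tsum (fun τ => Set.indicator_le_self _ _ τ))
    have h4 := ENNReal.toReal_mono h3 h2
    rw [ENNReal.tsum_toReal_eq (fun τ => ne_top_of_le_ne_top (p.apply_ne_top τ)
      (Set.indicator_le_self _ _ τ))] at h4
    have e1 : ((2 / 3 : ENNReal)).toReal = 2 / 3 := by
      rw [ENNReal.toReal_div]; norm_num
    rw [e1] at h4
    refine h4.trans (le_of_eq (tsum_congr fun τ => ?_))
    by_cases hτ : τ.eval x = f x <;> simp [Set.indicator, hτ]
  calc 2 / 3 * ∑ a, w a = ∑ a, w a * (2 / 3) := by rw [mul_comm, sum_mul]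
    _ ≤ ∑ a, w a * ∑' τ, (p τ).toReal * (if τ.eval (y a) = f (y a) then (1 : ℝ) else 0) :=
      sum_le_sum (fun a _ => mul_le_mul_of_nonneg_left (h1 _) (hw0 a))
    _ = ∑ a, ∑' τ, w a * ((p τ).toReal * (if τ.eval (y a) = f (y a) then (1 : ℝ) else 0)) := by
      simp only [tsum_mul_left]
    _ = ∑' τ, ∑ a, w a * ((p τ).toReal * (if τ.eval (y a) = f (y a) then (1 : ℝ) else 0)) :=
      (Summable.tsum_finsetSum (fun a _ => (hsi _).mul_left _)).symm
    _ ≤ ∑' τ, (p τ).toReal * c := by
      refine Summable.tsum_le_tsum (fun τ => ?_)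
        (summable_sum (fun a _ => (hsi _).mul_left _)) (hs.mul_right c)
      by_cases hτ : τ ∈ p.support
      · have := mul_le_mul_of_nonneg_left (hc τ (hp τ hτ)) (ENNReal.toReal_nonneg (a := p τ))
        refine le_trans (le_of_eq ?_) this
        rw [mul_sum]; exact sum_congr rfl (fun a _ => by ring)
      · have : p τ = 0 := by simpa using hτ
        simp [this]
    _ = c := by rw [tsum_mul_right, hs1, one_mul]

end Vale.Agent.P362
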