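import Vale.Agent.P362.QM

namespace Vale.Agent.P362

open Finset
open scoped symmDiff

variable {n : ℕ}

/-- sign of membership -/
def ms (A : Finset (Fin n)) (l : Fin n) : ℝ := sg (decide (l ∈ A))

lemma ms_tog (A : Finset (Fin n)) (i l : Fin n) :
    ms (A ∆ {i}) l = ms A l * if l = i then -1 else 1 := by
  unfold ms
  by_cases h : l = i <;> by_cases h2 : l ∈ A <;> simp [mem_symmDiff, h, h2] <;>
    simp_all

/-- Huang's signs -/
def hs (A : Finset (Fin n)) (i : Fin n) : ℝ := ∏ l, if l < i then ms A l else 1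

/-- parity -/
def par (A : Finset (Fin n)) : ℝ := ∏ l, ms A l

lemma hs_tog (A : Finset (Fin n)) (i j : Fin n) :
    hs (A ∆ {i}) j = hs A j * if i < j then -1 else 1 := by
  unfold hs
  have : (if i < j then (-1 : ℝ) else 1)
      = ∏ l, if l = i then (if l < j then -1 else 1) else 1 := by simp
  rw [this, ← prod_mul_distrib]
  refine prod_congr rfl (fun l _ => ?_)
  rw [ms_tog]; split_ifs <;> simp

lemma hs_sq (A : Finset (Fin n)) (i : Fin n) : hs A i * hs A i = 1 := by
  unfold hs
  rw [← prod_mul_distrib]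
  refine prod_eq_one (fun l _ => ?_)
  split_ifs
  · exact sg_mul_self _
  · simp

lemma abs_hs (A : Finset (Fin n)) (i : Fin n) : |hs A i| = 1 := by
  rcases mul_self_eq_one_iff.1 (hs_sq A i) with h | h <;> simp [h]

lemma par_tog (A : Finset (Fin n)) (i : Fin n) : par (A ∆ {i}) = -par A := by
  unfold par
  simp only [ms_tog, prod_mul_distrib]
  simp

lemma par_eq (A : Finset (Fin n)) : par A = (-1) ^ A.card := by
  unfold par ms sg
  simp [prod_ite]

lemma par_cases (A : Finset (Fin n)) : par A = 1 ∨ par A = -1 := by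
  rw [par_eq]; exact neg_one_pow_eq_or ℝ _

lemma tog_mem {M A : Finset (Fin n)} {i : Fin n} (hA : A ∈ M.powerset) (hi : i ∈ M) :
    A ∆ {i} ∈ M.powerset := by
  rw [mem_powerset] at *
  intro l hl
  rcases mem_symmDiff.1 hl with h | h
  · exact hA h.1
  · rw [mem_singleton.1 h.1]; exact hi

lemma sum_tog (M : Finset (Fin n)) {i : Fin n} (hi : i ∈ M) (F : Finset (Fin n) → ℝ) :
    ∑ A ∈ M.powerset, F (A ∆ {i}) = ∑ A ∈ M.powerset, F A :=
  sum_nbij' (fun A => A ∆ {i}) (fun A => A ∆ {i}) (fun _ hA => tog_mem hA hi)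
    (fun _ hA => tog_mem hA hi) (fun _ _ => symmDiff_symmDiff_cancel_right _ _)
    (fun _ _ => symmDiff_symmDiff_cancel_right _ _) (fun _ _ => rfl)

/-- signed adjacency operator -/
def Aop (M : Finset (Fin n)) (v : Finset (Fin n) → ℝ) (A : Finset (Fin n)) : ℝ :=
  ∑ i ∈ M, hs A i * v (A ∆ {i})

lemma Aop_sq (M : Finset (Fin n)) (v : Finset (Fin n) → ℝ) (A : Finset (Fin n)) :
    Aop M (Aop M v) A = M.card * v A := by
  unfold Aop
  simp only [mul_sum, hs_tog]
  set G : Fin n → Fin n → ℝ := fun i j => hs A i * hs A j * v (A ∆ {i} ∆ {j}) with hG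
  have hsym : ∀ i j, G i j = G j i := by
    intro i j
    simp only [hG]
    rw [symmDiff_right_comm, mul_comm (hs A i)]
  have e1 : ∑ i ∈ M, ∑ j ∈ M, hs A i * ((hs A j * if i < j then -1 else 1) * v (A ∆ {i} ∆ {j}))
      = ∑ i ∈ M, ∑ j ∈ M, G i j * if i < j then -1 else 1 :=
    sum_congr rfl (fun i _ => sum_congr rfl (fun j _ => by simp only [hG]; ring))
  have e2 : ∑ i ∈ M, ∑ j ∈ M, G i j * (if i < j then -1 else 1)
      = ∑ i ∈ M, ∑ j ∈ M, G i j * (if j < i then -1 else 1) := by
    rw [sum_comm]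
    exact sum_congr rfl (fun i _ => sum_congr rfl (fun j _ => by rw [hsym]))
  have e3 : ∑ i ∈ M, ∑ j ∈ M, G i j * (if i < j then -1 else 1)
      + ∑ i ∈ M, ∑ j ∈ M, G i j * (if j < i then -1 else 1) = 2 * (M.card * v A) := by
    rw [← sum_add_distrib, mul_left_comm, ← nsmul_eq_mul, ← sum_const]
    refine sum_congr rfl (fun i hi => ?_)
    rw [← sum_add_distrib, sum_eq_single i]
    · simp only [hG, lt_irrefl, if_false, hs_sq, symmDiff_symmDiff_cancel_right]; ring
    · intro j _ hj
      rcases lt_or_gt_of_ne hj with h | h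
      · rw [if_neg (not_lt.2 h.le), if_pos h]; ring
      · rw [if_pos h, if_neg (not_lt.2 h.le)]; ring
    · intro h; exact absurd hi h
  rw [e1]; linarith

lemma card_even {M : Finset (Fin n)} (hM : M.Nonempty) :
    2 * (M.powerset.filter (fun A => par A = 1)).card = M.powerset.card := by
  obtain ⟨i, hi⟩ := hM
  have h1 := sum_tog M hi (fun A => if par A = 1 then (1 : ℝ) else 0)
  have h2 : ∑ A ∈ M.powerset, ((if par (A ∆ {i}) = 1 then (1 : ℝ) else 0)
      + if par A = 1 then (1 : ℝ) else 0) = M.powerset.card := by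
    rw [card_eq_sum_ones, Nat.cast_sum]
    refine sum_congr rfl (fun A _ => ?_)
    rw [par_tog]
    rcases par_cases A with h | h <;> rw [h] <;> norm_num
  rw [sum_add_distrib, h1, sum_boole] at h2
  have : (2 * (M.powerset.filter (fun A => par A = 1)).card : ℝ) = M.powerset.card := by linarith
  exact_mod_cast this

/-- Huang's lemma -/
theorem huang {M : Finset (Fin n)} (hM : M.Nonempty) (G : Finset (Fin n) → Bool)
    (hG : ∑ A ∈ M.powerset, (-1) ^ A.card * sg (G A) ≠ 0) :
    ∃ v : Finset (Fin n) → ℝ, 0 < ∑ A ∈ M.powerset, v A ^ 2 ∧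
      Real.sqrt M.card * ∑ A ∈ M.powerset, v A ^ 2
        ≤ ∑ A ∈ M.powerset, ∑ i ∈ M, if G A ≠ G (A ∆ {i}) then |v A| * |v (A ∆ {i})| else 0 := by
  set P := M.powerset with hP
  set g : Finset (Fin n) → ℝ := fun A => par A * sg (G A) with hg
  have hg1 : ∀ A, g A = 1 ∨ g A = -1 := by
    intro A
    simp only [hg]
    rcases par_cases A with h | h <;> rw [h] <;> cases G A <;> simp
  obtain ⟨c, hc⟩ : ∃ c : ℝ, 2 * (P.filter (fun A => g A ≠ c)).card < P.card := by
    have h1 : ∑ A ∈ P, g A ≠ 0 := by simpa only [hg, par_eq] using hG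
    have h2 : ∑ A ∈ P, g A = P.card - 2 * (P.filter (fun A => g A ≠ 1)).card := by
      rw [← sum_boole, card_eq_sum_ones, Nat.cast_sum, mul_sum, ← sum_sub_distrib]
      refine sum_congr rfl (fun A _ => ?_)
      rcases hg1 A with h | h <;> rw [h] <;> norm_num
    have h3 : ∑ A ∈ P, g A = 2 * (P.filter (fun A => g A ≠ -1)).card - P.card := by
      rw [← sum_boole, card_eq_sum_ones, Nat.cast_sum, mul_sum, ← sum_sub_distrib]
      refine sum_congr rfl (fun A _ => ?_)
      rcases hg1 A with h | h <;> rw [h] <;> norm_num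
    rcases lt_or_gt_of_ne h1 with h | h
    · refine ⟨-1, ?_⟩
      have : (2 * (P.filter (fun A => g A ≠ -1)).card : ℝ) < P.card := by linarith
      exact_mod_cast this
    · refine ⟨1, ?_⟩
      have : (2 * (P.filter (fun A => g A ≠ 1)).card : ℝ) < P.card := by linarith
      exact_mod_cast this
  set E := P.filter (fun A => par A = 1) with hE
  set W := P.filter (fun A => g A ≠ c) with hW
  have hcard : W.card < E.card := by have := card_even hM; rw [← hP, ← hE] at this; omega
  set s := Real.sqrt M.card with hs'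
  have hs2 : s * s = M.card := Real.mul_self_sqrt (by positivity)
  have hs0 : 0 < s := Real.sqrt_pos.2 (by exact_mod_cast hM.card_pos)
  let ex : (E → ℝ) → Finset (Fin n) → ℝ := fun w A => if h : A ∈ E then w ⟨A, h⟩ else 0
  let L : (E → ℝ) →ₗ[ℝ] (W → ℝ) :=
    { toFun := fun w A => Aop M (ex w) A + s * ex w A
      map_add' := fun w w' => by
        have : ex (w + w') = fun A => ex w A + ex w' A := by
          funext A; simp only [ex]; split_ifs <;> simp
        funext A
        simp only [this, Aop, Pi.add_apply, mul_add, sum_add_distrib]; ring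
      map_smul' := fun a w => by
        have : ex (a • w) = fun A => a * ex w A := by
          funext A; simp only [ex]; split_ifs <;> simp
        funext A
        simp only [this, Aop, Pi.smul_apply, smul_eq_mul, RingHom.id_apply, mul_add, mul_sum]
        congr 1
        · exact sum_congr rfl (fun _ _ => by ring)
        · ring }
  obtain ⟨w, hw, hw0⟩ := (Submodule.ne_bot_iff _).1 (LinearMap.ker_ne_bot_of_finrank_lt (f := L)
    (by simpa using hcard))
  set v : Finset (Fin n) → ℝ := fun A => Aop M (ex w) A + s * ex w A with hv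
  have hvW : ∀ A ∈ P, g A ≠ c → v A = 0 := fun A hA hc' =>
    congrFun (LinearMap.mem_ker.1 hw) ⟨A, mem_filter.2 ⟨hA, hc'⟩⟩
  have hAv : ∀ A, Aop M v A = s * v A := by
    intro A
    have : Aop M v A = Aop M (Aop M (ex w)) A + s * Aop M (ex w) A := by
      simp only [hv]
      unfold Aop
      rw [mul_sum, ← sum_add_distrib]
      exact sum_congr rfl (fun _ _ => by ring)
    rw [this, Aop_sq, ← hs2]; simp only [hv]; ring
  refine ⟨v, ?_, ?_⟩
  · obtain ⟨⟨A, hA⟩, hA0⟩ := Function.ne_iff.1 hw0
    have h1 : v A = s * w ⟨A, hA⟩ := by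
      have h2 : Aop M (ex w) A = 0 := by
        refine sum_eq_zero (fun i _ => ?_)
        have : A ∆ {i} ∉ E := by
          intro h
          have h3 := (mem_filter.1 h).2
          rw [par_tog, (mem_filter.1 hA).2] at h3
          norm_num at h3
        simp [ex, this]
      simp [hv, h2, ex, hA]
    refine lt_of_lt_of_le ?_ (single_le_sum (f := fun A => v A ^ 2) (fun _ _ => sq_nonneg _)
      (mem_filter.1 hA).1)
    have : w ⟨A, hA⟩ ≠ 0 := hA0
    rw [h1]; positivity
  · rw [mul_sum]
    refine sum_le_sum (fun A hA => ?_)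
    have e : s * v A ^ 2 = ∑ i ∈ M, v A * (hs A i * v (A ∆ {i})) := by
      rw [← mul_sum]; change _ = v A * Aop M v A; rw [hAv]; ring
    rw [e]
    refine sum_le_sum (fun i hi => ?_)
    split_ifs with h
    · refine (le_abs_self _).trans (le_of_eq ?_)
      rw [abs_mul, abs_mul, abs_hs, one_mul]
    · have h1 : G A = G (A ∆ {i}) := by simpa using h
      have h2 : g (A ∆ {i}) = -g A := by simp only [hg, par_tog, ← h1]; ring
      by_cases h3 : g A = c
      · rw [hvW _ (tog_mem hA hi) (by
          rw [h2, ← h3]; rcases hg1 A with h4 | h4 <;> rw [h4] <;> norm_num)]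
        simp
      · rw [hvW A hA h3]; simp

end Vale.Agent.P362
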