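import Vale.Agent.P362.Fn
import Vale.Agent.P362.Hit

namespace Vale.Agent.P362

open Finset

variable {d k R w n : ℕ}

/-- randomness of one column -/
abbrev Om (d k R : ℕ) : Type :=
  Idx d × Idx d × (Fin d × Fin R → Fin (k + 1) × Idx d → Bool)

/-- a column of a zero input -/
def col0 (o : Om d k R) : ColI d k R w → Bool
  | .inl i => decide (i ≠ o.1)
  | .inr (.inl p) => o.2.2 p.1 p.2
  | .inr (.inr _) => false

/-- zero inputs -/
def y0 (ω : Idx d → Om d k R) : II d k R w → Bool := fun i => col0 (ω i.1) i.2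

/-- the special column of a one input -/
def col1 (enc : ℤ → Fin w → Bool) (ω : Idx d → Om d k R) (j : Idx d) : ColI d k R w → Bool
  | .inl _ => true
  | .inr (.inl p) => (ω j).2.2 p.1 p.2
  | .inr (.inr (a, .inl p)) => decide (a = (ω j).2.1) && (ω p.1).1 p.2
  | .inr (.inr (a, .inr p)) => decide (a = (ω j).2.1) &&
      enc (tv ((ω j).2.2 p.1.1) p.1.2.1 p.1.2.2.1 p.1.2.2.2) p.2

/-- one inputs -/
def y1 (enc : ℤ → Fin w → Bool) (ω : Idx d → Om d k R) (j : Idx d) : II d k R w → Bool :=
  fun i => if i.1 = j then col1 enc ω j i.2 else col0 (ω i.1) i.2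

lemma FF_y0 (θ δ : ℝ) (dec : (Fin w → Bool) → ℤ) (ω : Idx d → Om d k R) :
    FF θ δ dec (y0 ω) = false := by
  simp only [FF, decide_eq_false_iff_not]
  rintro ⟨v, hv⟩
  have := hv (.inl (ω v.1).1)
  simp [chk, y0, col0] at this

lemma FF_y1 (θ δ : ℝ) (dec : (Fin w → Bool) → ℤ) (enc : ℤ → Fin w → Bool)
    (henc : ∀ z, |z| ≤ 2 ^ (d * (k + 1)) → dec (enc z) = z) (ω : Idx d → Om d k R) (j : Idx d)
    (hp : ∀ l, prom θ δ ((ω j).2.1 l) ((∑ r, forr ((ω j).2.2 (l, r))) / R)) :
    FF θ δ dec (y1 enc ω j) = true := by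
  simp only [FF, decide_eq_true_eq]
  have hx : ∀ β, xb (y1 enc ω j) j β = (ω j).2.2 β := by
    intro β; funext q; simp [xb, y1, col1]
  have ht : ∀ β j' t, j' ≤ k → t ≤ d →
      tab dec (y1 enc ω j) (j, (ω j).2.1) β j' t = tv ((ω j).2.2 β) j' t := by
    intro β j' t hj ht
    funext i
    have h : j' < k + 1 ∧ t < d + 1 := ⟨by omega, by omega⟩
    simp only [tab, h, and_self, dif_pos, y1, if_true, col1, decide_true, Bool.true_and]
    exact henc _ (abs_tv _ ⟨j', h.1⟩ ⟨t, h.2⟩ i)
  refine ⟨(j, (ω j).2.1), fun c => ?_⟩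
  rcases c with i | c | ⟨β, j', t, i⟩ | l
  · simp [chk, y1, col1]
  · have hptr : ptr (y1 enc ω j) (j, (ω j).2.1) c = (ω c).1 := by
      funext s; simp [ptr, y1, col1]
    by_cases hc : c = j
    · simp [chk, hc]
    · simp [chk, hptr, y1, hc, col0]
  · simp only [chk, decide_eq_true_eq, hx]
    rw [ht β j' t (by omega) (by omega)]
    split_ifs with h0 h1
    · simp [h0, h1, tv, bfi, inp, show blk k 0 = j' from Fin.ext (by simp [blk, h1])]
    · rw [ht β (j'.val - 1) d (by omega) le_rfl, tv_full, Nat.sub_add_cancel (by omega), h0]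
      simp [tv, bfi, blk_fin]
    · rw [ht β j' (t.val - 1) (by omega) (by omega)]
      obtain ⟨s, hs⟩ : ∃ s, t.val = s + 1 := ⟨t.val - 1, by omega⟩
      rw [hs]; rfl
  · simp only [chk, decide_eq_true_eq, ht _ k d le_rfl le_rfl, ← forr_tv]
    exact hp l

/-- position labels in the all-ones part -/
def labU (j : Idx d) : II d k R w → Option (Idx d)
  | (j', .inl p) => if j' = j then some p else none
  | (_, .inr _) => none

/-- position labels in the cheat sheet -/
def labC (j : Idx d) : II d k R w → Option (Idx d)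
  | (j', .inr (.inr p)) => if j' = j then some p.1 else none
  | (_, .inl _) => none
  | (_, .inr (.inl _)) => none

lemma labU_col {j p : Idx d} {i : II d k R w} (h : labU j i = some p) : i.1 = j := by
  rcases i with ⟨j', c | c⟩
  · simp only [labU] at h; split_ifs at h with h1; exact h1
  · simp [labU] at h

lemma labC_col {j p : Idx d} {i : II d k R w} (h : labC j i = some p) : i.1 = j := by
  rcases i with ⟨j', c | c | c⟩
  · simp [labC] at h
  · simp [labC] at h
  · simp only [labC] at h; split_ifs at h with h1; exact h1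

lemma y0_eq_y1 (enc : ℤ → Fin w → Bool) (ω : Idx d → Om d k R) (j : Idx d) (i : II d k R w)
    (h1 : labU j i ≠ some (ω j).1) (h2 : labC j i ≠ some (ω j).2.1) :
    y0 ω i = y1 enc ω j i := by
  rcases i with ⟨j', c⟩
  by_cases hj : j' = j
  · subst hj
    rcases c with c | c | ⟨a, c | c⟩
    · simpa [y0, y1, col0, col1, labU] using h1
    · simp [y0, y1, col0, col1]
    · have : a ≠ (ω j').2.1 := by simpa [labC] using h2
      simp [y0, y1, col0, col1, this]
    · have : a ≠ (ω j').2.1 := by simpa [labC] using h2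
      simp [y0, y1, col0, col1, this]
  · simp [y0, y1, hj]

/-- weight of one column -/
noncomputable def w1 (D : Bool → (Fin (k + 1) × Idx d → Bool) → ℝ) (o : Om d k R) : ℝ :=
  1 / 2 ^ d * (1 / 2 ^ d * ∏ β : Fin d × Fin R, D (o.2.1 β.1) (o.2.2 β))

lemma sum_w1 (D : Bool → (Fin (k + 1) × Idx d → Bool) → ℝ) (g : Om d k R → ℝ) :
    ∑ o, w1 D o * g o = 1 / 2 ^ d * ∑ p, (1 / 2 ^ d * ∑ a : Idx d,
      PE (fun β : Fin d × Fin R => D (a β.1)) (fun x => g (p, a, x))) := by
  simp only [Fintype.sum_prod_type, w1, PE, mul_sum, mul_assoc]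

lemma avg_le {g : Idx d → ℝ} {c : ℝ} (h : ∀ a, g a ≤ c) : 1 / 2 ^ d * ∑ a, g a ≤ c := by
  have := sum_le_card_nsmul univ g c (fun a _ => h a)
  simp only [card_univ, Fintype.card_pi, Fintype.card_bool, prod_const, Fintype.card_fin,
    nsmul_eq_mul] at this
  push_cast at this
  rw [one_div, inv_mul_le_iff₀ (by positivity)]; exact this

section
variable {D : Bool → (Fin (k + 1) × Idx d → Bool) → ℝ} (hD0 : ∀ b x, 0 ≤ D b x)
  (hD1 : ∀ b, ∑ x, D b x = 1)
include hD0 hD1

omit hD1 in
lemma w1_nonneg (o : Om d k R) : 0 ≤ w1 D o := by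
  unfold w1
  have : 0 ≤ ∏ β : Fin d × Fin R, D (o.2.1 β.1) (o.2.2 β) := prod_nonneg fun _ _ => hD0 _ _
  positivity

omit hD0 in
lemma w1_one : ∑ o : Om d k R, w1 D o = 1 := by
  have := sum_w1 (R := R) D (fun _ => 1)
  simp only [mul_one] at this
  rw [this]
  have e : ∀ a : Idx d, PE (fun β : Fin d × Fin R => D (a β.1)) (fun _ => (1 : ℝ)) = 1 :=
    fun a => PE_const (fun β => hD1 _) 1
  simp [e]

lemma hitU_le (e : II d k R w ≃ Fin n) (τ : DTree n) (t : ℕ) (j : Idx d) :
    PE (fun _ : Idx d => w1 (R := R) D) (fun ω => hit (fun i => decide ((e.symm i).1 = j))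
      (fun i => decide (labU j (e.symm i) = some (ω j).1)) τ t (y0 ω ∘ e.symm)) ≤ t / 2 ^ d := by
  rw [PE_split j (w1_one hD1)]
  refine (PE_mono (fun _ => w1_nonneg hD0) (g := fun _ => t / 2 ^ d) (fun ω => ?_)).trans
    (le_of_eq (PE_const (fun _ => w1_one hD1) _))
  rw [sum_w1]
  simp only [Function.update_self]
  let yU : (Fin d × Fin R → Fin (k + 1) × Idx d → Bool) → II d k R w → Bool := fun x i =>
    match i with
    | (j', .inl c) => decide (j' = j) || col0 (w := w) (ω j') (.inl c)
    | (j', .inr c) => y0 (Function.update ω j (o0 d, o0 d, x)) (j', .inr c)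
  have e1 : ∀ p a x, hit (fun i => decide ((e.symm i).1 = j))
      (fun i => decide (labU j (e.symm i) = some p)) τ t
        (y0 (Function.update ω j (p, a, x)) ∘ e.symm)
      = hit (fun i => decide ((e.symm i).1 = j))
      (fun i => decide (labU j (e.symm i) = some p)) τ t (yU x ∘ e.symm) := by
    intro p a x
    refine hit_congr _ _ _ _ (fun i hi => ?_) (fun i hi => ?_) τ t
    · simp only [Function.comp]
      simp only [decide_eq_false_iff_not] at hi
      rcases hq : e.symm i with ⟨j', c | c⟩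
      · rw [hq] at hi
        by_cases hj : j' = j
        · subst hj; simpa [y0, yU, col0, labU] using hi
        · simp [y0, yU, hj]
      · by_cases hj : j' = j
        · subst hj; rcases c with c | c <;> simp [y0, yU, col0]
        · simp [y0, yU, hj]
    · simpa using labU_col (by simpa using hi)
  simp only [e1]
  rw [← mul_sum, sum_comm, div_eq_mul_one_div (t : ℝ), mul_comm (t : ℝ)]
  refine mul_le_mul_of_nonneg_left (avg_le (fun a => ?_)) (by positivity)
  rw [← PE_sum]
  exact (PE_mono (fun β => hD0 _) (g := fun _ => t)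
    (fun x => sum_hit _ (fun i => labU j (e.symm i)) _ τ t)).trans
    (le_of_eq (PE_const (fun β => hD1 _) _))

lemma hitC_le (e : II d k R w ≃ Fin n) (τ : DTree n) (t : ℕ) (j : Idx d) (adv : ℝ)
    (hadv : ∀ f, DT t f → (∀ x, |f x| ≤ 1) →
      |∑ x, D true x * f x - ∑ x, D false x * f x| ≤ adv) :
    PE (fun _ : Idx d => w1 (R := R) D) (fun ω => hit (fun i => decide ((e.symm i).1 = j))
      (fun i => decide (labC j (e.symm i) = some (ω j).2.1)) τ t (y0 ω ∘ e.symm))
      ≤ t / 2 ^ d + d * R * adv := by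
  rw [PE_split j (w1_one hD1)]
  refine (PE_mono (fun _ => w1_nonneg hD0) (g := fun _ => t / 2 ^ d + d * R * adv)
    (fun ω => ?_)).trans (le_of_eq (PE_const (fun _ => w1_one hD1) _))
  rw [sum_w1]
  simp only [Function.update_self]
  refine avg_le (fun p => ?_)
  have e1 : ∀ a x, (y0 (Function.update ω j (p, a, x)) : II d k R w → Bool)
      = y0 (Function.update ω j (p, o0 d, x)) := by
    intro a x
    funext ⟨j', c⟩
    by_cases hj : j' = j
    · subst hj; rcases c with c | c | c <;> simp [y0, col0]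
    · simp [y0, hj]
  simp only [e1]
  have hadv0 : 0 ≤ adv := le_trans (abs_nonneg _) (hadv (fun _ => 0) (.const _ _) (by simp))
  have h1 : ∀ a : Idx d, PE (fun β : Fin d × Fin R => D (a β.1))
      (fun x => hit (fun i => decide ((e.symm i).1 = j))
        (fun i => decide (labC j (e.symm i) = some a)) τ t
        (y0 (Function.update ω j (p, o0 d, x)) ∘ e.symm))
      ≤ PE (fun _ : Fin d × Fin R => D false)
      (fun x => hit (fun i => decide ((e.symm i).1 = j))
        (fun i => decide (labC j (e.symm i) = some a)) τ t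
        (y0 (Function.update ω j (p, o0 d, x)) ∘ e.symm)) + d * R * adv := by
    intro a
    refine (PE_hybrid (w := fun _ : Fin d × Fin R => D false) (fun _ => hD0 _) (fun _ => hD1 _) (fun _ => hD0 _) (fun _ => hD1 _) _ adv
      (fun β x => ?_)).trans (le_of_eq (by simp))
    cases a β.1
    · linarith
    · let r : II d k R w → (Fin (k + 1) × Idx d) ⊕ Bool := fun i =>
        match i with
        | (j', .inr (.inl q)) => if j' = j ∧ q.1 = β then .inl q.2
            else .inr (y0 (w := w) (Function.update ω j (p, o0 d, x)) (j', .inr (.inl q)))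
        | (j', .inl c) => .inr (y0 (w := w) (Function.update ω j (p, o0 d, x)) (j', .inl c))
        | (_, .inr (.inr _)) => .inr false
      have e2 : ∀ y, y0 (Function.update ω j (p, o0 d, Function.update x β y)) ∘ e.symm
          = subst (fun i => r (e.symm i)) y := by
        intro y
        funext i
        simp only [Function.comp, subst]
        rcases e.symm i with ⟨j', c | ⟨β', q⟩ | c⟩
        · by_cases hj : j' = j
          · subst hj; simp [r, y0, col0]
          · simp [r, y0, hj]
        · by_cases hj : j' = j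
          · subst hj
            by_cases hβ : β' = β
            · subst hβ; simp [r, y0, col0]
            · simp [r, y0, col0, hβ]
          · simp [r, y0, hj]
        · simp [r, y0, col0]
      simp only [e2]
      have h2 := hadv _ (DT_hit (fun i => decide ((e.symm i).1 = j))
        (fun i => decide (labC j (e.symm i) = some a)) (fun i => r (e.symm i)) (fun i q hq => by
          revert hq
          rcases e.symm i with ⟨j', c | ⟨β', q'⟩ | c⟩
          · simp [r]
          · by_cases hj : j' = j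
            · simp [hj]
            · simp [r, hj]
          · simp [r]) τ t) (fun y => by
          rw [abs_of_nonneg (hit_mem _ _ _ _ _).1]; exact (hit_mem _ _ _ _ _).2)
      linarith [(abs_le.1 h2).2]
  have h3 := sum_le_sum (fun a (_ : a ∈ univ) => h1 a)
  rw [sum_add_distrib, ← PE_sum] at h3
  have h4 := (PE_mono (w := fun _ : Fin d × Fin R => D false) (fun β => hD0 _) (g := fun _ => t)
    (fun x => sum_hit (fun i => decide ((e.symm i).1 = j)) (fun i => labC j (e.symm i))
      (y0 (Function.update ω j (p, o0 d, x)) ∘ e.symm) τ t)).trans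
    (le_of_eq (PE_const (fun β => hD1 _) _))
  simp only [sum_const, card_univ, Fintype.card_pi, Fintype.card_bool, prod_const,
    Fintype.card_fin, nsmul_eq_mul] at h3
  push_cast at h3
  have h5 : (0 : ℝ) < 2 ^ d := by positivity
  rw [one_div, inv_mul_le_iff₀ h5, mul_add, mul_div_cancel₀ _ h5.ne']
  linarith

lemma fail_le (δ : ℝ) (hδ : 0 < δ) (hR : 0 < R)
    (hgap : 4 * δ ≤ ∑ x, D true x * forr x - ∑ x, D false x * forr x)
    (dec : (Fin w → Bool) → ℤ) (enc : ℤ → Fin w → Bool)
    (henc : ∀ z, |z| ≤ 2 ^ (d * (k + 1)) → dec (enc z) = z) (j : Idx d) :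
    PE (fun _ : Idx d => w1 (R := R) D) (fun ω =>
      ind (FF ((∑ x, D true x * forr x + ∑ x, D false x * forr x) / 2) δ dec (y1 enc ω j) = false))
      ≤ 4 * d / (R * δ ^ 2) := by
  set m : Bool → ℝ := fun b => ∑ x, D b x * forr x with hm
  have hR' : (0 : ℝ) < R := by exact_mod_cast hR
  set G : Om d k R → ℝ := fun o =>
    ∑ l, 1 / (R * δ) ^ 2 * (∑ r, (forr (o.2.2 (l, r)) - m (o.2.1 l))) ^ 2 with hG
  refine (PE_mono (fun _ => w1_nonneg hD0) (g := fun ω => G (ω j)) (fun ω => ?_)).trans ?_
  · have hG0 : ∀ l, 0 ≤ 1 / (R * δ) ^ 2 *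
        (∑ r, (forr ((ω j).2.2 (l, r)) - m ((ω j).2.1 l))) ^ 2 := fun l => by positivity
    by_cases hp : ∀ l, prom ((m true + m false) / 2) δ ((ω j).2.1 l)
        ((∑ r, forr ((ω j).2.2 (l, r))) / R)
    · rw [ind_of_not (by rw [FF_y1 _ _ dec enc henc ω j hp]; simp)]
      exact sum_nonneg (fun l _ => hG0 l)
    · push Not at hp
      obtain ⟨l, hl⟩ := hp
      refine (ind_le_one _).trans (le_trans ?_ (single_le_sum (fun l _ => hG0 l) (mem_univ l)))
      rw [one_div, le_inv_mul_iff₀ (by positivity), mul_one, sum_sub_distrib, sum_const, card_univ,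
        Fintype.card_fin, nsmul_eq_mul]
      set A := ∑ r, forr ((ω j).2.2 (l, r))
      have hg : 4 * δ ≤ m true - m false := hgap
      unfold prom at hl
      revert hl
      cases (ω j).2.1 l
      · simp only [Bool.false_eq_true, if_false, not_le]
        intro hl
        rw [lt_div_iff₀ hR'] at hl
        refine pow_le_pow_left₀ (by positivity) ?_ 2
        nlinarith
      · simp only [if_true, not_le]
        intro hl
        rw [div_lt_iff₀ hR'] at hl
        rw [← neg_sq (A - _)]
        refine pow_le_pow_left₀ (by positivity) ?_ 2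
        nlinarith
  · rw [PE_single (fun _ => w1_one hD1) j G, sum_w1]
    refine avg_le (fun p => avg_le (fun a => ?_))
    simp only [hG]
    rw [PE_sum]
    refine (sum_le_card_nsmul _ _ (4 / (R * δ ^ 2)) (fun l _ => ?_)).trans
      (le_of_eq (by simp; ring))
    rw [PE_const_mul]
    have hmb : |m (a l)| ≤ 1 := by
      refine (abs_sum_le_sum_abs _ _).trans ?_
      rw [← hD1 (a l)]
      refine sum_le_sum (fun x _ => ?_)
      rw [abs_mul, abs_of_nonneg (hD0 _ _)]
      exact mul_le_of_le_one_right (hD0 _ _) (abs_forr x)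
    have := PE_var (w := fun β : Fin d × Fin R => D (a β.1)) (fun β => hD0 _) (fun β => hD1 _)
      (fun r : Fin R => (l, r)) (fun r r' h => (Prod.ext_iff.1 h).2)
      (fun y => forr y - m (a l)) 4 (fun r => by
        simp only [mul_sub, sum_sub_distrib, ← sum_mul, hD1, one_mul, hm, sub_self]) (fun y => by
        have h1 := abs_le.1 (abs_forr y)
        have h2 := abs_le.1 hmb
        nlinarith)
    rw [Fintype.card_fin] at this
    refine (mul_le_mul_of_nonneg_left this (by positivity)).trans (le_of_eq ?_)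
    field_simp

theorem FF_lower (δ : ℝ) (hδ : 0 < δ) (hR : 0 < R)
    (hgap : 4 * δ ≤ ∑ x, D true x * forr x - ∑ x, D false x * forr x)
    (dec : (Fin w → Bool) → ℤ) (hdec : ∀ z, |z| ≤ 2 ^ (d * (k + 1)) → ∃ s, dec s = z)
    (e : II d k R w ≃ Fin n) (t : ℕ) (ht : 0 < t) (adv : ℝ)
    (hadv : ∀ f, DT t f → (∀ x, |f x| ≤ 1) →
      |∑ x, D true x * f x - ∑ x, D false x * f x| ≤ adv) (T : ℕ)
    (h : RandComputes (fun x => FF ((∑ x, D true x * forr x + ∑ x, D false x * forr x) / 2) δ dec
      (x ∘ e)) T) :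
    1 / 3 ≤ T / (t * 2 ^ d) + 2 * (t / 2 ^ d) + d * R * adv + 4 * d / (R * δ ^ 2) := by
  classical
  set θ := (∑ x, D true x * forr x + ∑ x, D false x * forr x) / 2 with hθ
  obtain ⟨enc, henc⟩ : ∃ enc : ℤ → Fin w → Bool,
      ∀ z, |z| ≤ 2 ^ (d * (k + 1)) → dec (enc z) = z := by
    refine ⟨fun z => if h : ∃ s, dec s = z then h.choose else fun _ => false, fun z hz => ?_⟩
    simp only [hdec z hz, dif_pos]
    exact (hdec z hz).choose_spec
  have hW0 : ∀ (j : Idx d) (o : Om d k R), 0 ≤ (fun _ : Idx d => w1 (R := R) D) j o :=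
    fun _ => w1_nonneg hD0
  have hW1 : ∀ (j : Idx d), ∑ o : Om d k R, (fun _ : Idx d => w1 (R := R) D) j o = 1 :=
    fun _ => w1_one hD1
  have ht' : (0 : ℝ) < t := by exact_mod_cast ht
  have hy := h.yao (X := (Idx d × (Idx d → Om d k R)) × Bool)
    (fun a => 1 / 2 ^ d * ∏ j, w1 D (a.1.2 j))
    (fun a => mul_nonneg (by positivity) (prod_nonneg fun _ _ => w1_nonneg hD0 _))
    (fun a => (if a.2 = true then y1 enc a.1.2 a.1.1 else y0 a.1.2) ∘ e.symm)
    (1 + (T / (t * 2 ^ d) + 2 * (t / 2 ^ d) + d * R * adv + 4 * d / (R * δ ^ 2))) ?_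
  · have e1 : ∑ a : (Idx d × (Idx d → Om d k R)) × Bool, 1 / 2 ^ d * ∏ j, w1 D (a.1.2 j) = 2 := by
      simp only [Fintype.sum_prod_type, Fintype.sum_bool, sum_add_distrib, ← mul_sum,
        sum_prod_weight (fun _ : Idx d => w1 (R := R) D), w1_one hD1]
      simp; field_simp; norm_num
    rw [e1] at hy
    linarith
  · intro τ hτ
    have hc : ∀ y : II d k R w → Bool, (y ∘ e.symm) ∘ e = y := fun y => by funext i; simp
    simp only [Fintype.sum_prod_type, Fintype.sum_bool, if_true, Bool.false_eq_true, if_false, hc,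
      FF_y0]
    have key : ∀ (j : Idx d) (ω : Idx d → Om d k R),
        (if τ.eval (y1 enc ω j ∘ e.symm) = FF θ δ dec (y1 enc ω j) then (1 : ℝ) else 0)
          + (if τ.eval (y0 ω ∘ e.symm) = false then (1 : ℝ) else 0)
        ≤ 1 + (1 / t * (cnt (fun i => decide ((e.symm i).1 = j)) τ (y0 ω ∘ e.symm) : ℝ)
          + hit (fun i => decide ((e.symm i).1 = j))
            (fun i => decide (labU j (e.symm i) = some (ω j).1)) τ t (y0 ω ∘ e.symm)
          + hit (fun i => decide ((e.symm i).1 = j))
            (fun i => decide (labC j (e.symm i) = some (ω j).2.1)) τ t (y0 ω ∘ e.symm)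
          + ind (FF θ δ dec (y1 enc ω j) = false)) := by
      intro j ω
      have a1 := (hit_mem (fun i => decide ((e.symm i).1 = j))
        (fun i => decide (labU j (e.symm i) = some (ω j).1)) τ t (y0 ω ∘ e.symm)).1
      have a2 := (hit_mem (fun i => decide ((e.symm i).1 = j))
        (fun i => decide (labC j (e.symm i) = some (ω j).2.1)) τ t (y0 ω ∘ e.symm)).1
      have a3 : 0 ≤ 1 / (t : ℝ) *
        (cnt (fun i => decide ((e.symm i).1 = j)) τ (y0 ω ∘ e.symm) : ℝ) := by positivity
      have a4 := ind_nonneg (FF θ δ dec (y1 enc ω j) = false)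
      by_cases h0 : τ.eval (y0 ω ∘ e.symm) = false
      · by_cases h1 : τ.eval (y1 enc ω j ∘ e.symm) = FF θ δ dec (y1 enc ω j)
        · rw [if_pos h0, if_pos h1]
          by_cases h2 : FF θ δ dec (y1 enc ω j) = false
          · rw [ind_of h2]; linarith
          · have h3 := hit_or_cnt (fun i => decide ((e.symm i).1 = j))
              (fun i => decide (labU j (e.symm i) = some (ω j).1)
                || decide (labC j (e.symm i) = some (ω j).2.1))
              (y0 ω ∘ e.symm) (y1 enc ω j ∘ e.symm) (fun i hi => by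
                simp only [Bool.or_eq_false_iff, decide_eq_false_iff_not] at hi
                exact y0_eq_y1 enc ω j _ hi.1 hi.2) (fun i hi => by
                simp only [Bool.or_eq_true, decide_eq_true_eq] at hi ⊢
                exact hi.elim labU_col labC_col) τ t (by rw [h0, h1]; exact Ne.symm h2)
            rcases h3 with h3 | h3
            · have := hit_or (fun i => decide ((e.symm i).1 = j))
                (fun i => decide (labU j (e.symm i) = some (ω j).1))
                (fun i => decide (labC j (e.symm i) = some (ω j).2.1)) (y0 ω ∘ e.symm) τ t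
              linarith
            · have h4 : (t : ℝ) ≤ cnt (fun i => decide ((e.symm i).1 = j)) τ (y0 ω ∘ e.symm) := by
                exact_mod_cast h3.le
              have h5 : 1 ≤ 1 / (t : ℝ) *
                  (cnt (fun i => decide ((e.symm i).1 = j)) τ (y0 ω ∘ e.symm) : ℝ) := by
                rw [one_div, le_inv_mul_iff₀ ht']; linarith
              linarith
        · rw [if_pos h0, if_neg h1]; linarith
      · rw [if_neg h0]; split_ifs <;> linarith
    have h2 : ∀ j : Idx d, ∑ ω : Idx d → Om d k R, ((1 / 2 ^ d * ∏ j, w1 D (ω j)) *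
          (if τ.eval (y1 enc ω j ∘ e.symm) = FF θ δ dec (y1 enc ω j) then (1 : ℝ) else 0)
          + (1 / 2 ^ d * ∏ j, w1 D (ω j)) *
          (if τ.eval (y0 ω ∘ e.symm) = false then (1 : ℝ) else 0))
        ≤ 1 / 2 ^ d * (1 / t * PE (fun _ : Idx d => w1 (R := R) D) (fun ω =>
            (cnt (fun i => decide ((e.symm i).1 = j)) τ (y0 ω ∘ e.symm) : ℝ))
          + (1 + 2 * (t / 2 ^ d) + d * R * adv + 4 * d / (R * δ ^ 2))) := by
      intro j
      have h3 := PE_mono hW0 (key j)
      rw [PE_add _ (fun _ => 1), PE_add _ _ (fun ω => ind _), PE_add _ _ (fun ω => hit _ _ _ _ _),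
        PE_add _ _ (fun ω => hit _ _ _ _ _), PE_const hW1, PE_const_mul] at h3
      have h4 := hitU_le hD0 hD1 e τ t j
      have h5 := hitC_le hD0 hD1 e τ t j adv hadv
      have h6 := fail_le hD0 hD1 δ hδ hR hgap dec enc henc j
      simp only [← mul_add, mul_assoc, ← mul_sum]
      refine mul_le_mul_of_nonneg_left ?_ (by positivity)
      refine le_trans h3 ?_
      rw [← hθ] at h6
      linarith
    refine (sum_le_sum (fun j _ => h2 j)).trans ?_
    rw [← mul_sum, sum_add_distrib, ← mul_sum, ← PE_sum]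
    have h7 : PE (fun _ : Idx d => w1 (R := R) D) (fun ω => ∑ j,
        (cnt (fun i => decide ((e.symm i).1 = j)) τ (y0 ω ∘ e.symm) : ℝ)) ≤ T := by
      refine (PE_mono hW0 (g := fun _ => T) (fun ω => ?_)).trans (le_of_eq (PE_const hW1 _))
      have := sum_cnt (fun i => (e.symm i).1) (y0 ω ∘ e.symm) τ
      have h8 := hτ (y0 ω ∘ e.symm)
      rw [← this] at h8
      exact_mod_cast h8
    simp only [sum_const, card_univ, Fintype.card_pi, Fintype.card_bool, prod_const,
      Fintype.card_fin, nsmul_eq_mul]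
    push_cast
    have h5 : (0 : ℝ) < 2 ^ d := by positivity
    have h9 := mul_le_mul_of_nonneg_left h7 (by positivity : 0 ≤ 1 / 2 ^ d * (1 / (t : ℝ)))
    have e2 : 1 / 2 ^ d * (1 / (t : ℝ)) * T = T / (t * 2 ^ d) := by field_simp
    rw [mul_add, ← mul_assoc, ← mul_assoc, one_div_mul_cancel h5.ne', one_mul]
    linarith
end

end Vale.Agent.P362
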