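import Vale.Agent.P362.Rules
import Vale.Agent.P362.Defs

namespace Vale.Agent.P362

open Matrix Finset
open scoped Kronecker

variable {n m : ℕ}

/-- real state families produced by the standard model -/
def QS (s0 : Fin n × Bool × Fin m) (T : ℕ)
    (ψ : (Fin n → Bool) → (Fin n × Bool × Fin m) → ℝ) : Prop :=
  ∃ U : ℕ → Matrix.unitaryGroup (Fin n × Bool × Fin m) ℂ,
    ∀ x, qstate U s0 x T = fun r => (ψ x r : ℂ)

/-- complexification of an orthogonal matrix -/
noncomputable def toU {B : Type} [Fintype B] [DecidableEq B] (W : Matrix B B ℝ) (hW : Orth W) :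
    Matrix.unitaryGroup B ℂ :=
  ⟨W.map (fun r => (r : ℂ)), by
    rw [mem_unitaryGroup_iff']
    ext a b
    have := congrFun (congrFun hW a) b
    simp only [Matrix.mul_apply, transpose_apply, one_apply] at this
    simp only [Matrix.mul_apply, star_apply, map_apply, one_apply, Complex.star_def,
      Complex.conj_ofReal]
    have h2 : ((∑ j, W j a * W j b : ℝ) : ℂ) = ((if a = b then 1 else 0 : ℝ) : ℂ) := by rw [this]
    push_cast at h2
    rw [h2]; split_ifs <;> simp⟩

lemma toU_mulVec {B : Type} [Fintype B] [DecidableEq B] (W : Matrix B B ℝ) (hW : Orth W)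
    (v : B → ℝ) : (toU W hW).1 *ᵥ (fun r => (v r : ℂ)) = fun r => ((W *ᵥ v) r : ℂ) := by
  funext r
  simp [toU, mulVec, dotProduct]

lemma qstate_congr {U U' : ℕ → Matrix.unitaryGroup (Fin n × Bool × Fin m) ℂ}
    (s : Fin n × Bool × Fin m) (x : Fin n → Bool) :
    ∀ T, (∀ t ≤ T, U t = U' t) → qstate U s x T = qstate U' s x T
  | 0, h => by simp only [qstate, h 0 le_rfl]
  | T + 1, h => by
    simp only [qstate, h (T + 1) le_rfl]
    rw [qstate_congr s x T (fun t ht => h t (by omega))]

lemma QS.zero (s0 : Fin n × Bool × Fin m) {W : Matrix _ _ ℝ} (hW : Orth W) :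
    QS s0 0 (fun _ r => W r s0) := by
  refine ⟨fun _ => toU W hW, fun x => ?_⟩
  funext r
  simp [qstate, toU]

lemma QS.mulVec {s0 : Fin n × Bool × Fin m} {T : ℕ} {ψ} (h : QS s0 T ψ) {W : Matrix _ _ ℝ}
    (hW : Orth W) : QS s0 T (fun x => W *ᵥ ψ x) := by
  obtain ⟨U, hU⟩ := h
  refine ⟨Function.update U T (toU W hW * U T), fun x => ?_⟩
  rw [← toU_mulVec W hW, ← hU x]
  cases T with
  | zero => simp only [qstate, Function.update_self, Submonoid.coe_mul, mulVec_mulVec]
  | succ T =>
    simp only [qstate, Function.update_self]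
    rw [qstate_congr (U' := U) s0 x T (fun t ht => Function.update_of_ne (by omega) _ _)]
    simp [Matrix.mul_assoc]

lemma QS.oracle {s0 : Fin n × Bool × Fin m} {T : ℕ} {ψ} (h : QS s0 T ψ) :
    QS s0 (T + 1) (fun x r => ψ x (r.1, xor r.2.1 (x r.1), r.2.2)) := by
  obtain ⟨U, hU⟩ := h
  refine ⟨Function.update U (T + 1) 1, fun x => ?_⟩
  simp only [qstate, Function.update_self]
  rw [qstate_congr (U' := U) s0 x T (fun t ht => Function.update_of_ne (by omega) _ _), hU]
  funext r
  simp only [OneMemClass.coe_one, one_mulVec]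
  simp only [Matrix.mulVec, dotProduct, P362.oracle, of_apply]
  rw [sum_eq_single (r.1, xor r.2.1 (x r.1), r.2.2)]
  · simp
  · intro s _ hs
    rw [if_neg, zero_mul]
    intro h; apply hs; rw [h]; simp
  · simp

/-- embedding of the work register -/
def emb (i0 : Fin n) (ψ : Fin m → ℝ) (r : Fin n × Bool × Fin m) : ℝ :=
  if r.1 = i0 ∧ r.2.1 = false then ψ r.2.2 else 0

lemma exists_enc (i0 : Fin n) (v : Fin m → Fin n × Bool → ℝ) (hv : ∀ β, ∑ c, v β c ^ 2 = 1) :
    ∃ W : Matrix (Fin n × Bool × Fin m) (Fin n × Bool × Fin m) ℝ, Orth W ∧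
      ∀ ψ, W *ᵥ emb i0 ψ = fun r => v r.2.2 (r.1, r.2.1) * ψ r.2.2 := by
  choose Wb hWb hcol using fun β => exists_orth_col (i0, false) (v β) (hv β)
  have hO : Orth (blockDiagonal Wb) := by
    unfold Orth at *
    rw [blockDiagonal_transpose, ← blockDiagonal_mul]
    simp only [hWb]
    exact blockDiagonal_one
  refine ⟨_, orth_reindex (Equiv.prodAssoc _ _ _).symm hO, fun ψ => ?_⟩
  funext r
  simp only [Matrix.mulVec, dotProduct, submatrix_apply, blockDiagonal_apply, emb]
  rw [sum_eq_single (i0, false, r.2.2)]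
  · simp [hcol]
  · rintro ⟨i, b, z⟩ _ hs
    by_cases h1 : i = i0 ∧ b = false
    · have : r.2.2 ≠ z := by
        rintro rfl; apply hs; rw [h1.1, h1.2]
      simp [this]
    · simp only [h1, if_false, mul_zero]
  · simp

lemma exists_lift (i0 : Fin n) {V : Matrix (Fin m) (Fin m) ℝ} (hV : Orth V) :
    ∃ W : Matrix (Fin n × Bool × Fin m) (Fin n × Bool × Fin m) ℝ, Orth W ∧
      ∀ ψ, W *ᵥ emb i0 ψ = emb i0 (V *ᵥ ψ) := by
  refine ⟨(1 : Matrix (Fin n) (Fin n) ℝ) ⊗ₖ ((1 : Matrix Bool Bool ℝ) ⊗ₖ V), ?_, fun ψ => ?_⟩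
  · unfold Orth at *
    rw [← kroneckerMap_transpose, ← kroneckerMap_transpose, ← mul_kronecker_mul,
      ← mul_kronecker_mul, hV]
    simp
  · funext r
    obtain ⟨i, b, z⟩ := r
    simp only [Matrix.mulVec, dotProduct, kroneckerMap_apply, emb, Fintype.sum_prod_type,
      one_apply]
    rw [sum_eq_single i, sum_eq_single b]
    · by_cases h : i = i0 ∧ b = false
      · simp [h]
      · simp only [h, if_false]; simp
    · intro b' _ hb; simp [Ne.symm hb]
    · simp
    · intro i' _ hi; simp [Ne.symm hi]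
    · simp

lemma QM.sim (i0 : Fin n) (s : Fin m) :
    ∀ {T : ℕ} {M : (Fin n → Bool) → Matrix (Fin m) (Fin m) ℝ}, QM T M →
      QS (i0, false, s) T (fun x => emb i0 (fun b => M x b s))
  | 0, M, ⟨U, hU, h⟩ => by
    obtain ⟨W, hW, hl⟩ := exists_lift i0 hU
    have h0 := (QS.zero (i0, false, s) orth_one).mulVec hW
    have e1 : (fun r => (1 : Matrix (Fin n × Bool × Fin m) _ ℝ) r (i0, false, s))
        = emb i0 (Pi.single s 1) := by
      funext r
      obtain ⟨i, b, z⟩ := r
      simp only [one_apply, emb, Prod.mk.injEq, Pi.single_apply]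
      by_cases h1 : i = i0 <;> by_cases h2 : b = false <;> by_cases h3 : z = s <;> simp [*]
    simp only [e1, hl] at h0
    convert h0 using 3 with x
    funext b; simp [h]
  | T + 1, M, ⟨M', q, U, hM, hU, h⟩ => by
    have ih := QM.sim i0 s hM
    set r2 : ℝ := 1 / Real.sqrt 2 with hr
    have hrr : r2 ^ 2 = 1 / 2 := by
      rw [hr, div_pow, Real.sq_sqrt (by norm_num), one_pow]
    obtain ⟨W, hW, hW'⟩ := exists_enc i0
      (fun β c => if c.1 = (q β).getD i0 then r2 * sg ((q β).isSome && c.2) else 0) (fun β => by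
        rw [Fintype.sum_prod_type, sum_eq_single ((q β).getD i0)]
        · simp only [if_true, mul_pow, sq (sg _), sg_mul_self, hrr]; simp
        · intro i _ hi; simp [hi]
        · simp)
    obtain ⟨L, hL, hL'⟩ := exists_lift i0 hU
    have h1 := (((ih.mulVec hW).oracle).mulVec hW.transpose).mulVec hL
    convert h1 using 2 with x
    have e1 : (fun r : Fin n × Bool × Fin m => (W *ᵥ emb i0 (fun b => M' x b s))
        (r.1, xor r.2.1 (x r.1), r.2.2)) = W *ᵥ emb i0 (P362.phase q x *ᵥ (fun b => M' x b s)) := by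
      rw [hW', hW']
      funext r
      obtain ⟨i, b, z⟩ := r
      simp only [P362.phase, mulVec_diagonal]
      rcases hq : q z with _ | j
      · simp [psg]
      · by_cases hij : i = j
        · subst hij
          simp only [Option.getD_some, if_true, Option.isSome_some, Bool.true_and, psg]
          cases b <;> cases x i <;> simp
        · simp [hij]
    rw [e1, mulVec_mulVec (M := Wᵀ), hW, one_mulVec, hL', mulVec_mulVec]
    congr 1
    funext b
    rw [h]
    simp only [Matrix.mul_apply (M := U * P362.phase q x), Matrix.mulVec, dotProduct]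

theorem QD.quantComputes (hn : 1 ≤ n) {T : ℕ} {E : (Fin n → Bool) → (Bool → ℝ) → ℝ}
    (h : QD T E) {f : (Fin n → Bool) → Bool} (hf : ∀ x, 2 / 3 ≤ E x (fun b => ind (b = f x))) :
    QuantComputes f T := by
  obtain ⟨B, _, _, M, s, lab, hM, hE⟩ := h
  let e := (Fintype.equivFin B).symm
  let i0 : Fin n := ⟨0, hn⟩
  have h1 := QM.sim i0 (e.symm s) (hM.reindex e)
  obtain ⟨W, hW, hW'⟩ := exists_enc i0
    (fun β c => if c = (i0, lab (e β)) then (1 : ℝ) else 0) (fun β => by simp)
  obtain ⟨U, hU⟩ := h1.mulVec hW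
  refine ⟨_, U, (i0, false, e.symm s), fun x => (hf x).trans (le_of_eq ?_)⟩
  rw [hU]
  beta_reduce
  rw [hW', hE, ← e.sum_comp, sum_eq_single i0]
  · refine sum_congr rfl (fun z _ => ?_)
    by_cases hz : lab (e z) = f x
    · simp [ind, hz]
    · simp [ind, hz, Ne.symm hz]
  · intro i _ hi; simp [hi]
  · simp

end Vale.Agent.P362
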