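import Vale.Agent.P362.Upper
import Vale.Agent.P362.Lower
import Vale.Agent.P362.Forr
import Vale.Agent.P362.Sim

namespace Vale.Agent.P362

open Finset Filter

/-- polynomially bounded sequences -/
def Pb (f : ℕ → ℕ) : Prop := ∃ A D : ℕ, ∀ e, f e ≤ A * (e + 1) ^ D

lemma Pb.const (c : ℕ) : Pb (fun _ => c) := ⟨c, 0, fun _ => by simp⟩
lemma Pb.id : Pb (fun e => e) := ⟨1, 1, fun _ => by simp⟩
lemma Pb.add {f g : ℕ → ℕ} (hf : Pb f) (hg : Pb g) : Pb (fun e => f e + g e) := by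
  obtain ⟨A, D, h⟩ := hf
  obtain ⟨A', D', h'⟩ := hg
  refine ⟨A + A', D + D', fun e => ?_⟩
  have h1 : (e + 1) ^ D ≤ (e + 1) ^ (D + D') := Nat.pow_le_pow_right (by omega) (by omega)
  have h2 : (e + 1) ^ D' ≤ (e + 1) ^ (D + D') := Nat.pow_le_pow_right (by omega) (by omega)
  rw [add_mul]
  exact add_le_add ((h e).trans (Nat.mul_le_mul_left _ h1)) ((h' e).trans (Nat.mul_le_mul_left _ h2))
lemma Pb.mul {f g : ℕ → ℕ} (hf : Pb f) (hg : Pb g) : Pb (fun e => f e * g e) := by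
  obtain ⟨A, D, h⟩ := hf
  obtain ⟨A', D', h'⟩ := hg
  refine ⟨A * A', D + D', fun e => (Nat.mul_le_mul (h e) (h' e)).trans (le_of_eq (by ring))⟩
lemma Pb.pow {f : ℕ → ℕ} (hf : Pb f) (k : ℕ) : Pb (fun e => f e ^ k) := by
  obtain ⟨A, D, h⟩ := hf
  refine ⟨A ^ k, D * k, fun e => (Nat.pow_le_pow_left (h e) k).trans (le_of_eq ?_)⟩
  rw [mul_pow, pow_mul]

lemma Pb.ev {f : ℕ → ℕ} (hf : Pb f) : ∀ᶠ e in atTop, f e ≤ 2 ^ e := by
  obtain ⟨A, D, h⟩ := hf
  have h1 := (tendsto_pow_const_div_const_pow_of_one_lt D (r := 2) one_lt_two).comp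
    (tendsto_add_atTop_nat 1)
  have h2 := h1.eventually (gt_mem_nhds (show (0 : ℝ) < 1 / (2 * (A + 1)) by positivity))
  filter_upwards [h2] with e he
  refine (h e).trans ?_
  simp only [Function.comp] at he
  rw [div_lt_div_iff₀ (by positivity) (by positivity), pow_succ] at he
  have h3 : (A : ℝ) * ((e + 1 : ℕ) : ℝ) ^ D ≤ 2 ^ e := by
    have : (0 : ℝ) ≤ ((e + 1 : ℕ) : ℝ) ^ D := by positivity
    nlinarith
  exact_mod_cast h3

lemma eps_le (k d : ℕ) (h : 4 * (k + 1) ≤ 2 ^ d) : eps k d ≤ 8 * (k + 1) / 2 ^ d := by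
  have h0 : (0 : ℝ) < 2 ^ d := by positivity
  have h1 : Real.exp (-(2 * d)) ≤ 1 / (2 ^ d * 2 ^ d) := by
    rw [Real.exp_neg, one_div]
    refine inv_anti₀ (by positivity) ?_
    have : (2 : ℝ) ^ d ≤ Real.exp d := by
      rw [← Real.exp_one_pow]
      exact pow_le_pow_left₀ (by norm_num) (by linarith [Real.add_one_le_exp 1]) d
    rw [two_mul, Real.exp_add]
    exact mul_le_mul this this h0.le (Real.exp_pos _).le
  have h2 : (1 + 2 * Real.exp (-(2 * d))) ^ (2 * ((k + 1) * 2 ^ d))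
      ≤ Real.exp (4 * (k + 1) / 2 ^ d) := by
    have h3 : 1 + 2 * Real.exp (-(2 * d)) ≤ Real.exp (2 * (1 / (2 ^ d * 2 ^ d))) := by
      linarith [Real.add_one_le_exp (2 * (1 / (2 ^ d * 2 ^ d)))]
    refine (pow_le_pow_left₀ (by positivity) h3 _).trans (le_of_eq ?_)
    rw [← Real.exp_nat_mul]
    congr 1; push_cast; field_simp; ring
  have h4 : (4 * (k + 1) : ℝ) ≤ 2 ^ d := by exact_mod_cast h
  have h5 := Real.abs_exp_sub_one_le (x := 4 * (k + 1) / 2 ^ d) (by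
    rw [abs_of_nonneg (by positivity), div_le_one h0]; exact h4)
  rw [abs_of_nonneg (by positivity : (0 : ℝ) ≤ 4 * (k + 1) / 2 ^ d)] at h5
  have h6 := (abs_le.1 h5).2
  unfold eps
  have : (8 * (k + 1) / 2 ^ d : ℝ) = 2 * (4 * (k + 1) / 2 ^ d) := by ring
  linarith

lemma exists_dec (a : ℕ) : ∃ dec : (Fin (a + 2) → Bool) → ℤ,
    ∀ z : ℤ, |z| ≤ 2 ^ a → ∃ s, dec s = z := by
  have hc : Fintype.card (Fin (a + 2) → Bool) = 2 ^ (a + 2) := by simp
  let e := Fintype.equivFinOfCardEq hc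
  refine ⟨fun s => (e s : ℕ) - 2 ^ a, fun z hz => ?_⟩
  have h1 := abs_le.1 hz
  have h2 : (z + 2 ^ a).toNat < 2 ^ (a + 2) := by
    have h3 : ((z + 2 ^ a).toNat : ℤ) = z + 2 ^ a := Int.toNat_of_nonneg (by linarith)
    have h4 : (0 : ℤ) < 2 ^ a := by positivity
    have : ((z + 2 ^ a).toNat : ℤ) < 2 ^ (a + 2) := by rw [h3, pow_add]; linarith
    exact_mod_cast this
  refine ⟨e.symm ⟨_, h2⟩, ?_⟩
  simp only [Equiv.apply_symm_apply]
  rw [Int.toNat_of_nonneg (by linarith)]; ring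

lemma rho_two_mul (h : ℕ) : rho (2 * h) = 1 / 2 ^ h := by
  unfold rho
  rw [pow_mul', Real.sqrt_sq (by positivity)]

set_option maxHeartbeats 2000000 in
theorem separation (κ : ℕ) : ∀ᶠ e in atTop, ∃ n, 1 ≤ n ∧ ∃ f : (Fin n → Bool) → Bool,
    QuantComputes f (3 * 2 ^ ((κ + 5) * e)) ∧
      ∀ T, RandComputes f T → 2 ^ ((4 * κ + 6) * e) ≤ 8 * T := by
  let d : ℕ → ℕ := fun e => 2 * ((κ + 3) * e)
  let b : ℕ → ℕ := fun e => (16 * d e) ^ (κ + 2)
  let R : ℕ → ℕ := fun e => 25600 * d e * b e ^ 2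
  let mm : ℕ → ℕ := fun e => 128 * d e * b e ^ 2
  let w : ℕ → ℕ := fun e => d e * (κ + 2 + 1) + 2
  let S : ℕ → ℕ := fun e => (κ + 4) * e
  have hd : Pb d := (Pb.const _).mul ((Pb.const _).mul Pb.id)
  have hb : Pb b := ((Pb.const _).mul hd).pow _
  have hR : Pb R := ((Pb.const _).mul hd).mul (hb.pow _)
  have hmm : Pb mm := ((Pb.const _).mul hd).mul (hb.pow _)
  have hw : Pb w := (hd.mul (Pb.const _)).add (Pb.const _)
  have hS1 : Pb (fun e => S e + 1) := ((Pb.const _).mul Pb.id).add (Pb.const _)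
  have hS7 : Pb (fun e => S e + 7) := ((Pb.const _).mul Pb.id).add (Pb.const _)
  have hd1 : Pb (fun e => d e + 1) := hd.add (Pb.const _)
  have h32 : Pb (fun e => 32 * (S e + 1) * d e) := ((Pb.const _).mul hS1).mul hd
  have c1 := ((((Pb.const 10).mul hd).mul hR).mul
    (Pb.const (8 * 2 ^ ((κ + 3) * (κ + 4)) + 48 * (κ + 3)))).ev
  have c2 := ((Pb.const (96 * (κ + 3))).mul hb).ev
  have c3 := (Pb.const (8 * (κ + 3))).ev
  have c4 := (((Pb.const 2).add (((hd.mul hR).mul (Pb.const (κ + 3))).mul hd1)).add hd).ev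
  have c5 := (((Pb.const 128).mul hS1).mul (((h32.add (Pb.const 1)).mul
    ((hd.mul (hmm.mul (Pb.const (κ + 2 + 1)))).add (h32.mul (hd1.add hd1)))).add
    ((((Pb.const 16).mul hS1).mul hS7).mul ((hd1.add ((Pb.const 3).mul hw)).add (hR.mul hw))))).ev
  filter_upwards [c1, c2, c3, c4, c5, eventually_ge_atTop 1] with e c1 c2 c3 c4 c5 he
  have hde : e ≤ d e := by simp only [d]; nlinarith
  have hd0 : 1 ≤ d e := he.trans hde
  have hb0 : 0 < b e := by simp only [b]; positivity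
  have hR0 : 0 < R e := by simp only [R]; positivity
  have hm0 : 0 < mm e := by simp only [mm]; positivity
  have h2d : 2 ^ e ≤ 2 ^ d e := Nat.pow_le_pow_right (by norm_num) hde
  obtain ⟨D, hD0, hD1, hadv, hgap⟩ := forr_hard (d e) (κ + 2) hd0
  obtain ⟨dec, hdec⟩ := exists_dec (d e * (κ + 2 + 1))
  set δ : ℝ := 1 / (8 * b e) with hδ
  have hbR : (0 : ℝ) < b e := by exact_mod_cast hb0
  have hdR : (0 : ℝ) < d e := by exact_mod_cast hd0
  have hδ0 : 0 < δ := by positivity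
  set θ := (∑ x, D true x * forr x + ∑ x, D false x * forr x) / 2 with hθ
  let eq := Fintype.equivFin (II (d e) (κ + 2) (R e) (w e))
  have hn : 1 ≤ Fintype.card (II (d e) (κ + 2) (R e) (w e)) :=
    Fintype.card_pos_iff.2 ⟨(o0 _, .inl (o0 _))⟩
  have heps : eps (κ + 2) (d e) ≤ 8 * (κ + 3) / 2 ^ e := by
    refine (eps_le _ _ (by omega)).trans ?_
    have : (2 : ℝ) ^ e ≤ 2 ^ d e := by exact_mod_cast h2d
    push_cast
    rw [show (κ : ℝ) + 2 + 1 = κ + 3 by ring]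
    gcongr
  have h2e : (0 : ℝ) < 2 ^ e := by positivity
  refine ⟨_, hn, fun x => FF θ δ dec (x ∘ eq), ?_, fun T hT => ?_⟩
  · set S0 := Nat.clog 3 (2 ^ S e) with hS0
    have s1 : 2 ^ S e ≤ 3 ^ S0 := Nat.le_pow_clog (by norm_num) _
    have s2 : S0 ≤ S e := Nat.clog_le_of_le_pow (Nat.pow_le_pow_left (by norm_num) _)
    have s3 : 3 ^ S0 ≤ 3 * 2 ^ S e := by
      rcases Nat.eq_zero_or_pos S0 with h | h
      · rw [h]; have : 0 < 2 ^ S e := by positivity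
        omega
      · have := Nat.pow_lt_of_lt_clog (b := 3) (x := 2 ^ S e) (y := S0 - 1) (by omega)
        rw [show S0 = S0 - 1 + 1 by omega, pow_succ]; omega
    have s4 : 2 ^ d e * 2 ^ e ≤ 9 ^ S0 := by
      calc 2 ^ d e * 2 ^ e ≤ 2 ^ S e * 2 ^ S e := by
            rw [← pow_add, ← pow_add]
            exact Nat.pow_le_pow_right (by norm_num) (by simp only [d, S]; nlinarith)
        _ ≤ 3 ^ S0 * 3 ^ S0 := Nat.mul_le_mul s1 s1
        _ = 9 ^ S0 := by rw [← mul_pow]; norm_num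
    have hpos : 0 < 2 ^ d e := by positivity
    obtain ⟨E, hE, hEx⟩ := FF_quantum (k := κ + 2) (R := R e) θ δ hδ0 dec hR0 (mm e) hm0
      (le_of_eq (by simp only [mm, hδ]; push_cast; field_simp; ring)) S0
      (le_trans (Nat.le_mul_of_pos_right _ (by positivity)) s4) (by
        refine le_trans ?_ (le_trans (Nat.mul_le_mul_left _ c4) s4)
        simp only [Fintype.card_sum, Fintype.card_prod, Fintype.card_pi, Fintype.card_bool,
          prod_const, card_univ, Fintype.card_fin]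
        nlinarith [Nat.le_mul_of_pos_left (d e) hpos])
    refine QD.quantComputes hn ((hE.comap eq).mono ?_) (fun x => hEx _)
    calc _ = 3 ^ S0 * (128 * (S0 + 1) * ((32 * (S0 + 1) * d e + 1) *
          (d e * (mm e * (κ + 2 + 1)) + 32 * (S0 + 1) * d e * (d e + 1 + (d e + 1)))
          + 16 * (S0 + 1) * (S0 + 7) * (d e + 1 + 3 * w e + R e * w e))) := by
          simp only [findCost, w]; ring
      _ ≤ (3 * 2 ^ S e) * 2 ^ e := Nat.mul_le_mul s3 (le_trans (by gcongr) c5)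
      _ = _ := by rw [mul_assoc, ← pow_add]; congr 2; simp only [S]; ring
  · have hgap' : 4 * δ ≤ ∑ x, D true x * forr x - ∑ x, D false x * forr x := by
      refine le_trans ?_ hgap
      have e1 : (1 / (16 * (d e : ℝ))) ^ (κ + 2) = 1 / b e := by
        simp only [b]; push_cast; rw [one_div_pow]
      have h3 : (96 * (κ + 3) * b e : ℝ) ≤ 2 ^ e := by exact_mod_cast c2
      have h4 : 8 * (κ + 3) / 2 ^ e ≤ 1 / (12 * (b e : ℝ)) := by
        rw [div_le_div_iff₀ h2e (by positivity)]; linarith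
      have e2 : 4 * δ = 1 / b e - 6 * (1 / (12 * (b e : ℝ))) := by rw [hδ]; field_simp; ring
      rw [e1, e2]; linarith
    have h1 := FF_lower hD0 hD1 δ hδ0 hR0 hgap' dec hdec eq (2 ^ (2 * κ * e)) (by positivity) _
      (hadv (κ + 2) (2 ^ (2 * κ * e)) (2 ^ (κ + 4 + κ * e)) (2 ^ ((κ + 3) * e))
        (by
          calc (2 : ℝ) = 2 ^ 1 := by norm_num
            _ ≤ _ := pow_le_pow_right₀ (by norm_num) (by omega))
        (le_of_eq (by push_cast; ring)) (by positivity)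
        (le_of_eq (by simp only [d]; ring))) T hT
    have e3 : rho (d e) ^ (κ + 2) * (4 * (2 ^ (κ + 4 + κ * e)) ^ (κ + 2 + 1) * 2 ^ ((κ + 3) * e))
        = 4 * 2 ^ ((κ + 3) * (κ + 4)) / 2 ^ ((κ + 3) * e) := by
      have e0 : rho (d e) = 1 / 2 ^ ((κ + 3) * e) := rho_two_mul _
      rw [e0, one_div_pow, one_div_mul_eq_div, div_eq_div_iff (by positivity) (by positivity)]
      simp only [← pow_mul, mul_assoc, ← pow_add]
      congr 2
      ring
    have h3 : eps (κ + 2) (d e) ≤ 1 := by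
      refine heps.trans ?_
      rw [div_le_one h2e]; exact_mod_cast c3
    have h4 : (4 * 2 ^ ((κ + 3) * (κ + 4)) / 2 ^ ((κ + 3) * e) : ℝ)
        ≤ 4 * 2 ^ ((κ + 3) * (κ + 4)) / 2 ^ e := by
      have : (2 : ℝ) ^ e ≤ 2 ^ ((κ + 3) * e) := pow_le_pow_right₀ (by norm_num) (by nlinarith)
      gcongr
    have h5 : (d e : ℝ) * R e * (4 * 2 ^ ((κ + 3) * (κ + 4)) / 2 ^ ((κ + 3) * e)
        * (1 + eps (κ + 2) (d e)) + 6 * eps (κ + 2) (d e)) ≤ 1 / 10 := by
      have h6 : (4 * 2 ^ ((κ + 3) * (κ + 4)) / 2 ^ ((κ + 3) * e)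
          * (1 + eps (κ + 2) (d e)) + 6 * eps (κ + 2) (d e) : ℝ)
          ≤ (8 * 2 ^ ((κ + 3) * (κ + 4)) + 48 * (κ + 3)) / 2 ^ e := by
        have h7 := mul_le_mul h4 (show 1 + eps (κ + 2) (d e) ≤ 2 by linarith)
          (by linarith [eps_nonneg (k := κ + 2) (d := d e)]) (by positivity)
        have e4 : ((8 * 2 ^ ((κ + 3) * (κ + 4)) + 48 * (κ + 3)) / 2 ^ e : ℝ)
            = 4 * 2 ^ ((κ + 3) * (κ + 4)) / 2 ^ e * 2 + 6 * (8 * (κ + 3) / 2 ^ e) := by ring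
        linarith
      refine (mul_le_mul_of_nonneg_left h6 (by positivity)).trans ?_
      have h8 : (10 * d e * R e * (8 * 2 ^ ((κ + 3) * (κ + 4)) + 48 * (κ + 3)) : ℝ) ≤ 2 ^ e := by
        exact_mod_cast c1
      rw [← mul_div_assoc, div_le_iff₀ h2e]; linarith
    have e5 : 4 * (d e : ℝ) / (R e * δ ^ 2) = 1 / 100 := by
      simp only [R, hδ]; push_cast; field_simp; ring
    have e6 : (((2 ^ (2 * κ * e) : ℕ) : ℝ) / 2 ^ d e) ≤ 1 / 64 := by
      have : (2 : ℝ) ^ (2 * κ * e + 6) ≤ 2 ^ d e :=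
        pow_le_pow_right₀ (by norm_num) (by simp only [d]; nlinarith)
      rw [div_le_iff₀ (by positivity)]
      push_cast
      rw [pow_add] at this; linarith
    rw [e3, e5] at h1
    have h9 : 1 / 8 ≤ (T : ℝ) / (((2 ^ (2 * κ * e) : ℕ) : ℝ) * 2 ^ d e) := by linarith
    rw [le_div_iff₀ (by positivity)] at h9
    have h10 : (2 : ℝ) ^ ((4 * κ + 6) * e) ≤ 8 * T := by
      have : (2 : ℝ) ^ ((4 * κ + 6) * e) = ((2 ^ (2 * κ * e) : ℕ) : ℝ) * 2 ^ d e := by
        simp only [d]; push_cast; ring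
      linarith
    exact_mod_cast h10

lemma rand_spec {n : ℕ} (f : (Fin n → Bool) → Bool) : RandComputes f (randQuery f) :=
  Nat.sInf_mem (s := {T | RandComputes f T}) ⟨_, (DT.all f).randComputes⟩

lemma quant_spec {n : ℕ} (hn : 1 ≤ n) (f : (Fin n → Bool) → Bool) :
    QuantComputes f (quantQuery f) :=
  Nat.sInf_mem (s := {T | QuantComputes f T})
    ⟨_, (DT.all f).qd.quantComputes hn (fun x => by beta_reduce; rw [ind_of rfl]; norm_num)⟩

theorem four_mem : (4 : ℝ) ∈ exponents := by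
  refine ⟨by norm_num, 1225 ^ 2, fun n hn f => ?_⟩
  have h1 : randQuery f ≤ _ := Nat.sInf_le (rand_of_quant (quant_spec hn f))
  have h2 : (randQuery f : ℝ) ≤ 1225 * (quantQuery f) ^ 2 * (1225 * (quantQuery f) ^ 2) := by
    exact_mod_cast h1
  have h3 : (quantQuery f : ℝ) ^ 4 ≤ (1 + quantQuery f) ^ 4 :=
    pow_le_pow_left₀ (by positivity) (by linarith) 4
  rw [show (4 : ℝ) = ((4 : ℕ) : ℝ) by norm_num, Real.rpow_natCast]
  nlinarith

theorem four_le {α : ℝ} (h : α ∈ exponents) : 4 ≤ α := by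
  obtain ⟨h0, C, hC⟩ := h
  by_contra hlt
  push Not at hlt
  obtain ⟨κ, hκ⟩ := exists_nat_ge (15 / (4 - α))
  rw [div_le_iff₀ (by linarith)] at hκ
  obtain ⟨c, hc⟩ := exists_nat_gt (2048 * |C|)
  obtain ⟨e, ⟨n, hn, f, hq, hr⟩, he⟩ := ((separation κ).and (Pb.const c).ev).exists
  have h1 : (2 : ℝ) ^ ((4 * κ + 6) * e) ≤ 8 * randQuery f := by
    exact_mod_cast hr _ (rand_spec f)
  have h2 : quantQuery f ≤ 3 * 2 ^ ((κ + 5) * e) := Nat.sInf_le hq
  have h3 : (1 + quantQuery f : ℝ) ≤ 2 ^ ((κ + 5) * e + 2) := by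
    have h4 : (quantQuery f : ℝ) ≤ 3 * 2 ^ ((κ + 5) * e) := by exact_mod_cast h2
    have h5 : (1 : ℝ) ≤ 2 ^ ((κ + 5) * e) := one_le_pow₀ (by norm_num)
    rw [pow_add]; linarith
  have h6 : (1 + quantQuery f : ℝ) ^ α ≤ 2 ^ ((4 * κ + 5) * e + 8) := by
    refine (Real.rpow_le_rpow (by positivity) h3 h0).trans ?_
    rw [← Real.rpow_natCast, ← Real.rpow_mul (by norm_num), ← Real.rpow_natCast]
    refine Real.rpow_le_rpow_of_exponent_le (by norm_num) ?_
    push_cast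
    have : (0 : ℝ) ≤ e := by positivity
    have h7 : (κ + 5) * α ≤ 4 * κ + 5 := by nlinarith
    nlinarith
  have h7 := hC n hn f
  have h8 : C * (1 + quantQuery f : ℝ) ^ α ≤ |C| * 2 ^ ((4 * κ + 5) * e + 8) :=
    mul_le_mul (le_abs_self C) h6 (by positivity) (abs_nonneg C)
  have h9 : (c : ℝ) ≤ 2 ^ e := by exact_mod_cast he
  have e1 : (2 : ℝ) ^ ((4 * κ + 6) * e) = 2 ^ ((4 * κ + 5) * e) * 2 ^ e := by ring
  have h10 : (0 : ℝ) < 2 ^ ((4 * κ + 5) * e) := by positivity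
  rw [pow_add] at h8
  nlinarith

end Vale.Agent.P362
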