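import Mathlib

namespace Vale.Agent.P362

open Finset

variable {K Y : Type} [Fintype K] [DecidableEq K] [Fintype Y]

/-- expectation under a product weight -/
def PE (w : K → Y → ℝ) (g : (K → Y) → ℝ) : ℝ := ∑ x : K → Y, (∏ k, w k (x k)) * g x

lemma PE_prod (w : K → Y → ℝ) (g : K → Y → ℝ) :
    PE w (fun x => ∏ k, g k (x k)) = ∏ k, ∑ y, w k y * g k y := by
  unfold PE
  rw [Finset.prod_univ_sum, Fintype.piFinset_univ]
  exact sum_congr rfl (fun x _ => by rw [prod_mul_distrib])

lemma sum_prod_weight (w : K → Y → ℝ) : ∑ x : K → Y, ∏ k, w k (x k) = ∏ k, ∑ y, w k y := by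
  rw [Finset.prod_univ_sum, Fintype.piFinset_univ]

lemma PE_const {w : K → Y → ℝ} (hw : ∀ k, ∑ y, w k y = 1) (c : ℝ) : PE w (fun _ => c) = c := by
  unfold PE
  rw [← sum_mul, sum_prod_weight]; simp [hw]

lemma PE_add (w : K → Y → ℝ) (f g : (K → Y) → ℝ) :
    PE w (fun x => f x + g x) = PE w f + PE w g := by
  simp only [PE, mul_add, sum_add_distrib]

lemma PE_sub (w : K → Y → ℝ) (f g : (K → Y) → ℝ) :
    PE w (fun x => f x - g x) = PE w f - PE w g := by
  simp only [PE, mul_sub, sum_sub_distrib]

lemma PE_const_mul (w : K → Y → ℝ) (c : ℝ) (f : (K → Y) → ℝ) :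
    PE w (fun x => c * f x) = c * PE w f := by
  simp only [PE, mul_sum]
  exact sum_congr rfl (fun x _ => by ring)

lemma PE_sum {J : Type} (s : Finset J) (w : K → Y → ℝ) (f : J → (K → Y) → ℝ) :
    PE w (fun x => ∑ j ∈ s, f j x) = ∑ j ∈ s, PE w (f j) := by
  simp only [PE, mul_sum]
  rw [sum_comm]

lemma PE_mono {w : K → Y → ℝ} (hw : ∀ k y, 0 ≤ w k y) {f g : (K → Y) → ℝ}
    (h : ∀ x, f x ≤ g x) : PE w f ≤ PE w g :=
  sum_le_sum (fun x _ => mul_le_mul_of_nonneg_left (h x) (prod_nonneg fun k _ => hw k _))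

lemma PE_update {w : K → Y → ℝ} (k : K) (hk : ∑ y, w k y = 1) (w' : Y → ℝ) (g : (K → Y) → ℝ) :
    PE (Function.update w k w') g = PE w (fun x => ∑ y, w' y * g (Function.update x k y)) := by
  let e : (K → Y) × Y ≃ (K → Y) × Y :=
    { toFun := fun p => (Function.update p.1 k p.2, p.1 k)
      invFun := fun p => (Function.update p.1 k p.2, p.1 k)
      left_inv := fun p => by simp
      right_inv := fun p => by simp }
  have h1 : ∀ x : K → Y, ∏ j, Function.update w k w' j (x j)
      = w' (x k) * ∏ j ∈ univ.erase k, w j (x j) := by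
    intro x
    rw [← mul_prod_erase univ _ (mem_univ k), Function.update_self]
    congr 1
    exact prod_congr rfl (fun j hj => by rw [Function.update_of_ne (ne_of_mem_erase hj)])
  have h2 : ∀ x : K → Y, ∏ j, w j (x j) = w k (x k) * ∏ j ∈ univ.erase k, w j (x j) :=
    fun x => (mul_prod_erase univ (fun j => w j (x j)) (mem_univ k)).symm
  unfold PE
  simp only [h1, h2, mul_sum]
  rw [← Fintype.sum_prod_type', ← e.sum_comp, Fintype.sum_prod_type]
  refine sum_congr rfl (fun x _ => ?_)
  have h3 : ∀ y, ∏ j ∈ univ.erase k, w j (Function.update x k y j)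
      = ∏ j ∈ univ.erase k, w j (x j) := fun y =>
    prod_congr rfl (fun j hj => by rw [Function.update_of_ne (ne_of_mem_erase hj)])
  simp only [e, Equiv.coe_fn_mk, Function.update_self, Function.update_idem,
    Function.update_eq_self, h3]
  conv_lhs => rw [← one_mul (w' (x k) * (∏ j ∈ univ.erase k, w j (x j)) * g x), ← hk, sum_mul]
  exact sum_congr rfl (fun y _ => by ring)

lemma PE_split {w : K → Y → ℝ} (k : K) (hk : ∑ y, w k y = 1) (g : (K → Y) → ℝ) :
    PE w g = PE w (fun x => ∑ y, w k y * g (Function.update x k y)) := by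
  rw [← PE_update k hk, Function.update_eq_self]

lemma PE_single {w : K → Y → ℝ} (hw : ∀ k, ∑ y, w k y = 1) (k : K) (g : Y → ℝ) :
    PE w (fun x => g (x k)) = ∑ y, w k y * g y := by
  rw [PE_split k (hw k)]
  simp only [Function.update_self]
  exact PE_const hw _

/-- hybrid argument -/
lemma PE_hybrid {w w' : K → Y → ℝ} (hw0 : ∀ k y, 0 ≤ w k y) (hw : ∀ k, ∑ y, w k y = 1)
    (hw0' : ∀ k y, 0 ≤ w' k y) (hw' : ∀ k, ∑ y, w' k y = 1) (g : (K → Y) → ℝ) (δ : ℝ)
    (h : ∀ k x, ∑ y, w' k y * g (Function.update x k y)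
      ≤ ∑ y, w k y * g (Function.update x k y) + δ) :
    PE w' g ≤ PE w g + Fintype.card K * δ := by
  have key : ∀ s : Finset K, PE (fun k => if k ∈ s then w' k else w k) g ≤ PE w g + s.card * δ := by
    intro s
    induction s using Finset.induction_on with
    | empty => simp
    | @insert k s hk ih =>
      set u : K → Y → ℝ := fun j => if j ∈ s then w' j else w j with hu
      have hu0 : ∀ j y, 0 ≤ u j y := fun j y => by
        simp only [hu]; split_ifs; exacts [hw0' j y, hw0 j y]
      have hu1 : ∀ j, ∑ y, u j y = 1 := fun j => by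
        simp only [hu]; split_ifs; exacts [hw' j, hw j]
      have huk : u k = w k := by simp [hu, hk]
      have e : (fun j => if j ∈ insert k s then w' j else w j) = Function.update u k (w' k) := by
        funext j
        by_cases hj : j = k
        · subst hj; simp
        · rw [Function.update_of_ne hj]; simp [hu, hj]
      rw [e, PE_update k (hu1 k), card_insert_of_notMem hk]
      have h1 := PE_mono hu0 (h k)
      rw [PE_add, PE_const hu1, ← huk, ← PE_split k (hu1 k)] at h1
      push_cast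
      linarith
  simpa using key univ

/-- second moment of a sum of independent centred variables -/
lemma PE_var {J : Type} [Fintype J] [DecidableEq J] {w : K → Y → ℝ} (hw0 : ∀ k y, 0 ≤ w k y)
    (hw : ∀ k, ∑ y, w k y = 1) (e : J → K) (he : Function.Injective e) (F : Y → ℝ) (c : ℝ)
    (hF : ∀ j, ∑ y, w (e j) y * F y = 0) (hb : ∀ y, F y ^ 2 ≤ c) :
    PE w (fun x => (∑ j, F (x (e j))) ^ 2) ≤ Fintype.card J * c := by
  simp only [sq, sum_mul_sum]
  rw [PE_sum, ← card_univ, ← nsmul_eq_mul]
  refine sum_le_card_nsmul _ _ _ (fun j _ => ?_)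
  rw [PE_sum, sum_eq_single j]
  · refine (PE_mono hw0 (g := fun _ => c) (fun x => ?_)).trans (le_of_eq (PE_const hw c))
    rw [← sq]; exact hb _
  · intro j' _ hj
    rw [PE_split (e j) (hw _)]
    have hne : e j' ≠ e j := fun h => hj (he h)
    simp only [Function.update_self, Function.update_of_ne hne, ← mul_assoc, ← sum_mul, hF,
      zero_mul]
    exact PE_const hw 0
  · simp

end Vale.Agent.P362
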