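import Vale.Agent.P362.QM

namespace Vale.Agent.P362

open Matrix Finset

/-- finite probability functionals -/
def IsEx {Ω : Type} (E : (Ω → ℝ) → ℝ) : Prop :=
  ∃ (B : Type) (_ : Fintype B) (w : B → ℝ) (lab : B → Ω),
    (∀ b, 0 ≤ w b) ∧ ∑ b, w b = 1 ∧ ∀ φ, E φ = ∑ b, w b * φ (lab b)

section
variable {Ω : Type} {E : (Ω → ℝ) → ℝ}

lemma IsEx.mono (h : IsEx E) {φ ψ : Ω → ℝ} (hle : ∀ ω, φ ω ≤ ψ ω) : E φ ≤ E ψ := by
  obtain ⟨B, _, w, lab, h0, -, hE⟩ := h
  rw [hE, hE]
  exact sum_le_sum (fun b _ => mul_le_mul_of_nonneg_left (hle _) (h0 b))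

lemma IsEx.const (h : IsEx E) (c : ℝ) : E (fun _ => c) = c := by
  obtain ⟨B, _, w, lab, -, h1, hE⟩ := h
  rw [hE, ← sum_mul, h1, one_mul]

lemma IsEx.add (h : IsEx E) (φ ψ : Ω → ℝ) : E (fun ω => φ ω + ψ ω) = E φ + E ψ := by
  obtain ⟨B, _, w, lab, -, -, hE⟩ := h
  simp only [hE, mul_add, sum_add_distrib]

lemma IsEx.sub (h : IsEx E) (φ ψ : Ω → ℝ) : E (fun ω => φ ω - ψ ω) = E φ - E ψ := by
  obtain ⟨B, _, w, lab, -, -, hE⟩ := h
  simp only [hE, mul_sub, sum_sub_distrib]

lemma IsEx.const_mul (h : IsEx E) (c : ℝ) (φ : Ω → ℝ) : E (fun ω => c * φ ω) = c * E φ := by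
  obtain ⟨B, _, w, lab, -, -, hE⟩ := h
  simp only [hE, mul_sum]
  exact sum_congr rfl (fun b _ => by ring)

lemma IsEx.mul_const (h : IsEx E) (c : ℝ) (φ : Ω → ℝ) : E (fun ω => φ ω * c) = E φ * c := by
  rw [mul_comm, ← h.const_mul]; simp only [mul_comm]

lemma IsEx.nonneg (h : IsEx E) {φ : Ω → ℝ} (hφ : ∀ ω, 0 ≤ φ ω) : 0 ≤ E φ := by
  have := h.mono (φ := fun _ => 0) hφ
  rwa [h.const] at this

lemma IsEx.le_const (h : IsEx E) {φ : Ω → ℝ} {c : ℝ} (hφ : ∀ ω, φ ω ≤ c) : E φ ≤ c := by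
  have := h.mono (ψ := fun _ => c) hφ
  rwa [h.const] at this

lemma IsEx.const_le (h : IsEx E) {φ : Ω → ℝ} {c : ℝ} (hφ : ∀ ω, c ≤ φ ω) : c ≤ E φ := by
  have := h.mono (φ := fun _ => c) hφ
  rwa [h.const] at this

lemma IsEx.swap {Ω' : Type} {E' : (Ω' → ℝ) → ℝ} (h : IsEx E) (h' : IsEx E') (φ : Ω → Ω' → ℝ) :
    E (fun ω => E' (fun ω' => φ ω ω')) = E' (fun ω' => E (fun ω => φ ω ω')) := by
  obtain ⟨B, _, w, lab, -, -, hE⟩ := h
  obtain ⟨B', _, w', lab', -, -, hE'⟩ := h'
  simp only [hE, hE', mul_sum]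
  rw [sum_comm]
  exact sum_congr rfl (fun b _ => sum_congr rfl (fun b' _ => by ring))

lemma IsEx.bool {E : (Bool → ℝ) → ℝ} (h : IsEx E) (φ : Bool → ℝ) :
    E φ = φ false + E (fun b => if b = true then 1 else 0) * (φ true - φ false) := by
  have h1 := h.add (fun _ => φ false) (fun b => (if b = true then 1 else 0) * (φ true - φ false))
  rw [h.const, h.mul_const] at h1
  rw [← h1]
  congr 1; funext b; cases b <;> simp
end

/-- output distributions of quantum algorithms with `T` queries -/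
def QD {ι Ω : Type} (T : ℕ) (E : (ι → Bool) → (Ω → ℝ) → ℝ) : Prop :=
  ∃ (B : Type) (_ : Fintype B) (_ : DecidableEq B) (M : (ι → Bool) → Matrix B B ℝ) (s : B)
    (lab : B → Ω), QM T M ∧ ∀ x φ, E x φ = ∑ b, M x b s ^ 2 * φ (lab b)

section
variable {ι Ω : Type} {T : ℕ} {E : (ι → Bool) → (Ω → ℝ) → ℝ}

lemma QD.isEx (h : QD T E) (x : ι → Bool) : IsEx (E x) := by
  obtain ⟨B, _, _, M, s, lab, hM, hE⟩ := h
  exact ⟨B, inferInstance, fun b => M x b s ^ 2, lab, fun b => sq_nonneg _,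
    (hM.orth x).col_sq s, hE x⟩

lemma QD.mono (h : QD T E) {T' : ℕ} (hT : T ≤ T') : QD T' E := by
  obtain ⟨B, _, _, M, s, lab, hM, hE⟩ := h
  exact ⟨B, _, _, M, s, lab, hM.mono hT, hE⟩

lemma QD.pure (a : Ω) : QD (ι := ι) 0 (fun _ φ => φ a) :=
  ⟨Unit, inferInstance, inferInstance, fun _ => 1, (), fun _ => a, QM.const orth_one,
    fun x φ => by simp⟩

lemma QD.map (h : QD T E) {Ω' : Type} (g : Ω → Ω') :
    QD T (fun x (φ : Ω' → ℝ) => E x (fun ω => φ (g ω))) := by
  obtain ⟨B, _, _, M, s, lab, hM, hE⟩ := h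
  exact ⟨B, _, _, M, s, g ∘ lab, hM, fun x φ => hE x _⟩

lemma QD.comap (h : QD T E) {ι' : Type} (g : ι → ι') :
    QD T (fun (x : ι' → Bool) φ => E (x ∘ g) φ) := by
  obtain ⟨B, _, _, M, s, lab, hM, hE⟩ := h
  exact ⟨B, _, _, fun x => M (x ∘ g), s, lab, hM.comap g, fun x φ => hE _ _⟩

lemma QD.unif (K : Type) [Fintype K] [Nonempty K] :
    QD (ι := ι) 0 (fun _ (φ : K → ℝ) => (∑ k, φ k) / Fintype.card K) := by
  classical
  have hc : (0 : ℝ) < Fintype.card K := by exact_mod_cast Fintype.card_pos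
  obtain ⟨s⟩ := ‹Nonempty K›
  have hsq : (1 / Real.sqrt (Fintype.card K)) ^ 2 = 1 / (Fintype.card K : ℝ) := by
    rw [div_pow, Real.sq_sqrt hc.le, one_pow]
  obtain ⟨U, hU, hcol⟩ := exists_orth_col s (fun _ : K => 1 / Real.sqrt (Fintype.card K)) (by
    rw [sum_const, hsq, card_univ, nsmul_eq_mul]; field_simp)
  refine ⟨K, inferInstance, inferInstance, fun _ => U, s, id, QM.const hU, fun x φ => ?_⟩
  simp only [hcol, hsq, id, sum_div]
  exact sum_congr rfl (fun k _ => by ring)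

lemma permM_mul {B : Type} [Fintype B] [DecidableEq B] (σ : B ≃ B) (F : Matrix B B ℝ) (a s : B) :
    (permM σ * F) a s = F (σ.symm a) s := by
  simp only [Matrix.mul_apply, permM, of_apply]
  rw [sum_eq_single (σ.symm a)]
  · simp
  · intro b _ hb
    rw [if_neg, zero_mul]
    intro h; apply hb; rw [h]; simp
  · simp

lemma QD.bind (h : QD T E) {Ω' : Type} {T' : ℕ} {F : Ω → (ι → Bool) → (Ω' → ℝ) → ℝ}
    (hF : ∀ ω, QD T' (F ω)) : QD (T + T') (fun x φ => E x (fun ω => F ω x φ)) := by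
  obtain ⟨B, _, _, M, s, lab, hM, hE⟩ := h
  choose C instF instD N t lab2 hN hF using hF
  let sw : B ⊕ (Σ β : B, C (lab β)) → B ⊕ (Σ β : B, C (lab β)) := fun d =>
    match d with
    | .inl β => .inr ⟨β, t (lab β)⟩
    | .inr ⟨β, c⟩ => if c = t (lab β) then .inl β else .inr ⟨β, c⟩
  have hsw : Function.Involutive sw := by
    rintro (β | ⟨β, c⟩)
    · simp [sw]
    · by_cases hc : c = t (lab β)
      · simp [sw, hc]
      · simp [sw, hc]
  have h1 : QM T (fun x => permM hsw.toPerm *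
      fromBlocks (M x) 0 0 (1 : Matrix (Σ β : B, C (lab β)) (Σ β : B, C (lab β)) ℝ)) :=
    QM.mul_left (orth_permM _) (hM.sum ((QM.const orth_one).mono (Nat.zero_le _)))
  have h2 : QM T' (fun x => fromBlocks (1 : Matrix B B ℝ) 0 0
      (blockDiagonal' (fun β : B => N (lab β) x))) :=
    ((QM.const orth_one).mono (Nat.zero_le _)).sum (QM.block (fun β => hN (lab β)))
  refine ⟨B ⊕ (Σ β : B, C (lab β)), inferInstance, inferInstance, _, .inl s,
    Sum.elim (fun β => lab2 (lab β) (t (lab β))) (fun c => lab2 (lab c.1) c.2), h1.mul h2,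
    fun x φ => ?_⟩
  have hG : ∀ d, (permM hsw.toPerm *
      fromBlocks (M x) 0 0 (1 : Matrix (Σ β : B, C (lab β)) (Σ β : B, C (lab β)) ℝ)) d (.inl s)
      = Sum.elim (fun _ => (0 : ℝ)) (fun c => if c.2 = t (lab c.1) then M x c.1 s else 0) d := by
    intro d
    rw [permM_mul]
    rcases d with β | ⟨β, c⟩
    · simp [sw]
    · by_cases hc : c = t (lab β)
      · simp [sw, hc]
      · simp [sw, hc]
  beta_reduce
  rw [hE, Fintype.sum_sum_type, Fintype.sum_sigma]
  have e1 : ∀ β : B, (fromBlocks (1 : Matrix B B ℝ) 0 0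
      (blockDiagonal' (fun β : B => N (lab β) x)) * (permM hsw.toPerm *
      fromBlocks (M x) 0 0 (1 : Matrix (Σ β : B, C (lab β)) (Σ β : B, C (lab β)) ℝ)))
      (.inl β) (.inl s) = 0 := by
    intro β
    rw [Matrix.mul_apply]
    simp only [hG, Fintype.sum_sum_type]
    simp
  have e2 : ∀ (β : B) (c : C (lab β)), (fromBlocks (1 : Matrix B B ℝ) 0 0
      (blockDiagonal' (fun β : B => N (lab β) x)) * (permM hsw.toPerm *
      fromBlocks (M x) 0 0 (1 : Matrix (Σ β : B, C (lab β)) (Σ β : B, C (lab β)) ℝ)))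
      (.inr ⟨β, c⟩) (.inl s) = N (lab β) x c (t (lab β)) * M x β s := by
    intro β c
    rw [Matrix.mul_apply]
    simp only [hG, Fintype.sum_sum_type, Fintype.sum_sigma]
    simp only [fromBlocks_apply₂₁, fromBlocks_apply₂₂, Sum.elim_inl, Sum.elim_inr, mul_zero,
      sum_const_zero, zero_add, mul_ite, sum_ite_eq', mem_univ, if_true]
    rw [sum_eq_single β]
    · rw [blockDiagonal'_apply_eq]
    · intro β' _ hne
      rw [blockDiagonal'_apply_ne _ _ _ (Ne.symm hne), zero_mul]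
    · simp
  simp only [e1, e2, Sum.elim_inr, hF, mul_sum]
  simp only [ne_eq, OfNat.ofNat_ne_zero, not_false_eq_true, zero_pow, zero_mul, sum_const_zero,
    zero_add]
  exact sum_congr rfl (fun β _ => sum_congr rfl (fun c _ => by ring))

lemma QD.had {B : Type} [Fintype B] [DecidableEq B] {W : (ι → Bool) → Matrix B B ℝ}
    (hW : QM T W) (s : B) :
    QD T (fun x (φ : Bool → ℝ) => (1 + W x s s) / 2 * φ true + (1 - W x s s) / 2 * φ false) := by
  set r : ℝ := 1 / Real.sqrt 2 with hr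
  have hrr : r * r = 1 / 2 := by
    rw [hr, div_mul_div_comm, Real.mul_self_sqrt (by norm_num), one_mul]
  set H : Matrix (B ⊕ B) (B ⊕ B) ℝ := fromBlocks (r • 1) (r • 1) (r • 1) (-r • 1) with hH
  have hO : Orth H := by
    unfold Orth
    rw [hH, fromBlocks_transpose, fromBlocks_multiply, ← fromBlocks_one]
    simp only [transpose_smul, transpose_one, Matrix.smul_mul, Matrix.mul_smul, Matrix.one_mul,
      smul_smul, ← add_smul]
    congr 1
    · rw [hrr]; norm_num
    · rw [show r * r + -r * r = 0 by ring, zero_smul]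
    · rw [show r * r + r * -r = 0 by ring, zero_smul]
    · rw [show r * r + -r * -r = 1 by linarith [hrr, neg_mul_neg r r], one_smul]
  have h1 : QM T (fun x => H * (fromBlocks (1 : Matrix B B ℝ) 0 0 (W x) * H)) :=
    QM.mul_left hO ((((QM.const orth_one).mono (Nat.zero_le _)).sum hW).mul_right hO)
  refine ⟨B ⊕ B, inferInstance, inferInstance, _, .inl s,
    Sum.elim (fun _ => true) (fun _ => false), h1, fun x φ => ?_⟩
  have hm : H * (fromBlocks (1 : Matrix B B ℝ) 0 0 (W x) * H)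
      = fromBlocks ((1 / 2 : ℝ) • (1 + W x)) ((1 / 2 : ℝ) • (1 - W x))
        ((1 / 2 : ℝ) • (1 - W x)) ((1 / 2 : ℝ) • (1 + W x)) := by
    rw [hH, fromBlocks_multiply, fromBlocks_multiply]
    simp only [Matrix.smul_mul, Matrix.mul_smul, Matrix.one_mul, Matrix.mul_one, Matrix.zero_mul,
      smul_zero, add_zero, zero_add, smul_smul, ← hrr]
    congr 1 <;> module
  have hc := (hW.orth x).col_sq s
  have e1 : ∑ b, ((1 / 2 : ℝ) * ((1 : Matrix B B ℝ) b s + W x b s)) ^ 2 = (1 + W x s s) / 2 := by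
    have : ∀ b, ((1 / 2 : ℝ) * ((1 : Matrix B B ℝ) b s + W x b s)) ^ 2
        = (if b = s then (1 + 2 * W x b s) / 4 else 0) + W x b s ^ 2 / 4 := by
      intro b; rw [one_apply]; split_ifs <;> ring
    simp only [this, sum_add_distrib, sum_ite_eq', mem_univ, if_true, ← sum_div, hc]; ring
  have e2 : ∑ b, ((1 / 2 : ℝ) * ((1 : Matrix B B ℝ) b s - W x b s)) ^ 2 = (1 - W x s s) / 2 := by
    have : ∀ b, ((1 / 2 : ℝ) * ((1 : Matrix B B ℝ) b s - W x b s)) ^ 2
        = (if b = s then (1 - 2 * W x b s) / 4 else 0) + W x b s ^ 2 / 4 := by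
      intro b; rw [one_apply]; split_ifs <;> ring
    simp only [this, sum_add_distrib, sum_ite_eq', mem_univ, if_true, ← sum_div, hc]; ring
  rw [hm, Fintype.sum_sum_type]
  simp only [fromBlocks_apply₁₁, fromBlocks_apply₂₁, Matrix.smul_apply, Matrix.add_apply,
    Matrix.sub_apply, smul_eq_mul, Sum.elim_inl, Sum.elim_inr, ← sum_mul, e1, e2]

lemma QD.query (i : ι) : QD 1 (fun (x : ι → Bool) (φ : Bool → ℝ) => φ (x i)) := by
  have h := (QD.had (QM.phase (B := Unit) (fun _ => some i)) ()).map (fun b => !b)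
  convert h using 3 with x φ
  simp only [phase, diagonal_apply_eq, psg]
  cases x i <;> simp

lemma QD.amp (h : QD T E) (G : Ω → Prop) [DecidablePred G] :
    QD (3 * T) (fun x φ => E x (fun ω =>
      (if G ω then (3 - 4 * E x (fun ω => if G ω then 1 else 0)) ^ 2
        else (1 - 4 * E x (fun ω => if G ω then 1 else 0)) ^ 2) * φ ω)) := by
  obtain ⟨B, _, _, M, s, lab, hM, hE⟩ := h
  set S0 : Matrix B B ℝ := diagonal (fun b => if b = s then 1 else -1) with hS0
  set SG : Matrix B B ℝ := diagonal (fun b => if G (lab b) then -1 else 1) with hSG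
  have o0 : Orth S0 := orth_diagonal _ (fun b => by split_ifs <;> norm_num)
  have oG : Orth SG := orth_diagonal _ (fun b => by split_ifs <;> norm_num)
  have h1 : QM (T + (T + T)) (fun x => ((M x * S0) * (M x)ᵀ) * (SG * M x)) :=
    (hM.mul_left oG).mul (hM.transpose.mul (hM.mul_right o0))
  refine ⟨B, inferInstance, inferInstance, _, s, lab, h1.mono (by omega), fun x φ => ?_⟩
  set p := E x (fun ω => if G ω then 1 else 0) with hp
  have hc := (hM.orth x).col_sq s
  have hR : ∀ b b', ((M x * S0) * (M x)ᵀ) b b' = 2 * M x b s * M x b' s - if b = b' then 1 else 0 := by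
    intro b b'
    have h2 := congrFun (congrFun (hM.orth x).mul_transpose b) b'
    rw [Matrix.mul_apply, one_apply] at h2
    rw [Matrix.mul_apply, ← h2]
    simp only [hS0, mul_diagonal, transpose_apply]
    have : ∀ j, M x b j * (if j = s then 1 else -1) * M x b' j
        = (if j = s then 2 * M x b j * M x b' j else 0) - M x b j * M x b' j := by
      intro j; split_ifs <;> ring
    simp only [this, sum_sub_distrib, sum_ite_eq', mem_univ, if_true]
  have hsum : ∑ b', M x b' s * ((if G (lab b') then -1 else 1) * M x b' s) = 1 - 2 * p := by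
    have : ∀ b', M x b' s * ((if G (lab b') then -1 else 1) * M x b' s)
        = M x b' s ^ 2 - 2 * (M x b' s ^ 2 * (if G (lab b') then 1 else 0)) := by
      intro b'; split_ifs <;> ring
    rw [hp, hE, mul_sum, sum_congr rfl (fun b _ => this b), sum_sub_distrib, hc]
  have hent : ∀ b, (((M x * S0) * (M x)ᵀ) * (SG * M x)) b s
      = M x b s * (2 * (1 - 2 * p) - if G (lab b) then -1 else 1) := by
    intro b
    rw [Matrix.mul_apply]
    simp only [hR, hSG, diagonal_mul, sub_mul, sum_sub_distrib, ite_mul, one_mul, zero_mul,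
      sum_ite_eq, mem_univ, if_true]
    rw [← hsum, mul_sub, mul_sum, mul_sum]
    congr 1
    · exact sum_congr rfl (fun b' _ => by split_ifs <;> ring)
    · split_ifs <;> ring
  beta_reduce
  rw [hE]
  refine sum_congr rfl (fun b _ => ?_)
  rw [hent]
  split_ifs <;> ring
end

end Vale.Agent.P362
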