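import Vale.Agent.P362.QD
import Vale.Agent.P362.DT

namespace Vale.Agent.P362

open Finset

/-- indicator -/
noncomputable def ind (P : Prop) : ℝ := by classical exact if P then 1 else 0

lemma ind_of {P : Prop} (h : P) : ind P = 1 := by simp [ind, h]
lemma ind_of_not {P : Prop} (h : ¬ P) : ind P = 0 := by simp [ind, h]
lemma ind_nonneg (P : Prop) : 0 ≤ ind P := by unfold ind; split_ifs <;> norm_num
lemma ind_le_one (P : Prop) : ind P ≤ 1 := by unfold ind; split_ifs <;> norm_num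
lemma ind_eq (P : Prop) [Decidable P] : ind P = if P then 1 else 0 := by
  by_cases h : P <;> simp [ind, h]
lemma ind_not (P : Prop) : ind (¬ P) = 1 - ind P := by by_cases h : P <;> simp [ind, h]
lemma ind_and (P Q : Prop) : ind (P ∧ Q) = ind P * ind Q := by
  by_cases h : P <;> by_cases h' : Q <;> simp [ind, h, h']
lemma ind_congr {P Q : Prop} (h : P ↔ Q) : ind P = ind Q := by rw [propext h]
lemma ind_mono {P Q : Prop} (h : P → Q) : ind P ≤ ind Q := by
  by_cases hp : P
  · rw [ind_of hp, ind_of (h hp)]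
  · rw [ind_of_not hp]; exact ind_nonneg _

variable {ι Ω : Type} {T : ℕ} {E : (ι → Bool) → (Ω → ℝ) → ℝ}

lemma QD.of_eq (h : QD T E) {E' : (ι → Bool) → (Ω → ℝ) → ℝ} (e : ∀ x φ, E' x φ = E x φ) :
    QD T E' := by
  have : E' = E := funext fun x => funext (e x)
  rw [this]; exact h

lemma DT.qd {t : ℕ} {g : (ι → Bool) → Ω} (h : DT t g) : QD t (fun x φ => φ (g x)) := by
  induction h with
  | const t a => exact (QD.pure a).mono (Nat.zero_le _)
  | @node t f g i _ _ ih1 ih2 =>
    have := (QD.query i).bind (T' := t)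
      (F := fun b x (φ : Ω → ℝ) => if b = true then φ (g x) else φ (f x))
      (fun b => by cases b <;> simpa)
    rw [add_comm] at this
    refine this.of_eq (fun x φ => ?_)
    beta_reduce
    split_ifs <;> rfl

lemma QD.iterAmp (h : QD T E) (G : Ω → Prop) [DecidablePred G] (s : ℕ) :
    ∃ E', QD (3 ^ s * T) E' ∧ ∀ x, ∃ a b : ℝ, 0 ≤ a ∧ 0 ≤ b ∧
      (∀ φ, E' x φ = E x (fun ω => (if G ω then a else b) * φ ω)) ∧
      a * E x (fun ω => ind (G ω))
        = Real.sin (3 ^ s * Real.arcsin (Real.sqrt (E x (fun ω => ind (G ω))))) ^ 2 := by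
  induction s with
  | zero =>
    refine ⟨E, by simpa using h, fun x => ⟨1, 1, zero_le_one, zero_le_one, by simp, ?_⟩⟩
    have h0 : 0 ≤ E x (fun ω => ind (G ω)) := (h.isEx x).nonneg (fun _ => ind_nonneg _)
    have h1 : E x (fun ω => ind (G ω)) ≤ 1 := (h.isEx x).le_const (fun _ => ind_le_one _)
    rw [pow_zero, one_mul, one_mul, Real.sin_arcsin (by linarith [Real.sqrt_nonneg (E x (fun ω => ind (G ω)))])
      (Real.sqrt_le_one.2 h1), Real.sq_sqrt h0]
  | succ s ih =>
    obtain ⟨E', hE', hx⟩ := ih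
    refine ⟨_, (hE'.amp G).mono (le_of_eq (by ring)), fun x => ?_⟩
    obtain ⟨a, b, ha, hb, hφ, hp⟩ := hx x
    have hp' : E' x (fun ω => if G ω then 1 else 0) = a * E x (fun ω => ind (G ω)) := by
      rw [hφ, ← (h.isEx x).const_mul]
      congr 1; funext ω
      by_cases hω : G ω <;> simp [ind, hω]
    set p' := E' x (fun ω => if G ω then 1 else 0)
    refine ⟨a * (3 - 4 * p') ^ 2, b * (1 - 4 * p') ^ 2, by positivity, by positivity,
      fun φ => ?_, ?_⟩
    · beta_reduce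
      rw [hφ]
      congr 1; funext ω
      split_ifs <;> ring
    · rw [mul_right_comm, ← hp', pow_succ (3 : ℝ) s, mul_comm (3 ^ s : ℝ) 3, mul_assoc,
        Real.sin_three_mul, hp', hp]
      ring

lemma exists_scale (p : ℝ) (h0 : 0 ≤ p) (h1 : p ≤ 1) (S : ℕ) (hS : 1 ≤ 4 * 9 ^ S * p) :
    ∃ s ≤ S, 1 / 16 ≤ Real.sin (3 ^ s * Real.arcsin (Real.sqrt p)) ^ 2 := by
  set θ := Real.arcsin (Real.sqrt p) with hθ
  have hθ0 : 0 ≤ θ := Real.arcsin_nonneg.2 (Real.sqrt_nonneg _)
  have hθ1 : θ ≤ Real.pi / 2 := Real.arcsin_le_pi_div_two _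
  have hsin : Real.sin θ = Real.sqrt p :=
    Real.sin_arcsin (by linarith [Real.sqrt_nonneg p]) (Real.sqrt_le_one.2 h1)
  have hθp : Real.sqrt p ≤ θ := hsin ▸ Real.sin_le hθ0
  have hex : ∃ s, 1 / 2 ≤ 3 ^ s * θ ∧ s ≤ S := by
    refine ⟨S, ?_, le_rfl⟩
    have h3 : (9 : ℝ) ^ S = (3 ^ S) ^ 2 := by rw [← pow_mul, mul_comm, pow_mul]; norm_num
    have h4 : (1 / 2) ^ 2 ≤ (3 ^ S * Real.sqrt p) ^ 2 := by
      rw [mul_pow, Real.sq_sqrt h0, ← h3]; linarith
    have h5 : 1 / 2 ≤ 3 ^ S * Real.sqrt p := by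
      exact (pow_le_pow_iff_left₀ (by norm_num) (by positivity) two_ne_zero).1 h4
    have : (3 : ℝ) ^ S * Real.sqrt p ≤ 3 ^ S * θ := by gcongr
    linarith
  classical
  let s := Nat.find hex
  have hs := Nat.find_spec hex
  refine ⟨s, hs.2, ?_⟩
  have hup : 3 ^ s * θ ≤ Real.pi / 2 := by
    rcases Nat.eq_zero_or_pos s with h | h
    · rw [h]; simpa using hθ1
    · obtain ⟨r, hr⟩ : ∃ r, s = r + 1 := ⟨s - 1, by omega⟩
      have hmin := Nat.find_min hex (m := r) (by omega)
      have hlt : 3 ^ r * θ < 1 / 2 := by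
        by_contra hc
        exact hmin ⟨not_lt.1 hc, by have := hs.2; omega⟩
      rw [hr, pow_succ]
      nlinarith [Real.pi_gt_three]
  have h2 := Real.mul_le_sin (by positivity : 0 ≤ 3 ^ s * θ) hup
  have h3 : 1 / 4 ≤ 2 / Real.pi * (3 ^ s * θ) := by
    have hpi := Real.pi_le_four
    have hpos := Real.pi_pos
    have : 1 / 2 ≤ 2 / Real.pi := by rw [div_le_div_iff₀ (by norm_num) hpos]; linarith
    have h6 := hs.1
    nlinarith
  nlinarith

lemma QD.search (h : QD T E) (G : Ω → Prop) [DecidablePred G] (S : ℕ) :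
    ∃ E', QD (3 ^ S * T) E' ∧ ∀ x, ∃ a b : ℝ, 0 ≤ a ∧ 0 ≤ b ∧
      (∀ φ, E' x φ = E x (fun ω => (if G ω then a else b) * φ ω)) ∧
      (1 ≤ 4 * 9 ^ S * E x (fun ω => ind (G ω)) →
        1 / (16 * (S + 1)) ≤ a * E x (fun ω => ind (G ω))) := by
  choose F hF hx using fun s : Fin (S + 1) => h.iterAmp G s
  have h1 := (QD.unif (ι := ι) (Fin (S + 1))).bind (T' := 3 ^ S * T) (F := F) (fun s =>
    (hF s).mono (Nat.mul_le_mul_right _ (Nat.pow_le_pow_right (by norm_num) (by omega))))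
  rw [zero_add] at h1
  refine ⟨_, h1, fun x => ?_⟩
  choose a b ha hb hφ hp using fun s => hx s x
  have hS : (0 : ℝ) < S + 1 := by positivity
  refine ⟨(∑ s, a s) / (S + 1), (∑ s, b s) / (S + 1),
    div_nonneg (sum_nonneg fun s _ => ha s) hS.le,
    div_nonneg (sum_nonneg fun s _ => hb s) hS.le, fun φ => ?_, fun hp1 => ?_⟩
  · obtain ⟨B, _, w, lab, -, -, hE⟩ := h.isEx x
    simp only [hφ, hE, Fintype.card_fin]
    rw [sum_comm, sum_div]
    refine sum_congr rfl (fun β _ => ?_)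
    push_cast
    split_ifs
    · rw [← mul_sum, ← sum_mul]; ring
    · rw [← mul_sum, ← sum_mul]; ring
  · have h0 : 0 ≤ E x (fun ω => ind (G ω)) := (h.isEx x).nonneg (fun _ => ind_nonneg _)
    have h1 : E x (fun ω => ind (G ω)) ≤ 1 := (h.isEx x).le_const (fun _ => ind_le_one _)
    obtain ⟨s, hs, hs'⟩ := exists_scale _ h0 h1 S hp1
    have h2 : a ⟨s, by omega⟩ ≤ ∑ s, a s := single_le_sum (fun s _ => ha s) (mem_univ _)
    have h3 := hp ⟨s, by omega⟩
    have h4 : 1 / 16 ≤ (∑ s, a s) * E x (fun ω => ind (G ω)) := by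
      have := mul_le_mul_of_nonneg_right h2 h0
      simp only at h3
      linarith
    rw [div_mul_eq_mul_div, le_div_iff₀ hS]
    calc 1 / (16 * ((S : ℝ) + 1)) * (S + 1) = 1 / 16 := by field_simp
      _ ≤ _ := h4

lemma QD.orRep {E : (ι → Bool) → (Bool → ℝ) → ℝ} (h : QD T E) (K : ℕ) :
    ∃ E', QD (K * T) E' ∧ ∀ x,
      E' x (fun b => ind (b = false)) = E x (fun b => ind (b = false)) ^ K := by
  induction K with
  | zero => exact ⟨_, by simpa using QD.pure (ι := ι) false, fun x => by simp [ind]⟩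
  | succ K ih =>
    obtain ⟨E', hE', hx⟩ := ih
    have h1 := h.bind (T' := K * T)
      (F := fun b x (φ : Bool → ℝ) => if b = true then φ true else E' x φ)
      (fun b => by
        cases b
        · simpa using hE'
        · simpa using (QD.pure (ι := ι) true).mono (Nat.zero_le _))
    refine ⟨_, h1.mono (le_of_eq (by ring)), fun x => ?_⟩
    beta_reduce
    rw [hx, pow_succ', ← (h.isEx x).mul_const]
    congr 1; funext b
    cases b <;> simp [ind]

lemma QD.count {E : (ι → Bool) → (Bool → ℝ) → ℝ} (h : QD T E) (m : ℕ) :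
    ∃ E' : (ι → Bool) → (ℝ → ℝ) → ℝ, QD (m * T) E' ∧ ∀ x,
      E' x (fun s => (s - m * E x (fun b => -sg b)) ^ 2) ≤ m := by
  induction m with
  | zero => exact ⟨_, by simpa using QD.pure (ι := ι) (0 : ℝ), fun x => by simp⟩
  | succ m ih =>
    obtain ⟨E', hE', hx⟩ := ih
    have h1 := hE'.bind (F := fun s x (φ : ℝ → ℝ) => E x (fun b => φ (s - sg b)))
      (fun s => h.map (fun b => s - sg b))
    refine ⟨_, h1.mono (le_of_eq (by ring)), fun x => ?_⟩
    beta_reduce
    set A := E x (fun b => -sg b) with hA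
    have hi := h.isEx x
    have key : ∀ s : ℝ, E x (fun b => (s - sg b - ((m + 1 : ℕ) : ℝ) * A) ^ 2)
        ≤ (s - m * A) ^ 2 + 1 := by
      intro s
      have e : ∀ b, (s - sg b - ((m + 1 : ℕ) : ℝ) * A) ^ 2
          = ((s - m * A) ^ 2 - 2 * (s - m * A) * A + A ^ 2 + 1)
            + (2 * (s - m * A) - 2 * A) * (-sg b) := by
        intro b; have := sg_mul_self b; push_cast; nlinarith
      simp only [e]
      rw [hi.add, hi.const, hi.const_mul, ← hA]
      nlinarith [sq_nonneg A]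
    refine ((hE'.isEx x).mono key).trans ?_
    rw [(hE'.isEx x).add, (hE'.isEx x).const]
    push_cast
    linarith [hx x]

lemma QD.majority {E : (ι → Bool) → (Bool → ℝ) → ℝ} (h : QD T E) (m : ℕ) (hm : 0 < m) (θ : ℝ) :
    ∃ E' : (ι → Bool) → (Bool → ℝ) → ℝ, QD (m * T) E' ∧ ∀ x (δ : ℝ) (a : Bool), 0 < δ →
      (if a = true then θ + δ ≤ E x (fun b => -sg b) else E x (fun b => -sg b) ≤ θ - δ) →
      1 - 1 / (m * δ ^ 2) ≤ E' x (fun b => ind (b = a)) := by
  classical
  obtain ⟨E', hE', hx⟩ := h.count m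
  refine ⟨_, hE'.map (fun s => decide (m * θ < s)), fun x δ a hδ ha => ?_⟩
  beta_reduce
  set A := E x (fun b => -sg b) with hA
  have hm' : (0 : ℝ) < m := by exact_mod_cast hm
  have hi := hE'.isEx x
  have key : ∀ s : ℝ, 1 - (s - m * A) ^ 2 * (1 / (m * δ) ^ 2)
      ≤ ind (decide (m * θ < s) = a) := by
    intro s
    by_cases hc : decide (m * θ < s) = a
    · rw [ind_of hc]
      have : 0 ≤ (s - m * A) ^ 2 * (1 / (m * δ) ^ 2) := by positivity
      linarith
    · rw [ind_of_not hc]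
      have h2 : (m * δ) ^ 2 ≤ (s - m * A) ^ 2 := by
        cases a
        · simp only [Bool.false_eq_true, if_false] at ha
          have h3 : m * θ < s := by simpa using hc
          have h4 : m * δ ≤ s - m * A := by nlinarith
          exact pow_le_pow_left₀ (by positivity) h4 2
        · simp only [if_true] at ha
          have h3 : s ≤ m * θ := by simpa using hc
          have h4 : m * δ ≤ m * A - s := by nlinarith
          have := pow_le_pow_left₀ (by positivity) h4 2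
          nlinarith
      have h5 : 1 ≤ (s - m * A) ^ 2 * (1 / (m * δ) ^ 2) := by
        rw [mul_one_div, le_div_iff₀ (by positivity)]; linarith
      linarith
  refine le_trans ?_ (hi.mono key)
  rw [hi.sub, hi.const, hi.mul_const]
  have h6 : E' x (fun s => (s - m * A) ^ 2) * (1 / (m * δ) ^ 2) ≤ m * (1 / (m * δ) ^ 2) :=
    mul_le_mul_of_nonneg_right (hx x) (by positivity)
  have h7 : (m : ℝ) * (1 / (m * δ) ^ 2) = 1 / (m * δ ^ 2) := by field_simp
  linarith

lemma QD.piRead : ∀ {c : ℕ} {F : Fin c → (ι → Bool) → (Ω → ℝ) → ℝ}, (∀ l, QD T (F l)) →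
    ∃ E' : (ι → Bool) → ((Fin c → Ω) → ℝ) → ℝ, QD (c * T) E' ∧
      ∀ x (a : Fin c → Ω), E' x (fun v => ind (v = a)) = ∏ l, F l x (fun b => ind (b = a l))
  | 0, F, _ => ⟨_, by simpa using QD.pure (ι := ι) (fun j : Fin 0 => (j.elim0 : Ω)),
      fun x a => by simp [ind_of (Subsingleton.elim (fun j : Fin 0 => (j.elim0 : Ω)) a)]⟩
  | c + 1, F, h => by
    obtain ⟨E', hE', hx⟩ := QD.piRead (F := fun l => F l.succ) (fun l => h l.succ)
    have h1 := (h 0).bind
      (F := fun b x (φ : (Fin (c + 1) → Ω) → ℝ) => E' x (fun v => φ (Fin.cons b v)))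
      (fun b => hE'.map (fun v => (Fin.cons b v : Fin (c + 1) → Ω)))
    refine ⟨_, h1.mono (le_of_eq (by ring)), fun x a => ?_⟩
    beta_reduce
    rw [Fin.prod_univ_succ, ← hx x (fun l => a l.succ), ← ((h 0).isEx x).mul_const]
    congr 1; funext b
    rw [← (hE'.isEx x).const_mul]
    congr 1; funext v
    rw [← ind_and]
    apply ind_congr
    constructor
    · rintro rfl; simp
    · rintro ⟨rfl, rfl⟩
      funext j; refine Fin.cases ?_ (fun j => ?_) j <;> simp

end Vale.Agent.P362
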