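import Vale.Agent.P362.Huang
import Vale.Agent.P362.Adv
import Vale.Agent.P362.Hit

namespace Vale.Agent.P362

open Finset
open scoped symmDiff

variable {n : ℕ}

/-- flip the bits in `A` -/
def flp (y : Fin n → Bool) (A : Finset (Fin n)) : Fin n → Bool :=
  fun i => xor (y i) (decide (i ∈ A))

/-- discrete derivative -/
def dd (f : (Fin n → Bool) → Bool) (M : Finset (Fin n)) (y : Fin n → Bool) : ℝ :=
  ∑ A ∈ M.powerset, (-1) ^ A.card * sg (f (flp y A))

/-- block sensitivity bound -/
def BS (f : (Fin n → Bool) → Bool) (b : ℕ) : Prop :=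
  ∀ x (r : ℕ) (B : Fin r → Finset (Fin n)), (∀ a a', a ≠ a' → Disjoint (B a) (B a')) →
    (∀ a, f (flp x (B a)) ≠ f x) → r ≤ b

/-- degree bound -/
def DEG (f : (Fin n → Bool) → Bool) (d : ℕ) : Prop := ∀ M y, dd f M y ≠ 0 → M.card ≤ d

lemma bs_le {f : (Fin n → Bool) → Bool} {T : ℕ} (h : QuantComputes f T) : BS f (1225 * T ^ 2) := by
  intro x r B hB hs
  have key : ∀ s : ℝ, 0 ≤ s → 2 / 35 * (r * s) ≤ T * (s ^ 2 + r) := by
    intro s hs0
    have := adversary h (fun _ : Fin r => x) (fun a => flp x (B a)) (fun a => (hs a).symm)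
      (fun _ => s) (fun _ => 1) (fun _ => by simpa using hs0) (s ^ 2 + r) (fun ν h0 h1 => ?_)
    · simpa using this
    · have e : ∀ a i, (if x i ≠ flp x (B a) i then s ^ 2 * ν x i + 1 ^ 2 * ν (flp x (B a)) i else 0)
          ≤ s ^ 2 * (if i ∈ B a then ν x i else 0) + ν (flp x (B a)) i := by
        intro a i
        by_cases hi : i ∈ B a
        · have : x i ≠ flp x (B a) i := by simp [flp, hi]
          simp [this, hi]
        · simp [flp, hi, h0]
      refine (sum_le_sum (fun a _ => sum_le_sum (fun i _ => e a i))).trans ?_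
      simp only [sum_add_distrib, h1, ← mul_sum]
      have h2 : ∑ a, ∑ i, (if i ∈ B a then ν x i else 0) ≤ 1 := by
        rw [sum_comm, ← h1 x]
        refine sum_le_sum (fun i _ => ?_)
        by_cases hi : ∃ a, i ∈ B a
        · obtain ⟨a, ha⟩ := hi
          rw [sum_eq_single a]
          · simp [ha]
          · intro a' _ hne
            exact if_neg (fun h' => disjoint_left.1 (hB a' a hne) h' ha)
          · simp
        · push Not at hi
          simp [hi, h0]
      have := mul_le_mul_of_nonneg_left h2 (sq_nonneg s)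
      simp only [sum_const, card_univ, Fintype.card_fin, nsmul_eq_mul, mul_one] at this ⊢
      linarith
  rcases Nat.eq_zero_or_pos T with hT | hT
  · have := key 1 zero_le_one
    subst hT
    simp only [Nat.cast_zero, zero_mul, mul_one] at this
    have h3 : (r : ℝ) ≤ 0 := by linarith
    have : r = 0 := by exact_mod_cast le_antisymm h3 (Nat.cast_nonneg r)
    omega
  · have := key (35 * T) (by positivity)
    have hT' : (0 : ℝ) < T := by exact_mod_cast hT
    have h3 : (r : ℝ) ≤ 1225 * T ^ 2 := by
      refine le_of_mul_le_mul_left ?_ hT'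
      nlinarith
    exact_mod_cast h3

lemma deg_le {f : (Fin n → Bool) → Bool} {T : ℕ} (h : QuantComputes f T) :
    DEG f (1225 * T ^ 2) := by
  intro M y hy
  rcases M.eq_empty_or_nonempty with rfl | hM
  · simp
  obtain ⟨v, hv0, hv⟩ := huang hM (fun A => f (flp y A)) hy
  set s := (M.powerset ×ˢ M).filter (fun p => f (flp y p.1) ≠ f (flp y (p.1 ∆ {p.2}))) with hs
  have h1 := adversary h (fun k : s => flp y k.1.1) (fun k => flp y (k.1.1 ∆ {k.1.2}))
    (fun k => (mem_filter.1 k.2).2) (fun k => |v k.1.1|) (fun k => |v (k.1.1 ∆ {k.1.2})|)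
    (fun k => by positivity) (2 * ∑ A ∈ M.powerset, v A ^ 2) (fun ν h0 h1 => ?_)
  · rw [sum_coe_sort s (fun p => |v p.1| * |v (p.1 ∆ {p.2})|), hs, sum_filter, sum_product] at h1
    have h2 : Real.sqrt M.card ≤ 35 * T := by
      refine le_of_mul_le_mul_right ?_ hv0
      linarith
    have h3 := pow_le_pow_left₀ (Real.sqrt_nonneg _) h2 2
    rw [Real.sq_sqrt (by positivity)] at h3
    have h4 : (M.card : ℝ) ≤ 1225 * T ^ 2 := by linarith
    exact_mod_cast h4
  · have e : ∀ (A : Finset (Fin n)) (i : Fin n), ∑ j, (if flp y A j ≠ flp y (A ∆ {i}) j then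
        |v A| ^ 2 * ν (flp y A) j + |v (A ∆ {i})| ^ 2 * ν (flp y (A ∆ {i})) j else 0)
        = v A ^ 2 * ν (flp y A) i + v (A ∆ {i}) ^ 2 * ν (flp y (A ∆ {i})) i := by
      intro A i
      rw [sum_eq_single i]
      · rw [if_pos, sq_abs, sq_abs]
        by_cases hi : i ∈ A <;> simp [flp, mem_symmDiff, hi]
      · intro j _ hj
        rw [if_neg]
        simp [flp, mem_symmDiff, hj]
      · simp
    simp only [e]
    rw [sum_coe_sort s (fun p => v p.1 ^ 2 * ν (flp y p.1) p.2
      + v (p.1 ∆ {p.2}) ^ 2 * ν (flp y (p.1 ∆ {p.2})) p.2)]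
    refine (sum_le_sum_of_subset_of_nonneg (filter_subset _ _) (fun p _ _ =>
      add_nonneg (mul_nonneg (sq_nonneg _) (h0 _ _)) (mul_nonneg (sq_nonneg _) (h0 _ _)))).trans ?_
    rw [sum_add_distrib, sum_product, sum_product_right]
    have e2 : ∑ i ∈ M, ∑ A ∈ M.powerset, v (A ∆ {i}) ^ 2 * ν (flp y (A ∆ {i})) i
        = ∑ A ∈ M.powerset, ∑ i ∈ M, v A ^ 2 * ν (flp y A) i := by
      rw [sum_comm (s := M.powerset)]
      exact sum_congr rfl (fun i hi => sum_tog M hi (fun A => v A ^ 2 * ν (flp y A) i))
    have h3 : ∑ A ∈ M.powerset, ∑ i ∈ M, v A ^ 2 * ν (flp y A) i ≤ ∑ A ∈ M.powerset, v A ^ 2 := by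
      refine sum_le_sum (fun A _ => ?_)
      rw [← mul_sum]
      refine mul_le_of_le_one_right (sq_nonneg _) ?_
      rw [← h1 (flp y A)]
      exact sum_le_sum_of_subset_of_nonneg (subset_univ _) (fun i _ _ => h0 _ _)
    simp only at e2 ⊢
    linarith

lemma flp_insert (y : Fin n → Bool) {A : Finset (Fin n)} {i : Fin n} (hi : i ∉ A) :
    flp y (insert i A) = flp (flp y {i}) A := by
  funext j
  by_cases hj : j = i
  · subst hj; simp [flp, hi]
  · simp [flp, hj]

lemma flp_flp (y : Fin n → Bool) (i : Fin n) : flp (flp y {i}) {i} = y := by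
  funext j; simp [flp]

lemma cube_conn (P : (Fin n → Bool) → Prop) (h : ∀ y i, P y → P (flp y {i})) (y0 : Fin n → Bool)
    (h0 : P y0) (y : Fin n → Bool) : P y := by
  have key : ∀ A : Finset (Fin n), ∀ y0, P y0 → P (flp y0 A) := by
    intro A
    induction A using Finset.induction_on with
    | empty => intro y0 h0; convert h0; funext j; simp [flp]
    | @insert i A hi ih => intro y0 h0; rw [flp_insert _ hi]; exact ih _ (h _ _ h0)
  convert key (univ.filter (fun i => y i ≠ y0 i)) y0 h0
  funext j
  simp only [flp, mem_filter, mem_univ, true_and]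
  cases y j <;> cases y0 j <;> simp

lemma dd_insert (f : (Fin n → Bool) → Bool) {M : Finset (Fin n)} {i : Fin n} (hi : i ∉ M)
    (y : Fin n → Bool) : dd f (insert i M) y = dd f M y - dd f M (flp y {i}) := by
  unfold dd
  rw [sum_powerset_insert hi, sub_eq_add_neg, ← sum_neg_distrib]
  congr 1
  refine sum_congr rfl (fun A hA => ?_)
  have : i ∉ A := fun h => hi (mem_powerset.1 hA h)
  rw [card_insert_of_notMem this, flp_insert _ this]; ring

/-- overlay -/
def ov (M : Finset (Fin n)) (z x : Fin n → Bool) : Fin n → Bool :=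
  fun i => if i ∈ M then z i else x i

lemma ov_flp (M : Finset (Fin n)) (z x : Fin n → Bool) (A : Finset (Fin n)) :
    ov M z (flp x A) = flp (ov M z x) (A \ M) := by
  funext i
  by_cases hi : i ∈ M <;> simp [ov, flp, hi]

lemma DEG.ov {f : (Fin n → Bool) → Bool} {d : ℕ} (h : DEG f d) (M : Finset (Fin n))
    (z : Fin n → Bool) : DEG (fun x => f (ov M z x)) d := by
  intro M' y hy
  by_cases hd : Disjoint M' M
  · refine h M' (P362.ov M z y) ?_
    convert hy using 1
    unfold dd
    refine sum_congr rfl (fun A hA => ?_)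
    beta_reduce
    rw [ov_flp, sdiff_eq_self_of_disjoint (disjoint_of_subset_left (mem_powerset.1 hA) hd)]
  · exfalso
    obtain ⟨i, hi, hi'⟩ := not_disjoint_iff.1 hd
    apply hy
    rw [← insert_erase hi, dd_insert _ (notMem_erase _ _), sub_eq_zero]
    unfold dd
    refine sum_congr rfl (fun A _ => ?_)
    have e : P362.ov M z (flp y A) = P362.ov M z (flp (flp y {i}) A) := by
      funext j
      by_cases hj : j ∈ M
      · simp [P362.ov, hj]
      · have : j ≠ i := fun h => hj (h ▸ hi')
        simp [P362.ov, flp, hj, this]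
    beta_reduce
    rw [e]

theorem midri (d : ℕ) : ∀ (j : ℕ) (f : (Fin n → Bool) → Bool), BS f j → DEG f d → DT (d * j) f := by
  have main : ∀ (f : (Fin n → Bool) → Bool), DEG f d → (∃ a, ∀ x, f x = a) ∨
      ∃ M : Finset (Fin n), M.card ≤ d ∧ ∀ y, ∃ B ⊆ M, f (flp y B) ≠ f y := by
    intro f hd
    by_cases hc : ∀ y i, f (flp y {i}) = f y
    · exact Or.inl ⟨f (fun _ => false), cube_conn (fun x => f x = f (fun _ => false))
        (fun y i h => by rw [hc, h]) _ rfl⟩
    · right
      push Not at hc
      obtain ⟨y0, i, hi⟩ := hc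
      classical
      have h1 : ({i} : Finset (Fin n)) ∈ univ.filter (fun M => ∃ y, dd f M y ≠ 0) := by
        refine mem_filter.2 ⟨mem_univ _, y0, ?_⟩
        have : ({i} : Finset (Fin n)) = insert i ∅ := rfl
        have e0 : ∀ y : Fin n → Bool, flp y ∅ = y := fun y => by funext j; simp [flp]
        rw [this, dd_insert _ (notMem_empty _)]
        simp only [dd, powerset_empty, sum_singleton, card_empty, pow_zero, one_mul, e0]
        revert hi
        cases f (flp y0 {i}) <;> cases f y0 <;> norm_num
      obtain ⟨M, hM, hmax⟩ := exists_max_image _ card ⟨_, h1⟩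
      obtain ⟨y1, hy1⟩ := (mem_filter.1 hM).2
      have hne : M.Nonempty := card_pos.1 (by simpa using hmax _ h1)
      have hall : ∀ y, dd f M y ≠ 0 := by
        refine cube_conn _ (fun y i hy => ?_) y1 hy1
        by_cases hi : i ∈ M
        · rw [← insert_erase hi, dd_insert _ (notMem_erase _ _)] at hy ⊢
          rw [flp_flp]
          intro h; apply hy; linarith
        · have h2 : dd f (insert i M) y = 0 := by
            by_contra h3
            have := hmax _ (mem_filter.2 ⟨mem_univ (insert i M), y, h3⟩)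
            rw [card_insert_of_notMem hi] at this; omega
          rw [dd_insert _ hi, sub_eq_zero] at h2
          rwa [← h2]
      refine ⟨M, hd M y1 hy1, fun y => ?_⟩
      by_contra hc
      push Not at hc
      apply hall y
      unfold dd
      rw [sum_congr rfl (fun A hA => by rw [hc A (mem_powerset.1 hA)]), ← sum_mul]
      have := sum_powerset_neg_one_pow_card_of_nonempty hne
      have h3 : ∑ A ∈ M.powerset, (-1 : ℝ) ^ A.card = 0 := by exact_mod_cast this
      rw [h3, zero_mul]
  intro j
  induction j with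
  | zero =>
    intro f hb hd
    rcases main f hd with ⟨a, ha⟩ | ⟨M, -, hM⟩
    · exact (DT.const _ a).of_eq ha
    · obtain ⟨B, -, hB⟩ := hM (fun _ => false)
      have := hb _ 1 (fun _ => B) (fun a a' h => absurd (Subsingleton.elim a a') h) (fun _ => hB)
      omega
  | succ j ih =>
    intro f hb hd
    rcases main f hd with ⟨a, ha⟩ | ⟨M, hMd, hM⟩
    · exact (DT.const _ a).of_eq ha
    · have h1 : ∀ z, DT (d * j) (fun x => f (ov M z x)) := by
        intro z
        refine ih _ (fun x r B hB hs => ?_) (hd.ov M z)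
        obtain ⟨B0, hB0, hs0⟩ := hM (ov M z x)
        have := hb (ov M z x) (r + 1) (Fin.cons B0 (fun a => B a \ M)) (fun a a' => ?_)
          (fun a => ?_)
        · omega
        · refine Fin.cases ?_ (fun a => ?_) a <;> refine Fin.cases ?_ (fun a' => ?_) a'
          · intro h; exact absurd rfl h
          · intro _
            simp only [Fin.cons_zero, Fin.cons_succ]
            exact disjoint_of_subset_left hB0 disjoint_sdiff
          · intro _
            simp only [Fin.cons_zero, Fin.cons_succ]
            exact (disjoint_of_subset_left hB0 disjoint_sdiff).symm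
          · intro h
            simp only [Fin.cons_succ]
            exact disjoint_of_subset_left sdiff_subset (disjoint_of_subset_right sdiff_subset
              (hB a a' (fun h' => h (by rw [h']))))
        · refine Fin.cases ?_ (fun a => ?_) a
          · simpa using hs0
          · simp only [Fin.cons_succ]
            rw [← ov_flp]; exact hs a
      have h2 := (DT.pi (g := fun (i : M) (x : Fin n → Bool) => x i) (fun i => DT.query _)).bind
        (k := fun a x => f (ov M (fun i => if h : i ∈ M then a ⟨i, h⟩ else false) x))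
        (fun a => h1 _)
      refine (h2.of_eq (fun x => ?_)).mono ?_
      · congr 1; funext i
        by_cases hi : i ∈ M <;> simp [ov, hi]
      · simp only [Fintype.card_coe, mul_one]
        rw [mul_add, mul_one, add_comm]; omega

theorem rand_of_quant {f : (Fin n → Bool) → Bool} {T : ℕ} (h : QuantComputes f T) :
    RandComputes f (1225 * T ^ 2 * (1225 * T ^ 2)) :=
  (midri _ _ f (bs_le h) (deg_le h)).randComputes

end Vale.Agent.P362
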